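import Crest.Agent.KU.Jobs

/-! Row 180, job A5: joint surjectivity of the quadratic part in the split picture. -/

set_option autoImplicit false
set_option linter.unusedSectionVars false

namespace Crest.Agent.KU
namespace A5x

open Finset Module

section gen

variable {Ω : Type} [Field Ω] {q : ℕ} [NeZero q]

lemma fin_supp {A : Type} [Ring A] [Algebra Ω A] (f : La Ω) (y : Lq A q) (n : ℤ) :
    (Function.support fun a : ℤ => f.co a • y.co (n - q * a)).Finite := by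
  obtain ⟨N₁, h₁⟩ := f.bdd
  obtain ⟨N₂, h₂⟩ := y.bdd
  refine (Set.finite_Icc N₁ |n - N₂|).subset fun a ha => ?_
  rw [Function.mem_support] at ha
  have hq : (1 : ℤ) ≤ q := by exact_mod_cast NeZero.pos q
  constructor
  · by_contra h; exact ha (by simp [h₁ a (by omega)])
  · by_contra h
    have h0 := abs_nonneg (n - N₂)
    have h1 := le_abs_self (n - N₂)
    have h2 : a ≤ q * a := by nlinarith
    exact ha (by simp [h₂ (n - q * a) (by omega)])

/-- coefficientwise application of a linear map -/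
noncomputable def lmap {A B : Type} [Ring A] [Algebra Ω A] [Ring B] [Algebra Ω B]
    (φ : A →ₗ[Ω] B) : Lq A q →ₗ[La Ω] Lq B q where
  toFun y := ⟨fun n => φ (y.co n), by
    obtain ⟨a, ha⟩ := y.bdd; exact ⟨a, fun n hn => by simp [ha n hn]⟩⟩
  map_add' y z := by ext n; simp
  map_smul' f y := by
    ext n
    change φ ((f • y).co n) = _
    rw [RingHom.id_apply, Sk.co_smul, Sk.co_smul]
    have := φ.toAddMonoidHom.map_finsum (fin_supp f y n)
    simpa using this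

lemma co_lmap {A B : Type} [Ring A] [Algebra Ω A] [Ring B] [Algebra Ω B] (φ : A →ₗ[Ω] B)
    (y : Lq A q) (n : ℤ) : (lmap φ y : Lq B q).co n = φ (y.co n) := rfl

lemma sum_pos (T : ZMod q) (p n : ℕ) (hp : p < q) (hn : n ≤ q) (f : ZMod q → Ω) :
    ∑ a ∈ range n, (if (T + a : ZMod q) = T + p then (1 : Ω) else 0) * f (T + a) =
      if p < n then f (T + p) else 0 := by
  have key : ∀ a < n, ((T + a : ZMod q) = T + p ↔ a = p) := fun a ha => by
    rw [add_right_inj, ZMod.natCast_eq_natCast_iff', Nat.mod_eq_of_lt (by omega),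
      Nat.mod_eq_of_lt hp]
  rw [sum_congr rfl (g := fun a => if a = p then f (T + a) else 0) fun a ha => by
    simp only [key a (mem_range.1 ha), ite_mul, one_mul, zero_mul]]
  simp only [sum_ite_eq', mem_range]

lemma tri_indep {K S : Type} [Fintype S] [DecidableEq K] {r : ℕ} (t : S → Fin r) (k : S → K)
    (hinj : ∀ i j, t i = t j → k i = k j → i = j) (L : S → Fin r → K → Ω)
    (h1 : ∀ i κ, L i (t i) κ = if κ = k i then 1 else 0)
    (h2 : ∀ i t', t i < t' → ∀ κ, L i t' κ = 0) : LinearIndependent Ω L := by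
  rw [Fintype.linearIndependent_iff]
  intro g hg
  have : ∀ n : ℕ, ∀ i, r ≤ t i + n → g i = 0 := by
    intro n
    induction n with
    | zero => intro i hi; have := (t i).2; omega
    | succ n ih =>
      intro i hi
      have e := congrFun (congrFun hg (t i)) (k i)
      simp only [Finset.sum_apply, Pi.smul_apply, smul_eq_mul, Pi.zero_apply] at e
      rw [Finset.sum_eq_single i] at e
      · simpa [h1] using e
      · intro j _ hj
        rcases lt_trichotomy (t j) (t i) with h | h | h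
        · rw [h2 j _ h, mul_zero]
        · rw [← h, h1, if_neg (fun hk => hj (hinj _ _ h hk.symm)), mul_zero]
        · rw [ih j (by have : (t i : ℕ) < t j := h; omega), zero_mul]
      · simp
  exact fun i => this r i (by omega)

variable {ι : Type} [Fintype ι] [DecidableEq ι]

lemma lv_smul (l v : ι → Ω) (s : Ω) : lv l (fun i => s * v i) = s * lv l v := by
  simp only [lv, mul_sum]; exact sum_congr rfl fun i _ => by ring

lemma zz_add (l : ι → Ω) (x : ZMod q → ι → Ω) (m n : ℕ) (j : ZMod q) :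
    zz l x (m + n) j = zz l x m j * zz l x n (j + m) := by
  simp only [zz, prod_range_add, Nat.cast_add, add_assoc]

lemma zz_one (l : ι → Ω) (x : ZMod q → ι → Ω) (j : ZMod q) : zz l x 1 j = lv l (x j) := by
  simp [zz]

lemma zz_ne (l : ι → Ω) (x : ZMod q → ι → Ω) (h : ∀ j, lv l (x j) ≠ 0) (m : ℕ) (j : ZMod q) :
    zz l x m j ≠ 0 := prod_ne_zero_iff.2 fun _ _ => h _

lemma fm_surj {K : Type} [Fintype K] [DecidableEq K] {l : K → ι → Ω} {x : ZMod q → ι → Ω} {m : ℕ}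
    (h : Fm l x m) (y : K → Ω) :
    ∃ η : ZMod q → ι → Ω, ∀ κ, ∑ j, lv (l κ) (η j) * (zz (l κ) x m j)⁻¹ = y κ := by
  let u : ZMod q × ι → K → Ω := fun p κ => (zz (l κ) x m p.1)⁻¹ * l κ p.2
  have hs : Submodule.span Ω (Set.range u) = ⊤ := by
    by_contra hne
    obtain ⟨φ, hφ, hle⟩ := Submodule.exists_le_ker_of_lt_top _ (lt_top_iff_ne_top.2 hne)
    have hγ := h (fun κ => φ fun κ' => if κ = κ' then 1 else 0) fun j i => by
      have := hle (Submodule.subset_span ⟨(j, i), rfl⟩)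
      rw [LinearMap.mem_ker, LinearMap.pi_apply_eq_sum_univ] at this
      refine Eq.trans ?_ this
      exact sum_congr rfl fun κ _ => by simp only [u, smul_eq_mul]; ring
    apply hφ
    refine LinearMap.ext fun z => ?_
    rw [LinearMap.pi_apply_eq_sum_univ]
    refine sum_eq_zero fun κ _ => ?_
    rw [congrFun hγ κ]; simp
  obtain ⟨g, hg⟩ := (Submodule.mem_span_range_iff_exists_fun Ω).1
    (show y ∈ Submodule.span Ω (Set.range u) from hs ▸ Submodule.mem_top)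
  refine ⟨fun j i => g (j, i), fun κ => ?_⟩
  rw [← hg, Finset.sum_apply, Fintype.sum_prod_type]
  refine sum_congr rfl fun j _ => ?_
  simp only [lv, sum_mul, u, Pi.smul_apply, smul_eq_mul]
  exact sum_congr rfl fun i _ => by ring

end gen

section nf

variable {Ω E ι : Type} [Field Ω] [CharZero Ω] [Fintype E] [Fintype ι] [DecidableEq ι] {q : ℕ}
  [NeZero q] {b : NC (E → Ω) ι} {x : ZMod q → ι → Ω} {N : NFD b x} (c : Cls (lOf b))

/-- order at least `n` on the representatives -/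
def PO (n : ℤ) (y : Lq (E → Ω) q) : Prop := ∀ m < n, ∀ κ, y.co m (c.rep κ) = 0

variable {c}

lemma PO.of_ord {n : ℤ} {y : Lq (E → Ω) q} (h : y ∈ Sk.ord _ _ n) : PO c n y :=
  fun m hm κ => by rw [h m hm]; rfl

lemma PO.mono {n n' : ℤ} {y : Lq (E → Ω) q} (h : PO c n y) (hn : n' ≤ n) : PO c n' y :=
  fun m hm => h m (by omega)

/-- the direction `η s^m` -/
noncomputable def dm (m : ℤ) (η : ZMod q → ι → Ω) : ι → EE Ω q :=
  fun i => Sk.mono _ _ m fun j => η j i

lemma dm_ord (m : ℤ) (η : ZMod q → ι → Ω) (i : ι) : dm m η i ∈ Sk.ord _ _ m :=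
  Sk.mono_mem_ord _ _

lemma dm_co (m : ℤ) (η : ZMod q → ι → Ω) (i : ι) (j : ZMod q) : (dm m η i).co m j = η j i := by
  simp [dm]

lemma lam_zero (api : NFAPI N) : N.lam 0 = 0 := by
  have := api.lam_add 0 0
  rw [add_zero] at this
  exact left_eq_add.1 this

lemma lam_co (api : NFAPI N) (m : ℕ) (η : ZMod q → ι → Ω) (κ : c.K) :
    (N.lam (dm m η)).co m (c.rep κ) = (q : Ω)⁻¹ * N.α.co 1 (c.rep κ) ^ m *
      ∑ j, lv (c.lr κ) (η j) * (zz (c.lr κ) x m j)⁻¹ := by
  rw [(api.lam_lead m _ (dm_ord m η)).2, mul_assoc]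
  congr 1
  rw [mul_sum]
  refine sum_congr rfl fun j _ => ?_
  simp only [dm_co]
  change lv (c.lr κ) (η j) * (_ * (zz (c.lr κ) x m j)⁻¹) = _
  ring

lemma hit (api : NFAPI N) {m : ℕ} (h : Fm c.lr x m) (y : c.K → Ω) :
    ∃ δ : ι → EE Ω q, N.lam δ ∈ Sk.ord _ _ m ∧ ∀ κ, (N.lam δ).co m (c.rep κ) = y κ := by
  obtain ⟨η, hη⟩ := fm_surj h fun κ => q * (N.α.co 1 (c.rep κ) ^ m)⁻¹ * y κ
  refine ⟨dm m η, (api.lam_lead m _ (dm_ord m η)).1, fun κ => ?_⟩
  have h1 : (q : Ω) ≠ 0 := Nat.cast_ne_zero.2 (NeZero.ne q)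
  have h2 := api.α_ne (c.rep κ)
  rw [lam_co api, hη]
  field_simp

lemma raise (api : NFAPI N) (hF : ∀ m, 1 ≤ m → m < q → Fm c.lr x m) (y : Lq (E → Ω) q)
    (hy : PO c 1 y) : ∃ δ : ι → EE Ω q, PO c q (y + N.lam δ) := by
  have : ∀ n : ℕ, n + 1 ≤ q → ∃ δ : ι → EE Ω q, PO c ((n + 1 : ℕ) : ℤ) (y + N.lam δ) := by
    intro n
    induction n with
    | zero => intro _; exact ⟨0, by rw [lam_zero api, add_zero]; exact hy⟩
    | succ n ih =>
      intro hn
      obtain ⟨δ, hδ⟩ := ih (by omega)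
      obtain ⟨δ', h1, h2⟩ := hit api (hF (n + 1) (by omega) (by omega))
        fun κ => -(y + N.lam δ).co ((n + 1 : ℕ) : ℤ) (c.rep κ)
      refine ⟨δ + δ', fun m hm κ => ?_⟩
      rw [api.lam_add, ← add_assoc, Sk.co_add, Pi.add_apply]
      rcases eq_or_lt_of_le (show m ≤ ((n + 1 : ℕ) : ℤ) by push_cast at hm ⊢; omega) with rfl | h
      · rw [h2]; ring
      · rw [hδ m h, h1 m h]; simp
  obtain ⟨δ, hδ⟩ := this (q - 1) (by have := NeZero.pos q; omega)
  exact ⟨δ, by rwa [Nat.sub_add_cancel (NeZero.pos q)] at hδ⟩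

lemma kerlift (api : NFAPI N)
    (h3 : ∀ (δ₀ : ι → EE Ω q) (n : ℤ), prj q c.rep (N.lam δ₀) ∈ Sk.ord _ _ n →
      ∃ δ₁ : ι → EE Ω q, (∀ i, δ₁ i ∈ Sk.ord _ _ n) ∧ N.lam δ₁ = N.lam δ₀)
    (m : ℕ) (η : ZMod q → ι → Ω)
    (hη : ∀ κ, ∑ j, lv (c.lr κ) (η j) * (zz (c.lr κ) x m j)⁻¹ = 0) :
    ∃ δ : ι → EE Ω q, (∀ i, δ i ∈ Sk.ord _ _ m) ∧ (∀ i j, (δ i).co m j = η j i) ∧
      N.lam δ = 0 := by
  obtain ⟨δ₁, h1, h2⟩ := h3 (dm m η) (m + 1) fun n hn => by
    funext κ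
    change (N.lam (dm m η)).co n (c.rep κ) = 0
    rcases eq_or_lt_of_le (show n ≤ m by omega) with rfl | h
    · rw [lam_co api, hη, mul_zero]
    · rw [(api.lam_lead m _ (dm_ord m η)).1 n h]; rfl
  refine ⟨dm m η - δ₁, fun i => sub_mem (dm_ord m η i) fun n hn => h1 i n (by omega),
    fun i j => ?_, ?_⟩
  · rw [Pi.sub_apply, Sk.co_sub, h1 i m (by omega), sub_zero, dm_co]
  · have := api.lam_add (dm m η - δ₁) δ₁
    rw [sub_add_cancel, h2] at this
    exact right_eq_add.1 this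

lemma conj_ord {n : ℤ} {Y : EE (E → Ω) q} (hY : Y ∈ Sk.ord _ _ n) :
    avg Ω (N.w' * Y * N.w) ∈ Sk.ord _ _ n := fun m hm => by
  have := Sk.mul_mem_ord (Sk.mul_mem_ord N.hw' hY) N.hw m (by omega)
  simp [avg, this]

lemma conj_co (api : NFAPI N) {Y : EE (E → Ω) q} (hY : Y ∈ Sk.ord _ _ (q : ℤ)) (k : E) :
    (avg Ω (N.w' * Y * N.w)).co q k = (q : Ω)⁻¹ * ∑ j, Y.co q j k := by
  have h1 := Sk.co_mul_lead N.hw' hY
  have h2 := Sk.co_mul_lead (Sk.mul_mem_ord N.hw' hY) N.hw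
  rw [h1] at h2
  simp only [zero_add, add_zero] at h2
  change ((q : Ω)⁻¹ • ∑ j : ZMod q, (N.w' * Y * N.w).co q j) k = _
  rw [h2, Pi.smul_apply, Finset.sum_apply, smul_eq_mul]
  congr 1
  refine sum_congr rfl fun j _ => ?_
  have := (api.lead_w j k).1
  simp only [Pi.mul_apply, shift_zpow_apply, Int.cast_natCast, ZMod.natCast_self, add_zero,
    Int.cast_zero]
  linear_combination Y.co q j k * this

lemma lam_mem (api : NFAPI N) {r : ℕ} (e : Fin r → ι → EE Ω q) (δ : Fin r → ι → EE Ω q) :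
    (fun t => N.lam (δ t)) ∈ N.JS e := by
  obtain ⟨ω, -, hω⟩ := api.ad 0 (DE1 b x 0) (api.de1_lead 0 0 fun _ => zero_mem _).1
    (lam_zero api)
  have h1 : (fun t => avg Ω (N.w' * (DE2 b x (e t) 0 + DE1 b x (e t) * ω) * N.w) + N.lam (δ t))
      ∈ N.JS e := Submodule.subset_span ⟨0, ω, δ, hω, fun _ => rfl⟩
  have h2 : (fun t => avg Ω (N.w' * (DE2 b x (e t) 0 + DE1 b x (e t) * ω) * N.w) + N.lam 0)
      ∈ N.JS e := Submodule.subset_span ⟨0, ω, fun _ => 0, hω, fun _ => rfl⟩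
  convert sub_mem h1 h2 using 1
  funext t
  simp [lam_zero api]

/-- the profile of a cluster -/
noncomputable def clu {M : ℕ} (τ : Fin M → Ω) (T : ZMod q) (p : ℕ) (j : ZMod q) : Ω :=
  ∑ r, τ r * if j = T + ((p + r : ℕ) : ZMod q) then 1 else 0

lemma sum_clu {M : ℕ} (τ : Fin M → Ω) (T : ZMod q) (p : ℕ) (f : ZMod q → Ω) :
    ∑ j, clu τ T p j * f j = ∑ r, τ r * f (T + p + (r : ℕ)) := by
  simp only [clu, sum_mul]
  rw [sum_comm]
  refine sum_congr rfl fun r _ => ?_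
  simp [add_assoc]

lemma sum_clu_range {M : ℕ} (τ : Fin M → Ω) (T : ZMod q) (p n : ℕ) (hp : p + M ≤ q) (hn : n ≤ q)
    (f : ZMod q → Ω) : ∑ a ∈ range n, clu τ T p (T + a) * f (T + a) =
      ∑ r : Fin M, τ r * if p + r < n then f (T + p + (r : ℕ)) else 0 := by
  simp only [clu, sum_mul]
  rw [sum_comm]
  refine sum_congr rfl fun r _ => ?_
  have := sum_pos T (p + r) n (by have := r.2; omega) hn f
  simp only [mul_assoc, ← mul_sum]
  rw [this]
  simp [add_assoc]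

/-- the vectors `e` -/
lemma exists_e (api : NFAPI N) (hV : VanI c.lr x)
    (h3 : ∀ (δ₀ : ι → EE Ω q) (n : ℤ), prj q c.rep (N.lam δ₀) ∈ Sk.ord _ _ n →
      ∃ δ₁ : ι → EE Ω q, (∀ i, δ₁ i ∈ Sk.ord _ _ n) ∧ N.lam δ₁ = N.lam δ₀)
    (T : ℕ) (h1 : Fintype.card c.K ≤ T) (h2 : T + Fintype.card c.K ≤ q) :
    ∃ (e : ι → EE Ω q) (τ : Fin (Fintype.card c.K) → Ω), (∀ i, e i ∈ Sk.ord _ _ T) ∧
      (∀ i j, (e i).co T j = ((if j = 0 then 1 else 0) + clu τ 0 (Fintype.card c.K) j) * x 0 i) ∧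
      N.lam e = 0 ∧ ∀ κ, ∑ r, τ r * (zz (c.lr κ) x T ((Fintype.card c.K : ZMod q) + (r : ℕ)))⁻¹ =
        -(zz (c.lr κ) x T 0)⁻¹ := by
  obtain ⟨τ, hτ⟩ := hV T h1 h2 (Fintype.card c.K) fun κ => -(zz (c.lr κ) x T 0)⁻¹
  obtain ⟨e, a1, a2, a3⟩ := kerlift api h3 T
    (fun j i => ((if j = 0 then 1 else 0) + clu τ 0 (Fintype.card c.K) j) * x 0 i) fun κ => by
      simp only [lv_smul]
      simp only [add_mul, sum_add_distrib, mul_assoc]
      rw [sum_clu]
      have := hτ κ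
      simp only [zero_add, ite_mul, one_mul, zero_mul, sum_ite_eq', mem_univ, if_true]
      simp only [mul_left_comm (τ _), ← mul_sum, this]
      ring
  exact ⟨e, τ, a1, a2, a3, hτ⟩

/-- the vectors `δ`, `ω` with a prescribed jump -/
lemma exists_jump (api : NFAPI N) (g0 : G0 c.lr x) (hV : VanI c.lr x)
    (h3 : ∀ (δ₀ : ι → EE Ω q) (n : ℤ), prj q c.rep (N.lam δ₀) ∈ Sk.ord _ _ n →
      ∃ δ₁ : ι → EE Ω q, (∀ i, δ₁ i ∈ Sk.ord _ _ n) ∧ N.lam δ₁ = N.lam δ₀)
    (T : ZMod q) (m : ℕ) (h1 : Fintype.card c.K ≤ m + 1) (h2 : m + 1 + Fintype.card c.K ≤ q)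
    (h4 : 3 * Fintype.card c.K ≤ q) (y : c.K → Ω) :
    ∃ (δ : ι → EE Ω q) (ω : EE (E → Ω) q), (∀ i, δ i ∈ Sk.ord _ _ ((m : ℤ) + 1)) ∧
      ω ∈ Sk.ord _ _ (m : ℤ) ∧ DE1 b x δ = ω * AE b x - AE b x * ω ∧
      ∀ (κ : c.K) (r : ℕ), r < Fintype.card c.K →
        ω.co m (T + Fintype.card c.K + r) (c.rep κ) *
            (zz (c.lr κ) x m (T + Fintype.card c.K + r))⁻¹ =
          ω.co m T (c.rep κ) * (zz (c.lr κ) x m T)⁻¹ - lv (c.lr κ) (x 0) * y κ := by
  set M := Fintype.card c.K with hM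
  obtain ⟨τ₁, hτ₁⟩ := hV (m + 1) h1 h2 T y
  obtain ⟨τ₂, hτ₂⟩ := hV (m + 1) h1 h2 (T + (2 * M : ℕ)) fun κ => -y κ
  obtain ⟨δ, a1, a2, a3⟩ := kerlift api h3 (m + 1)
    (fun j i => (clu τ₁ T 0 j + clu τ₂ T (2 * M) j) * x 0 i) fun κ => by
      simp only [lv_smul]
      simp only [add_mul, sum_add_distrib, mul_assoc]
      rw [sum_clu, sum_clu]
      have e1 := hτ₁ κ
      have e2 := hτ₂ κ
      simp only [Nat.cast_zero, add_zero]
      simp only [mul_left_comm (τ₁ _), mul_left_comm (τ₂ _), ← mul_sum, e1, e2]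
      ring
  push_cast at a1 a2
  obtain ⟨d1, d2⟩ := api.de1_lead _ δ a1
  obtain ⟨ω, hω, hω'⟩ := api.ad _ _ d1 a3
  rw [add_sub_cancel_right] at hω
  refine ⟨δ, ω, a1, hω, hω', fun κ r hr => ?_⟩
  set ψ : ZMod q → Ω := fun j => ω.co m j (c.rep κ) * (zz (c.lr κ) x m j)⁻¹ with hψ
  have step : ∀ j, ψ j - ψ (j + 1) = (clu τ₁ T 0 j + clu τ₂ T (2 * M) j) *
      (lv (c.lr κ) (x 0) * (zz (c.lr κ) x (m + 1) j)⁻¹) := fun j => by
    have e1 := d2 j (c.rep κ)
    have e2 := Sk.co_mul_lead hω api.ae_lead.1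
    have e3 := Sk.co_mul_lead api.ae_lead.1 hω
    rw [add_comm (1 : ℤ)] at e3
    rw [hω', Sk.co_sub, e2, e3] at e1
    simp only [Pi.sub_apply, Pi.mul_apply, shift_zpow_apply, api.ae_lead.2, a2, lv_smul,
      Int.cast_natCast, Int.cast_one] at e1
    have z1 : zz (c.lr κ) x (m + 1) j = zz (c.lr κ) x m j * lv (c.lr κ) (x (j + m)) := by
      rw [zz_add, zz_one]
    have z2 : zz (c.lr κ) x (m + 1) j = lv (c.lr κ) (x j) * zz (c.lr κ) x m (j + 1) := by
      rw [add_comm m, zz_add, zz_one, Nat.cast_one]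
    have n1 := zz_ne _ x (g0 κ) m j
    have n2 := zz_ne _ x (g0 κ) m (j + 1)
    have n3 := g0 κ j
    have n4 := g0 κ (j + m)
    have i1 : (zz (c.lr κ) x m j)⁻¹ =
        lv (c.lr κ) (x (j + m)) * (zz (c.lr κ) x (m + 1) j)⁻¹ := by rw [z1]; field_simp
    have i2 : (zz (c.lr κ) x m (j + 1))⁻¹ =
        lv (c.lr κ) (x j) * (zz (c.lr κ) x (m + 1) j)⁻¹ := by rw [z2]; field_simp
    simp only [hψ]
    rw [i1, i2]
    change _ * lv (c.lr κ) _ - lv (c.lr κ) _ * _ = _ * lv (c.lr κ) _ at e1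
    linear_combination (zz (c.lr κ) x (m + 1) j)⁻¹ * e1
  have tel : ∀ n : ℕ, ψ T - ψ (T + n) = ∑ a ∈ range n,
      (clu τ₁ T 0 (T + a) + clu τ₂ T (2 * M) (T + a)) *
        (lv (c.lr κ) (x 0) * (zz (c.lr κ) x (m + 1) (T + a))⁻¹) := fun n => by
    induction n with
    | zero => simp
    | succ n ih => rw [sum_range_succ, ← ih, ← step, Nat.cast_succ, add_assoc]; ring
  have := tel (M + r)
  simp only [add_mul, sum_add_distrib] at this
  rw [sum_clu_range τ₁ T 0 (M + r) (by omega) (by omega)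
      fun j => lv (c.lr κ) (x 0) * (zz (c.lr κ) x (m + 1) j)⁻¹,
    sum_clu_range τ₂ T (2 * M) (M + r) (by omega) (by omega)
      fun j => lv (c.lr κ) (x 0) * (zz (c.lr κ) x (m + 1) j)⁻¹] at this
  have p1 : ∀ s : Fin M, 0 + (s : ℕ) < M + r := fun s => by omega
  have p2 : ∀ s : Fin M, ¬ (2 * M + (s : ℕ) < M + r) := fun s => by omega
  simp only [p1, p2, if_true, if_false] at this
  simp only [mul_zero, sum_const_zero, add_zero, Nat.cast_zero, mul_left_comm (τ₁ _),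
    ← mul_sum, hτ₁ κ, Nat.cast_add, ← add_assoc] at this
  change ψ _ = ψ _ - _
  linear_combination -this

end nf

end A5x

open A5x Finset Module in
theorem jobA5 (hJet : JobJet) (hEch : JobEch) (h12 : JobA12) : JobA5 := by
  classical
  intro Ω E ι _ _ _ _ _ q _ b x N c _ api g0 hV hF hdim r hr
  have h3 := ((h12 N c api g0).2 hF).2 hdim
  have jet := hJet _ _ _ api.pt
  set M := Fintype.card c.K with hM
  choose e τ he1 he2 he3 he4 using fun t : Fin r =>
    exists_e api hV h3 (M + t + 1) (by omega) (by have := t.2; omega)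
  refine ⟨e, he3, ?_⟩
  have main : ∀ i : Fin r × Fin q × c.K, ∃ v ∈ N.JS e,
      (∀ t, PO c (((i.2.1 : ℕ) + 1 : ℕ) : ℤ) (v t)) ∧
      (∀ κ, (v i.1).co (((i.2.1 : ℕ) + 1 : ℕ) : ℤ) (c.rep κ) = if κ = i.2.2 then 1 else 0) ∧
      ∀ t, i.1 < t → ∀ κ, (v t).co (((i.2.1 : ℕ) + 1 : ℕ) : ℤ) (c.rep κ) = 0 := by
    rintro ⟨t₀, a, κ₀⟩
    dsimp only
    rcases eq_or_lt_of_le (show (a : ℕ) + 1 ≤ q from a.2) with ha | ha
    · rw [ha]
      have ht₀ := t₀.2
      obtain ⟨m, hm⟩ : ∃ m : ℕ, M + t₀ + 1 + m = q := ⟨q - (M + t₀ + 1), by omega⟩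
      have hq0 : (q : Ω) ≠ 0 := Nat.cast_ne_zero.2 (NeZero.ne q)
      obtain ⟨δ, ω, d1, d2, d3, d4⟩ := exists_jump api g0 hV h3 ((M + t₀ + 1 : ℕ) : ZMod q) m
        (by omega) (by omega) (by omega) fun κ => (if κ = κ₀ then 1 else 0) * q *
          zz (c.lr κ) x (M + t₀ + 1) 0 * (lv (c.lr κ) (x 0) ^ 2 * N.α.co 1 (c.rep κ) ^ q)⁻¹
      have o2 : ∀ t : Fin r, DE2 b x (e t) δ ∈ Sk.ord _ _ (((M + t + 1 : ℕ) : ℤ) + (m + 1)) :=
        fun t => jet.d2_mem _ _ _ _ (api.dir _) (api.dir _)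
          (fun i n hn => by change algebraMap Ω (E → Ω) ∘ ((e t i).co n) = 0; rw [he1 t i n hn]; simp)
          (fun i n hn => by change algebraMap Ω (E → Ω) ∘ ((δ i).co n) = 0; rw [d1 i n hn]; simp) b
      have o1 : ∀ t : Fin r, DE1 b x (e t) * ω ∈ Sk.ord _ _ (((M + t + 1 : ℕ) : ℤ) + m) :=
        fun t => Sk.mul_mem_ord (api.de1_lead _ _ (he1 t)).1 d2
      have o3 : ∀ t : Fin r, DE2 b x (e t) δ + DE1 b x (e t) * ω ∈
          Sk.ord _ _ (((M + t + 1 : ℕ) : ℤ) + m) :=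
        fun t => add_mem (fun n hn => o2 t n (by omega)) (o1 t)
      choose δ' hδ' using fun t : Fin r => raise (c := c) api hF _
        ((PO.of_ord (conj_ord (N := N) (o3 t))).mono (by push_cast; omega))
      refine ⟨_, Submodule.subset_span ⟨δ, ω, fun t => if t < t₀ then δ' t else 0, d3,
        fun _ => rfl⟩, fun t => ?_, fun κ => ?_, fun t ht κ => ?_⟩
      · by_cases h : t < t₀
        · simp only [h, if_true]; exact hδ' t
        · simp only [h, if_false, lam_zero api, add_zero]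
          have : (t₀ : ℕ) ≤ t := not_lt.1 h
          exact (PO.of_ord (conj_ord (N := N) (o3 t))).mono (by omega)
      · simp only [lt_irrefl, if_false, lam_zero api, add_zero]
        have hq : ((M + t₀ + 1 : ℕ) : ℤ) + m = q := by omega
        rw [conj_co api (hq ▸ o3 t₀)]
        have e1 : ∀ j, (DE2 b x (e t₀) δ + DE1 b x (e t₀) * ω).co q j (c.rep κ) =
            ((if j = 0 then 1 else 0) + clu (τ t₀) 0 M j) * (lv (c.lr κ) (x 0) *
              ω.co m (j + (M + t₀ + 1 : ℕ)) (c.rep κ)) := fun j => by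
          have l1 := Sk.co_mul_lead (api.de1_lead _ _ (he1 t₀)).1 d2
          rw [hq] at l1
          rw [Sk.co_add, o2 t₀ q (by omega), zero_add, l1]
          simp only [Pi.mul_apply, shift_zpow_apply, (api.de1_lead _ _ (he1 t₀)).2, he2, lv_smul,
            Int.cast_natCast]
          exact mul_assoc _ _ _
        have zq : ∀ j, zz (c.lr κ) x m (j + (M + t₀ + 1 : ℕ)) =
            N.α.co 1 (c.rep κ) ^ q * (zz (c.lr κ) x (M + t₀ + 1) j)⁻¹ := fun j => by
          have := api.α_pow (c.rep κ) j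
          have n1 := zz_ne _ x (g0 κ) (M + t₀ + 1) j
          change _ = zz (c.lr κ) x q j at this
          have z := zz_add (c.lr κ) x (M + t₀ + 1) m j
          rw [hm] at z
          rw [this, z]
          field_simp
        set T : ZMod q := ((M + t₀ + 1 : ℕ) : ZMod q) with hT
        set ψ := ω.co m T (c.rep κ) * (zz (c.lr κ) x m T)⁻¹ with hψ
        set Y := (if κ = κ₀ then 1 else 0) * q * zz (c.lr κ) x (M + t₀ + 1) 0 *
          (lv (c.lr κ) (x 0) ^ 2 * N.α.co 1 (c.rep κ) ^ q)⁻¹ with hY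
        have e2 : ω.co m T (c.rep κ) =
            ψ * (N.α.co 1 (c.rep κ) ^ q * (zz (c.lr κ) x (M + t₀ + 1) 0)⁻¹) := by
          rw [← zq, zero_add, hψ, inv_mul_cancel_right₀ (zz_ne _ x (g0 κ) _ _)]
        have e3 : ∀ s : Fin M, ω.co m (0 + (M : ZMod q) + (s : ℕ) + T) (c.rep κ) =
            (ψ - lv (c.lr κ) (x 0) * Y) * N.α.co 1 (c.rep κ) ^ q *
              (zz (c.lr κ) x (M + t₀ + 1) ((M : ZMod q) + (s : ℕ)))⁻¹ := fun s => by
          have := d4 κ s s.2
          rw [mul_assoc, ← zq, ← this, show (0 : ZMod q) + M + (s : ℕ) + T = T + M + (s : ℕ) by ring,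
            show (M : ZMod q) + (s : ℕ) + T = T + M + (s : ℕ) by ring,
            inv_mul_cancel_right₀ (zz_ne _ x (g0 κ) _ _)]
        simp only [e1, add_mul, sum_add_distrib]
        rw [sum_clu (τ t₀) 0 M fun j => lv (c.lr κ) (x 0) * ω.co m (j + T) (c.rep κ)]
        simp only [e3]
        simp only [ite_mul, one_mul, zero_mul, sum_ite_eq', mem_univ, if_true, zero_add]
        have e4 : ∑ s : Fin M, τ t₀ s * (zz (c.lr κ) x (M + t₀ + 1) ((M : ZMod q) + (s : ℕ)))⁻¹ =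
            _ := he4 t₀ κ
        simp only [mul_left_comm (τ t₀ _), ← mul_sum]
        rw [e4, e2, hY]
        have n1 := zz_ne _ x (g0 κ) (M + t₀ + 1) 0
        have n2 := g0 κ 0
        have n3 := api.α_ne (c.rep κ)
        split_ifs <;> field_simp <;> ring
      · simp only [not_lt.2 ht.le, if_false, lam_zero api, add_zero]
        have : (t₀ : ℕ) < t := ht
        rw [conj_ord (N := N) (o3 t) q (by omega)]; rfl
    · obtain ⟨δ, h1, h2⟩ := hit api (hF _ (by omega) ha) fun κ => if κ = κ₀ then 1 else 0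
      refine ⟨_, lam_mem api e fun t => if t = t₀ then δ else 0, fun t => ?_, fun κ => ?_,
        fun t ht κ => ?_⟩
      · by_cases h : t = t₀
        · simp only [h, if_true]; exact PO.of_ord h1
        · simp only [h, if_false, lam_zero api]; exact PO.of_ord (zero_mem _)
      · simp only [if_true]; exact h2 κ
      · simp only [ht.ne', if_false, lam_zero api]; rfl
  choose v hv hv1 hv2 hv3 using main
  let Ψ : (Fin r → Lq (E → Ω) q) →ₗ[La Ω] Lq (Fin r → c.K → Ω) q :=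
    ∑ t, (lmap ((LinearMap.single Ω (fun _ : Fin r => c.K → Ω) t).comp
      (LinearMap.funLeft Ω Ω c.rep))).comp (LinearMap.proj t)
  have hΨ : ∀ y n t κ, (Ψ y).co n t κ = (y t).co n (c.rep κ) := fun y n t κ => by
    simp only [Ψ, LinearMap.sum_apply, Sk.co_sum, LinearMap.comp_apply, LinearMap.proj_apply,
      co_lmap, LinearMap.single_apply, Finset.sum_apply]
    rw [Finset.sum_eq_single t]
    · simp [LinearMap.funLeft_apply]
    · intro s _ hs; rw [Pi.single_eq_of_ne hs.symm]; rfl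
    · simp
  have ind := ((hEch (k := Ω) (σ := (1 : RingAut (Fin r → c.K → Ω))) (q := q)).2.1
    (fun i => Ψ (v i)) (fun i : Fin r × Fin q × c.K => (((i.2.1 : ℕ) + 1 : ℕ) : ℤ))
    (fun i n hn => by funext t κ; rw [hΨ]; exact hv1 i t n hn κ) fun ρ =>
      tri_indep (fun i => i.1.1) (fun i => i.1.2.2) (fun i j h1 h2 => by
        have := i.2.trans j.2.symm
        simp only [Int.cast_natCast, Nat.cast_add, Nat.cast_one, Int.cast_add, Int.cast_one,
          add_left_inj] at this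
        rw [ZMod.natCast_eq_natCast_iff', Nat.mod_eq_of_lt i.1.2.1.2,
          Nat.mod_eq_of_lt j.1.2.1.2] at this
        exact Subtype.ext (Prod.ext h1 (Prod.ext (Fin.ext this) h2))) _
        (fun i κ => by rw [hΨ]; exact hv2 _ κ) fun i t ht κ => by rw [hΨ]; exact hv3 _ t ht κ).1
  have ind2 : LinearIndependent (La Ω) fun i => (⟨v i, hv i⟩ : N.JS e) :=
    LinearIndependent.of_comp (Ψ.comp (N.JS e).subtype) ind
  have := ind2.fintype_card_le_finrank
  simpa using this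

end Crest.Agent.KU
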