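import Crest.Agent.KU.A3
import Crest.Agent.KU.A5

/-! Row 180, job A12: dimension counts in the split picture. -/

set_option autoImplicit false
set_option linter.unusedSectionVars false

namespace Crest.Agent.KU

open Finset Module

namespace A12X

open A3 A5x

lemma indep_of_cover {Ω I V : Type} [Field Ω] [AddCommGroup V] [Module Ω V] (v : I → V)
    (P : I → Prop) (h : ∀ i₀, P i₀ → ∃ (T : Type) (f : T → I), Function.Injective f ∧
      (∀ i, P i → ∃ t, f t = i) ∧ LinearIndependent Ω (v ∘ f)) :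
    LinearIndependent Ω fun i : {i // P i} => v i := by
  by_cases hP : ∃ i, P i
  · obtain ⟨i₀, h₀⟩ := hP
    obtain ⟨T, f, h1, h2, h3⟩ := h i₀ h₀
    exact ((linearIndepOn_range_iff h1 v).2 h3).mono (t := {i | P i}) fun i hi => h2 i hi
  · have : IsEmpty {i // P i} := ⟨fun i => hP ⟨i.1, i.2⟩⟩
    exact linearIndependent_empty_type

lemma li_congr {Ω I V : Type} [Field Ω] [AddCommGroup V] [Module Ω V] {v w : I → V}
    (h : LinearIndependent Ω w) (e : v = w) : LinearIndependent Ω v := e ▸ h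

lemma indep_single {Ω K : Type} [Field Ω] [Fintype K] [DecidableEq K] :
    LinearIndependent Ω fun κ : K => (Pi.single κ 1 : K → Ω) := by
  have := (Pi.basisFun Ω K).linearIndependent
  convert this using 2
  simp

variable {Ω E ι : Type} [Field Ω] [CharZero Ω] [Fintype E] [Fintype ι] [DecidableEq ι] {q : ℕ}
  [NeZero q] {b : NC (E → Ω) ι} {x : ZMod q → ι → Ω} {N : NFD b x} {c : Cls (lOf b)}

lemma prj_mem {K : Type} (s : K → E) {n : ℤ} {y : Lq (E → Ω) q} (h : y ∈ Sk.ord _ _ n) :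
    prj q s y ∈ Sk.ord _ _ n := fun m hm => by
  funext κ; rw [prj_co, h m hm]; rfl

lemma finrank_Lq (hE : JobEch) (K : Type) [Fintype K] :
    finrank (La Ω) (Lq (K → Ω) q) = q * Fintype.card K := by
  rw [(hE (k := Ω) (A := K → Ω) (σ := 1) (q := q)).2.2.1 inferInstance]; simp

lemma lam_mem (δ : ι → EE Ω q) : N.lam δ ∈ N.RL := Submodule.subset_span ⟨δ, rfl⟩

lemma hitV (api : NFAPI N) (hG : G0 c.lr x) (hV : VanI c.lr x) (s : c.K → E)
    (hs : ∀ κ, c.cls (s κ) = κ) (m : ℕ) (h1 : Fintype.card c.K ≤ m)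
    (h2 : m + Fintype.card c.K ≤ q) (y : c.K → Ω) :
    ∃ u ∈ N.RL, u ∈ Sk.ord _ _ m ∧ ∀ κ, u.co m (s κ) = y κ := by
  obtain ⟨τ, hτ⟩ := hV m h1 h2 0 fun κ => q * y κ * c.cf (s κ) ^ m *
    (c.cf (s κ) * N.α.co 1 (s κ) ^ m * lv (c.lr κ) (x 0))⁻¹
  let η : ZMod q → ι → Ω := fun j i => (∑ r : Fin (Fintype.card c.K),
    if j = ((r : ℕ) : ZMod q) then τ r else 0) * x 0 i
  have h := api.lam_lead m _ (dm_ord m η)
  refine ⟨_, lam_mem _, h.1, fun κ => ?_⟩
  have hl : lOf b (s κ) = c.cf (s κ) • c.lr κ := by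
    rw [c.eq (s κ), hs]; rfl
  have e : ∑ j, (∑ r : Fin (Fintype.card c.K),
    if j = ((r : ℕ) : ZMod q) then τ r else 0) * (zz (c.lr κ) x m j)⁻¹ =
      ∑ r : Fin (Fintype.card c.K), τ r * (zz (c.lr κ) x m (0 + ((r : ℕ) : ZMod q)))⁻¹ := by
    simp only [sum_mul, ite_mul, zero_mul, zero_add]
    rw [sum_comm]
    simp
  rw [hτ] at e
  rw [h.2, sum_congr rfl (g := fun j => c.cf (s κ) * lv (c.lr κ) (x 0) * N.α.co 1 (s κ) ^ m *
    (c.cf (s κ) ^ m)⁻¹ * ((∑ r : Fin (Fintype.card c.K),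
    if j = ((r : ℕ) : ZMod q) then τ r else 0) *
      (zz (c.lr κ) x m j)⁻¹)) fun j _ => by
      simp only [dm_co, η]
      rw [A5x.lv_smul, hl, A3.lv_smul, zz_smul, mul_inv]; ring, ← mul_sum, e]
  have := c.cf_ne (s κ)
  have := api.α_ne (s κ)
  have := hG κ 0
  have : (q : Ω) ≠ 0 := Nat.cast_ne_zero.2 (NeZero.ne q)
  field_simp

lemma part1 (hE : JobEch) (api : NFAPI N) (hG : G0 c.lr x) (hV : VanI c.lr x)
    (hq : (Fintype.card c.K + 1) ^ 2 ≤ q) (s : c.K → E) (hs : ∀ κ, c.cls (s κ) = κ) :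
    (N.RL * N.RL).map (prjL q s) = ⊤ := by
  set M := Fintype.card c.K with hM
  have hq4 : 4 * M ≤ q := by nlinarith [sq_nonneg ((M : ℤ) - 1)]
  have : ∀ i : Fin q × c.K, ∃ u ∈ N.RL * N.RL, u ∈ Sk.ord _ _ ((2 * M + i.1 : ℕ) : ℤ) ∧
      (prj q s u).co ((2 * M + i.1 : ℕ) : ℤ) = Pi.single i.2 1 := by
    rintro ⟨r, κ⟩
    have hr := r.2
    obtain ⟨u, hu, h1, h2⟩ := hitV api hG hV s hs ((2 * M + r) / 2) (by omega) (by omega)
      (Pi.single κ 1)
    obtain ⟨u', hu', h1', h2'⟩ := hitV api hG hV s hs (2 * M + r - (2 * M + r) / 2) (by omega)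
      (by omega) 1
    have e : ((2 * M + r : ℕ) : ℤ) =
        (((2 * M + r) / 2 : ℕ) : ℤ) + ((2 * M + r - (2 * M + r) / 2 : ℕ) : ℤ) := by omega
    refine ⟨u * u', Submodule.mul_mem_mul hu hu', ?_, ?_⟩
    · dsimp only; rw [e]; exact Sk.mul_mem_ord h1 h1'
    · funext κ'
      dsimp only
      rw [prj_co, e, Sk.co_mul_lead h1 h1', Pi.mul_apply, one_zpow, RingAut.one_apply, h2, h2']
      simp
  choose u hu h1 h2 using this
  have hli := ((hE (k := Ω) (A := c.K → Ω) (σ := 1) (q := q)).2.1 (fun i => prj q s (u i))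
    (fun i => ((2 * M + i.1 : ℕ) : ℤ)) (fun i => prj_mem s (h1 i)) fun ρ => by
      refine indep_of_cover (fun i => (prj q s (u i)).co ((2 * M + i.1 : ℕ) : ℤ)) _ fun i₀ h₀ =>
        ⟨c.K, fun κ => (i₀.1, κ), fun _ _ h => (Prod.ext_iff.1 h).2, fun i hi => ⟨i.2, ?_⟩, ?_⟩
      · refine Prod.ext (Fin.ext ?_) rfl
        rw [← h₀] at hi
        simp only [Nat.cast_add, Int.cast_add, add_right_inj, Int.cast_natCast] at hi
        rw [ZMod.natCast_eq_natCast_iff', Nat.mod_eq_of_lt i.1.2, Nat.mod_eq_of_lt i₀.1.2] at hi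
        exact hi.symm
      · refine li_congr (indep_single (Ω := Ω) (K := c.K)) ?_
        funext κ
        exact h2 (i₀.1, κ)).1
  have hsp := hli.span_eq_top_of_card_eq_finrank' (by rw [finrank_Lq hE]; simp)
  rw [eq_top_iff, ← hsp, Submodule.span_le]
  rintro _ ⟨i, rfl⟩
  exact ⟨u i, hu i, rfl⟩

lemma lam_sum (api : NFAPI N) {I : Type} (s : Finset I) (f : I → La Ω) (δ : I → ι → EE Ω q) :
    N.lam (∑ i ∈ s, f i • δ i) = ∑ i ∈ s, f i • N.lam (δ i) := by
  classical
  induction s using Finset.induction_on with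
  | empty => simpa using lam_zero api
  | insert a s ha ih => rw [sum_insert ha, sum_insert ha, api.lam_add, api.lam_smul, ih]

lemma top_space {K : Type} [Fintype K] (l : K → ι → Ω) : ∃ (n : ℕ) (v : Fin n → ι → Ω),
    n + finrank Ω (Gam l) = Fintype.card K ∧
      LinearIndependent Ω fun t => fun κ => lv (l κ) (v t) := by
  classical
  let L : Matrix K ι Ω := Matrix.of l
  let P := LinearMap.range L.mulVecLin
  have h1 : finrank Ω P = L.transpose.rank := (Matrix.rank_transpose L).symm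
  have h2 : Fintype.linearCombination Ω l = L.transpose.mulVecLin := by
    refine LinearMap.ext fun γ => ?_
    funext i
    simp [L, Fintype.linearCombination_apply, Matrix.vecMul, dotProduct]
  have h3 := LinearMap.finrank_range_add_finrank_ker (Fintype.linearCombination Ω l)
  choose v hv using fun t => (finBasis Ω P t).2
  refine ⟨finrank Ω P, v, ?_, ?_⟩
  · rw [h1, Matrix.rank, ← h2]; exact h3.trans (finrank_fintype_fun_eq_card Ω)
  · refine li_congr ((finBasis Ω P).linearIndependent.map' P.subtype (Submodule.ker_subtype P)) ?_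
    funext t κ
    simp only [Function.comp_apply, Submodule.subtype_apply, ← hv t]
    rfl

lemma family (api : NFAPI N) (hG : G0 c.lr x) (hF : ∀ m, 1 ≤ m → m < q → Fm c.lr x m) :
    ∃ (I : Type) (_ : Fintype I) (δ : I → ι → EE Ω q) (m : I → ℕ),
      Fintype.card I + finrank Ω (Gam c.lr) = q * Fintype.card c.K ∧
      (∀ i i', δ i i' ∈ Sk.ord _ _ (m i)) ∧ ∀ ρ : ZMod q, LinearIndependent Ω
        fun i : {i // (((m i : ℕ) : ℤ) : ZMod q) = ρ} =>
          (prj q c.rep (N.lam (δ i))).co (m i : ℕ) := by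
  have hq := NeZero.pos q
  have hq0 : (q : Ω) ≠ 0 := Nat.cast_ne_zero.2 (NeZero.ne q)
  obtain ⟨n, v, hn, hv⟩ := top_space c.lr
  choose η hη using fun i : Fin (q - 1) × c.K => fm_surj (hF (i.1 + 1) (by omega)
    (by have := i.1.2; omega)) fun κ => q * (N.α.co 1 (c.rep κ) ^ ((i.1 : ℕ) + 1))⁻¹ *
      (Pi.single i.2 1 : c.K → Ω) κ
  let δ : (Fin (q - 1) × c.K) ⊕ Fin n → ι → EE Ω q :=
    Sum.elim (fun i => dm ((i.1 + 1 : ℕ) : ℤ) (η i)) fun t => dm q fun _ => v t
  let m : (Fin (q - 1) × c.K) ⊕ Fin n → ℕ := Sum.elim (fun i => i.1 + 1) fun _ => q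
  refine ⟨(Fin (q - 1) × c.K) ⊕ Fin n, inferInstance, δ, m, ?_, ?_, fun ρ => ?_⟩
  · rw [Fintype.card_sum, Fintype.card_prod, Fintype.card_fin, Fintype.card_fin, add_assoc, hn]
    obtain ⟨q', rfl⟩ : ∃ q', q = q' + 1 := ⟨q - 1, by omega⟩
    simp [add_mul]
  · rintro (i | t) i' <;> exact dm_ord _ _ _
  · have ne0 : ∀ r : Fin (q - 1), (((r + 1 : ℕ) : ℤ) : ZMod q) ≠ (((q : ℕ) : ℤ) : ZMod q) := by
      intro r h
      rw [Int.cast_natCast, Int.cast_natCast, ZMod.natCast_eq_natCast_iff', Nat.mod_self,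
        Nat.mod_eq_of_lt (by have := r.2; omega)] at h
      omega
    refine indep_of_cover (fun i => (prj q c.rep (N.lam (δ i))).co (m i : ℕ))
      (fun i => (((m i : ℕ) : ℤ) : ZMod q) = ρ) ?_
    rintro (i₀ | t₀) h₀
    · refine ⟨c.K, fun κ => Sum.inl (i₀.1, κ), fun _ _ h => (Prod.ext_iff.1 (Sum.inl.inj h)).2,
        ?_, ?_⟩
      · rintro (i | t) hi
        · refine ⟨i.2, congrArg Sum.inl (Prod.ext (Fin.ext ?_) rfl)⟩
          rw [← h₀] at hi
          simp only [m, Sum.elim_inl, Int.cast_natCast] at hi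
          rw [ZMod.natCast_eq_natCast_iff', Nat.mod_eq_of_lt (by have := i.1.2; omega),
            Nat.mod_eq_of_lt (by have := i₀.1.2; omega)] at hi
          simpa using hi.symm
        · exact absurd (h₀.trans hi.symm) (ne0 _)
      · refine li_congr (indep_single (Ω := Ω) (K := c.K)) ?_
        funext κ κ'
        have h2 := api.α_ne (c.rep κ')
        simp only [Function.comp_apply, δ, m, Sum.elim_inl, prj_co]
        rw [lam_co api, hη]
        field_simp
    · refine ⟨Fin n, Sum.inr, Sum.inr_injective, ?_, ?_⟩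
      · rintro (i | t) hi
        · exact absurd (hi.trans h₀.symm) (ne0 _)
        · exact ⟨t, rfl⟩
      · refine li_congr hv ?_
        funext t κ
        simp only [Function.comp_apply, δ, m, Sum.elim_inr, prj_co]
        rw [lam_co api, mul_assoc, mul_sum, sum_congr rfl (g := fun _ => lv (c.lr κ) (v t))
          fun j _ => by
            have := A5x.zz_ne _ x (hG κ) q j
            rw [api.α_pow (c.rep κ) j]
            change zz (c.lr κ) x q j * _ = _
            field_simp]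
        simp [hq0]

end A12X

open A3 A12X in
theorem jobA12 (hE : JobEch) : JobA12 := by
  intro Ω E ι _ _ _ _ _ q _ b x N c api hG
  refine ⟨fun hV hq => ⟨fun s hs y => ?_, ?_⟩, fun hF => ?_⟩
  · have : y ∈ (N.RL * N.RL).map (prjL q s) := part1 hE api hG hV hq s hs ▸ Submodule.mem_top
    exact this
  · rw [← finrank_Lq (Ω := Ω) hE, ← finrank_top, ← part1 hE api hG hV hq c.rep c.cls_rep]
    exact Submodule.finrank_map_le _ _
  obtain ⟨I, _, δ, m, hc, hδ, hli⟩ := family api hG hF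
  obtain ⟨h1, h2⟩ := (hE (k := Ω) (A := c.K → Ω) (σ := 1) (q := q)).2.1
    (fun i => prj q c.rep (N.lam (δ i))) (fun i => (m i : ℤ))
    (fun i => prj_mem _ (api.lam_lead _ _ (hδ i)).1) hli
  have h3 : LinearIndependent (La Ω) fun i => N.lam (δ i) :=
    LinearIndependent.of_comp (prjL q c.rep) h1
  have h4 : Submodule.span (La Ω) (Set.range fun i => N.lam (δ i)) ≤ N.RL :=
    Submodule.span_le.2 (by rintro _ ⟨i, rfl⟩; exact lam_mem _)
  have h5 := finrank_span_eq_card h3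
  have h6 := Submodule.finrank_mono h4
  refine ⟨by omega, fun hle δ₀ n hn => ?_⟩
  have h7 := Submodule.eq_of_le_of_finrank_le h4 (by omega)
  obtain ⟨f, hf⟩ := (Submodule.mem_span_range_iff_exists_fun (La Ω)).1
    (h7 ▸ lam_mem (N := N) δ₀)
  have h8 := h2 f n (by
    rw [← hf] at hn
    have e := map_sum (prjL q c.rep) (fun i => f i • N.lam (δ i)) univ
    simp only [map_smul] at e
    exact e ▸ hn)
  refine ⟨∑ i, f i • δ i, fun i' => ?_, by rw [lam_sum api, hf]⟩
  rw [Finset.sum_apply]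
  refine sum_mem fun i _ => ?_
  have hq : (0 : ℤ) < q := by exact_mod_cast NeZero.pos q
  have e1 := Int.mul_ediv_add_emod (m i - n) q
  have e2 := Int.emod_nonneg (m i - n) hq.ne'
  have e3 := Int.emod_lt_of_pos (m i - n) hq
  have := ((hE (k := Ω) (A := ZMod q → Ω) (σ := shift Ω q) (q := q)).1 (-((m i - n) / q)) (m i)
    (f i) (δ i i') (fun e he => h8 i e (by nlinarith)) (hδ i i')).1
  exact (Sk.filt _ _).anti (by nlinarith) this

end Crest.Agent.KU
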