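import Crest.Agent.KU.Jobs

/-! Row 180, job A3. -/

set_option autoImplicit false
set_option linter.unusedSectionVars false

namespace Crest.Agent.KU

open Finset Module Polynomial

namespace A3

section basic

variable {Ω E : Type} [Field Ω] {q : ℕ}

/-- component of `EE` -/
noncomputable def pE (q : ℕ) (k : E) : EE (E → Ω) q →+* EE Ω q :=
  mapE q (Pi.evalRingHom (fun _ : E => Ω) k)

/-- component of `Lq` -/
noncomputable def pL (q : ℕ) (k : E) : Lq (E → Ω) q →+* Lq Ω q :=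
  mapL q (Pi.evalRingHom (fun _ : E => Ω) k)

@[simp] lemma pE_co (k : E) (y : EE (E → Ω) q) (n : ℤ) (j : ZMod q) :
    (pE q k y).co n j = y.co n j k := rfl

@[simp] lemma pL_co (k : E) (y : Lq (E → Ω) q) (n : ℤ) : (pL q k y).co n = y.co n k := rfl

@[simp] lemma prj_co {K : Type} (s : K → E) (y : Lq (E → Ω) q) (n : ℤ) (κ : K) :
    (prj q s y).co n κ = y.co n (s κ) := rfl

@[simp] lemma cstE_co {Λ : Type} [Ring Λ] (c : Lq Λ q) (n : ℤ) (j : ZMod q) :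
    (cstE Λ q c).co n j = c.co n := rfl

lemma pE_mem {k : E} {n : ℤ} {y : EE (E → Ω) q} (h : y ∈ Sk.ord _ _ n) :
    pE q k y ∈ Sk.ord _ _ n := fun m hm => by
  funext j; rw [pE_co, h m hm]; rfl

lemma pL_mem {k : E} {n : ℤ} {y : Lq (E → Ω) q} (h : y ∈ Sk.ord _ _ n) :
    pL q k y ∈ Sk.ord _ _ n := fun m hm => by
  rw [pL_co, h m hm]; rfl

lemma pE_cstE (k : E) (c : Lq (E → Ω) q) : pE q k (cstE _ q c) = cstE Ω q (pL q k c) := by
  ext n j; rfl

lemma pE_up {ι : Type} (k : E) (δ : ι → EE Ω q) (i : ι) : pE q k (up E δ i) = δ i := by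
  ext n j; rfl

lemma pE_eC (k : E) (a : E → Ω) : pE q k (eC (E → Ω) q a) = eC Ω q (a k) := by
  ext n j
  change (if n = 0 then a else 0) k = if n = 0 then a k else 0
  split_ifs <;> rfl

lemma pL_prj {K : Type} (s : K → E) (κ : K) (y : Lq (E → Ω) q) :
    pL q κ (prj q s y) = pL q (s κ) y := by
  ext n; rfl

lemma ext_pL {y z : Lq (E → Ω) q} (h : ∀ k, pL q k y = pL q k z) : y = z := by
  ext n k
  exact congrArg (fun f : Lq Ω q => f.co n) (h k)

variable [NeZero q]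

lemma pL_avg (k : E) (y : EE (E → Ω) q) : pL q k (avg Ω y) = avg Ω (pE q k y) := by
  ext n
  change ((q : Ω)⁻¹ • ∑ j : ZMod q, y.co n j) k = (q : Ω)⁻¹ • ∑ j : ZMod q, y.co n j k
  simp

lemma avg_co (y : EE Ω q) (n : ℤ) : (avg Ω y).co n = (q : Ω)⁻¹ * ∑ j : ZMod q, y.co n j := rfl

lemma avg_mem {n : ℤ} {y : EE Ω q} (h : y ∈ Sk.ord _ _ n) : avg Ω y ∈ Sk.ord _ _ n :=
  fun m hm => by rw [avg_co, h m hm]; simp

lemma avg_sub (y z : EE Ω q) : avg Ω (y - z) = avg Ω y - avg Ω z := by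
  ext n; simp [avg_co, mul_sub]

lemma pL_algebraMap (k : E) (f : La Ω) :
    pL q k (algebraMap (La Ω) (Lq (E → Ω) q) f) = algebraMap (La Ω) _ f := by
  ext n
  rw [pL_co, Sk.co_algebraMap, Sk.co_algebraMap]
  split_ifs <;> rfl

lemma prj_algebraMap {K : Type} (s : K → E) (f : La Ω) :
    prj q s (algebraMap (La Ω) (Lq (E → Ω) q) f) = algebraMap (La Ω) _ f := by
  ext n κ
  rw [prj_co, Sk.co_algebraMap, Sk.co_algebraMap]
  split_ifs <;> rfl

lemma pL_smul (k : E) (f : La Ω) (y : Lq (E → Ω) q) : pL q k (f • y) = f • pL q k y := by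
  rw [Algebra.smul_def, Algebra.smul_def, map_mul, pL_algebraMap]

/-- the variable `s` -/
noncomputable def sv (Ω : Type) [Field Ω] (q : ℕ) : Lq Ω q := Sk.mono 1 q 1 1

lemma sv_pow (n : ℕ) : sv Ω q ^ n = Sk.mono 1 q n 1 := by
  induction n with
  | zero => rfl
  | succ n ih => rw [pow_succ, ih, sv, Sk.mono_mul_mono]; simp

lemma expand (y : Lq Ω q) : ∃ f : Fin q → La Ω, y = ∑ r, f r • sv Ω q ^ (r : ℕ) := by
  have hq : (0 : ℤ) < q := by exact_mod_cast NeZero.pos q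
  obtain ⟨N, hN⟩ := y.bdd
  let f : Fin q → La Ω := fun p =>
    ⟨fun a => y.co (q * a + p), -(N.natAbs : ℤ) - 1, fun a ha => by
      have h1 : (p : ℤ) < q := by exact_mod_cast p.2
      have h2 : -(N.natAbs : ℤ) ≤ N := by omega
      have h3 : (0 : ℤ) ≤ N.natAbs := by omega
      exact hN _ (by nlinarith)⟩
  refine ⟨f, ?_⟩
  ext n
  have hr : (n % q).toNat < q := by
    have := Int.emod_lt_of_pos n hq; have := Int.emod_nonneg n hq.ne'; omega
  have hr' : (((n % q).toNat : ℕ) : ℤ) = n % q := by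
    have := Int.emod_nonneg n hq.ne'; omega
  simp only [sv_pow]
  rw [Sk.co_sum, Finset.sum_eq_single (⟨(n % q).toNat, hr⟩ : Fin q)]
  · rw [Sk.co_smul, finsum_eq_single _ (n / q)]
    · simp only [f, Sk.co_mono, hr']
      rw [if_pos (by rw [Int.emod_def]), Int.mul_ediv_add_emod, smul_eq_mul, mul_one]
    · intro a ha
      rw [Sk.co_mono, if_neg, smul_zero]
      intro hc
      apply ha
      rw [hr'] at hc
      have := Int.mul_ediv_add_emod n q
      have h2 : (q : ℤ) * a = q * (n / q) := by omega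
      exact mul_left_cancel₀ hq.ne' h2
  · intro m _ hm
    rw [Sk.co_smul]
    refine finsum_eq_zero_of_forall_eq_zero fun a => ?_
    rw [Sk.co_mono, if_neg, smul_zero]
    intro hc
    apply hm
    ext
    have h1 : (m : ℤ) < q := by exact_mod_cast m.2
    replace hc : n - q * a = (m : ℕ) := hc
    have : n % q = m := by
      rw [show n = m + q * a by omega, Int.add_mul_emod_self_left]
      exact Int.emod_eq_of_lt (by omega) h1
    simp [this]
  · simp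

lemma sv_pow_q : sv Ω q ^ q = algebraMap (La Ω) (Lq Ω q) (Sk.mono 1 0 1 1) := by
  have hq : (q : ℤ) ≠ 0 := by exact_mod_cast NeZero.ne q
  ext n
  rw [sv_pow, Sk.co_algebraMap, Sk.co_mono]
  by_cases h : (q : ℤ) ∣ n
  · obtain ⟨a, rfl⟩ := h
    rw [if_pos (dvd_mul_right _ _), Int.mul_ediv_cancel_left _ hq, Sk.co_mono]
    by_cases ha : a = 1
    · simp [ha]
    · rw [if_neg ha, if_neg, map_zero]
      intro hc
      exact ha (mul_left_cancel₀ hq (by rw [hc, mul_one]))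
  · rw [if_neg h, if_neg]
    rintro rfl
    exact h dvd_rfl

lemma pow_lead {m : ℤ} {y : Lq Ω q} (hy : y ∈ Sk.ord _ _ m) (n : ℕ) :
    y ^ n ∈ Sk.ord _ _ (n * m) ∧ (y ^ n).co (n * m) = y.co m ^ n := by
  induction n with
  | zero =>
    refine ⟨?_, by simp⟩
    rw [pow_zero, Nat.cast_zero, zero_mul]
    exact Sk.mono_mem_ord 0 1
  | succ n ih =>
    have e : ((n + 1 : ℕ) : ℤ) * m = n * m + m := by push_cast; ring
    rw [e, pow_succ, pow_succ]
    exact ⟨Sk.mul_mem_ord ih.1 hy, by rw [Sk.co_mul_lead ih.1 hy, ih.2]; simp⟩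

/-- `q`-th roots of `s ^ q` -/
lemma root_sv [CharZero Ω] {y : Lq Ω q} (hy : y ^ q = sv Ω q ^ q) :
    ∃ ζ : Ω, ζ ^ q = 1 ∧ y = Sk.mono 1 q 1 ζ := by
  have hq : (q : ℤ) ≠ 0 := by exact_mod_cast NeZero.ne q
  have hy0 : y ≠ 0 := by
    rintro rfl
    rw [zero_pow (NeZero.ne q), sv_pow] at hy
    simpa using congrArg (fun f : Lq Ω q => f.co q) hy
  obtain ⟨m, h1, h2⟩ := Sk.exists_lead hy0
  obtain ⟨h3, h4⟩ := pow_lead h1 q
  rw [hy, sv_pow, Sk.co_mono] at h4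
  have hm : m = 1 := by
    by_contra hc
    rw [if_neg (fun h => hc (mul_left_cancel₀ hq (by rw [h, mul_one])))] at h4
    exact pow_ne_zero q h2 h4.symm
  subst hm
  rw [if_pos (mul_one _)] at h4
  refine ⟨y.co 1, h4.symm, ?_⟩
  set z : Lq Ω q := Sk.mono 1 q 1 (y.co 1) with hz
  have hz1 : z ∈ Sk.ord _ _ 1 := Sk.mono_mem_ord _ _
  have hzq : z ^ q = sv Ω q ^ q := by
    have : z = Sk.cst 1 q (y.co 1) * sv Ω q := by
      rw [hz, sv]; change _ = Sk.mono 1 q 0 _ * _; rw [Sk.mono_mul_mono]; simp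
    rw [this, mul_pow, ← map_pow, ← h4, map_one, one_mul]
  have hg := geom_sum₂_mul y z q
  rw [hy, hzq, sub_self] at hg
  rcases mul_eq_zero.1 hg with h | h
  · exfalso
    have := congrArg (fun f : Lq Ω q => f.co ((q - 1 : ℕ) : ℤ)) h
    simp only [Sk.co_sum, Sk.co_zero] at this
    rw [sum_congr rfl (g := fun _ => y.co 1 ^ (q - 1)) (fun i hi => by
      rw [mem_range] at hi
      have e : ((q - 1 : ℕ) : ℤ) = (i : ℤ) * 1 + ((q - 1 - i : ℕ) : ℤ) * 1 := by omega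
      rw [e, Sk.co_mul_lead (pow_lead h1 i).1 (pow_lead hz1 _).1, (pow_lead h1 i).2,
        (pow_lead hz1 _).2]
      simp only [hz, Sk.co_mono, if_true, one_zpow, RingAut.one_apply]
      rw [← pow_add]; congr 1; omega)] at this
    simp [h2, NeZero.ne q] at this
  · exact sub_eq_zero.1 h

lemma scHom_co {ζ : Ω} (hζ : ζ ≠ 0) (y : Lq Ω q) (n : ℤ) :
    (scHom Ω q ζ hζ y).co n = ζ ^ n * y.co n := rfl

lemma scHom_smul {ζ : Ω} (hζ : ζ ≠ 0) (h1 : ζ ^ q = 1) (f : La Ω) (y : Lq Ω q) :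
    scHom Ω q ζ hζ (f • y) = f • scHom Ω q ζ hζ y := by
  rw [Algebra.smul_def, Algebra.smul_def, map_mul]
  congr 1
  ext n
  rw [scHom_co, Sk.co_algebraMap]
  split_ifs with h
  · obtain ⟨a, rfl⟩ := h
    rw [zpow_mul, zpow_natCast, h1, one_zpow, one_mul]
  · simp

/-- `prj` as a linear map -/
noncomputable def prjL {K : Type} (q : ℕ) [NeZero q] (s : K → E) :
    Lq (E → Ω) q →ₗ[La Ω] Lq (K → Ω) q where
  toFun := prj q s
  map_add' := map_add _
  map_smul' f y := by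
    rw [Algebra.smul_def, Algebra.smul_def, map_mul, prj_algebraMap]; rfl

lemma inj_of_surj (hE : JobEch) [Fintype E] {K : Type} [Fintype K]
    (𝒜 : Subalgebra (La Ω) (Lq (E → Ω) q)) (hdim : finrank (La Ω) 𝒜 ≤ q * Fintype.card K)
    (s : K → E) (hs : ∀ y, ∃ a ∈ 𝒜, prj q s a = y) : ∀ a ∈ 𝒜, prj q s a = 0 → a = 0 := by
  intro a ha h0
  let f : 𝒜 →ₗ[La Ω] Lq (K → Ω) q := (prjL q s).comp 𝒜.val.toLinearMap
  have hr : LinearMap.range f = ⊤ := LinearMap.range_eq_top.2 fun y => by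
    obtain ⟨a, ha, h⟩ := hs y
    exact ⟨⟨a, ha⟩, h⟩
  have h1 := LinearMap.finrank_range_add_finrank_ker f
  have h2 : finrank (La Ω) (Lq (K → Ω) q) = q * Fintype.card K := by
    rw [(hE (k := Ω) (A := K → Ω) (σ := 1) (q := q)).2.2.1 inferInstance]; simp
  rw [hr, finrank_top, h2] at h1
  have h3 : LinearMap.ker f = ⊥ := Submodule.finrank_eq_zero.1 (by omega)
  have : (⟨a, ha⟩ : 𝒜) ∈ LinearMap.ker f := h0
  rw [h3, Submodule.mem_bot] at this
  exact congrArg Subtype.val this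

/-- components of an algebra with bijective projections differ by a rotation of `s` -/
lemma rot [CharZero Ω] {K : Type} [DecidableEq K] (𝒜 : Subalgebra (La Ω) (Lq (E → Ω) q))
    (s : K → E) (κ : K) (k : E) (hs : ∀ y, ∃ a ∈ 𝒜, prj q s a = y)
    (hi : ∀ a ∈ 𝒜, prj q s a = 0 → a = 0)
    (hi' : ∀ a ∈ 𝒜, prj q (Function.update s κ k) a = 0 → a = 0) :
    ∃ (ζ : Ω) (hζ : ζ ≠ 0), ∀ a ∈ 𝒜, pL q k a = scHom Ω q ζ hζ (pL q (s κ) a) := by
  -- lifts of single components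
  have lift : ∀ y : Lq Ω q, ∃ a ∈ 𝒜, pL q (s κ) a = y ∧ ∀ κ', κ' ≠ κ → pL q (s κ') a = 0 := by
    intro y
    obtain ⟨a, ha, h⟩ := hs ⟨fun n => Pi.single κ (y.co n), by
      obtain ⟨N, hN⟩ := y.bdd; exact ⟨N, fun n hn => by simp [hN n hn]⟩⟩
    refine ⟨a, ha, ?_, fun κ' h' => ?_⟩
    · rw [← pL_prj, h]; ext n; simp
    · rw [← pL_prj, h]; ext n; simp [h']
  obtain ⟨e, he, he1, he0⟩ := lift 1
  have hek : pL q k e ≠ 0 := by
    intro h
    have : e = 0 := hi' e he (ext_pL fun κ' => by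
      rw [pL_prj, map_zero]
      by_cases h' : κ' = κ
      · subst h'; rw [Function.update_self, h]
      · rw [Function.update_of_ne h', he0 κ' h'])
    rw [this, map_zero] at he1
    exact zero_ne_one he1
  have ker : ∀ a ∈ 𝒜, pL q (s κ) a = 0 → pL q k a = 0 := by
    intro a ha h
    have : e * a = 0 := hi _ (mul_mem he ha) (ext_pL fun κ' => by
      rw [pL_prj, map_zero, map_mul]
      by_cases h' : κ' = κ
      · subst h'; rw [h, mul_zero]
      · rw [he0 κ' h', zero_mul])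
    have h2 := congrArg (pL q k) this
    rw [map_mul, map_zero] at h2
    exact (mul_eq_zero.1 h2).resolve_left hek
  obtain ⟨σ, hσ, hσ1, -⟩ := lift (sv Ω q)
  have hσq : pL q k σ ^ q = sv Ω q ^ q := by
    have := ker (σ ^ q - algebraMap (La Ω) _ (Sk.mono 1 0 1 1))
      (sub_mem (pow_mem hσ q) (𝒜.algebraMap_mem _))
      (by rw [map_sub, map_pow, hσ1, pL_algebraMap, sv_pow_q, sub_self])
    rw [map_sub, map_pow, pL_algebraMap, ← sv_pow_q, sub_eq_zero] at this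
    exact this
  obtain ⟨ζ, hζ1, hζ⟩ := root_sv hσq
  have hζ0 : ζ ≠ 0 := by
    rintro rfl
    rw [zero_pow (NeZero.ne q)] at hζ1
    exact zero_ne_one hζ1
  refine ⟨ζ, hζ0, fun a ha => ?_⟩
  obtain ⟨f, hf⟩ := expand (pL q (s κ) a)
  have h1 := ker (a - ∑ r, f r • σ ^ (r : ℕ))
    (sub_mem ha (sum_mem fun r _ => 𝒜.smul_mem (pow_mem hσ _) _))
    (by simp only [map_sub, map_sum, pL_smul, map_pow, hσ1]; rw [← hf, sub_self])
  have h2 : scHom Ω q ζ hζ0 (sv Ω q) = pL q k σ := by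
    rw [hζ]; ext n; rw [scHom_co, sv, Sk.co_mono, Sk.co_mono]
    split_ifs with h
    · simp [h]
    · simp
  simp only [map_sub, map_sum, pL_smul, map_pow, sub_eq_zero] at h1
  rw [h1, hf]
  simp only [map_sum, scHom_smul hζ0 hζ1, map_pow, h2]

end basic

section step1

variable {Ω E ι : Type} [Field Ω] [CharZero Ω] [Fintype E] [Fintype ι] [DecidableEq ι] {q : ℕ}
  [NeZero q] {b : NC (E → Ω) ι} {x : ZMod q → ι → Ω} (N : NFD b x) (c : Cls (lOf b))

lemma lv_smul (a : Ω) (l y : ι → Ω) : lv (a • l) y = a * lv l y := by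
  simp [lv, mul_sum, mul_assoc]

lemma zz_smul (a : Ω) (l : ι → Ω) (m : ℕ) (j : ZMod q) : zz (a • l) x m j = a ^ m * zz l x m j := by
  simp [zz, lv_smul, prod_mul_distrib]

lemma zz_ne {l : ι → Ω} (h : ∀ j, lv l (x j) ≠ 0) (m : ℕ) (j : ZMod q) : zz l x m j ≠ 0 :=
  prod_ne_zero_iff.2 fun _ _ => h _

variable {N c}

lemma lam_lead_cls (api : NFAPI N)
    (hα : ∀ k, N.α.co 1 k = c.cf k * N.α.co 1 (c.rep (c.cls k))) (k : E) (m : ℕ)
    (δ : ι → EE Ω q) (hδ : ∀ i, δ i ∈ Sk.ord _ _ m) :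
    (N.lam δ).co m k = c.cf k * (N.lam δ).co m (c.rep (c.cls k)) := by
  have hc := c.cf_ne k
  rw [(api.lam_lead m δ hδ).2, (api.lam_lead m δ hδ).2, c.eq k, hα k, mul_left_comm, mul_sum,
    mul_sum, mul_sum]
  refine sum_congr rfl fun j _ => ?_
  rw [lv_smul, zz_smul, mul_pow, mul_inv]
  have : c.cf k ^ m * (c.cf k ^ m)⁻¹ = 1 := mul_inv_cancel₀ (pow_ne_zero _ hc)
  linear_combination (↑q)⁻¹ * c.cf k * (lv (lOf b (c.rep (c.cls k))) fun i => (δ i).co m j) *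
    N.α.co 1 (c.rep (c.cls k)) ^ m * (zz (lOf b (c.rep (c.cls k))) x m j)⁻¹ * this

lemma exists_lam (api : NFAPI N) (k : E) (hk : ∀ j, lv (lOf b k) (x j) ≠ 0) (m : ℕ) :
    ∃ δ : ι → EE Ω q, (∀ i, δ i ∈ Sk.ord _ _ m) ∧ (N.lam δ).co m k ≠ 0 := by
  have hδ : ∀ i, (Sk.mono (shift Ω q) q m fun j =>
      x j i * (zz (lOf b k) x m j / lv (lOf b k) (x j))) ∈ Sk.ord _ _ m :=
    fun i => Sk.mono_mem_ord _ _
  refine ⟨_, hδ, ?_⟩
  rw [(api.lam_lead m _ hδ).2, sum_congr rfl (g := fun _ => N.α.co 1 k ^ m) fun j _ => ?_]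
  · simp [api.α_ne k, NeZero.ne q]
  · have h1 := hk j
    have h2 := zz_ne hk m j
    simp only [Sk.co_mono, if_true]
    have : (lv (lOf b k) fun i => x j i * (zz (lOf b k) x m j / lv (lOf b k) (x j))) =
        lv (lOf b k) (x j) * (zz (lOf b k) x m j / lv (lOf b k) (x j)) := by
      simp only [lv, sum_mul, mul_assoc]
    rw [this]
    field_simp

lemma surj_sec (hA : JobA12) (api : NFAPI N) (hG : G0 c.lr x) (hV : VanI c.lr x)
    (hq : (Fintype.card c.K + 1) ^ 2 ≤ q) (𝒜 : Subalgebra (La Ω) (Lq (E → Ω) q))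
    (u₀ : Lq (E → Ω) q) (h𝒜 : ∀ δ, ∃ a ∈ 𝒜, N.lam δ = u₀ * a) (s : c.K → E)
    (hs : ∀ κ, c.cls (s κ) = κ) (y : Lq (c.K → Ω) q) : ∃ a ∈ 𝒜, prj q s a = y := by
  have h1 : ∀ v ∈ N.RL, ∃ a ∈ 𝒜, v = u₀ * a := by
    intro v hv
    refine Submodule.span_induction (p := fun v _ => ∃ a ∈ 𝒜, v = u₀ * a) ?_ ?_ ?_ ?_ hv
    · rintro _ ⟨δ, rfl⟩; exact h𝒜 δ
    · exact ⟨0, zero_mem _, (mul_zero _).symm⟩
    · rintro _ _ _ _ ⟨a, ha, rfl⟩ ⟨a', ha', rfl⟩
      exact ⟨a + a', add_mem ha ha', (mul_add _ _ _).symm⟩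
    · rintro f _ _ ⟨a, ha, rfl⟩
      exact ⟨f • a, 𝒜.smul_mem ha f, (mul_smul_comm _ _ _).symm⟩
  have h2 : ∀ v ∈ N.RL * N.RL, ∃ a ∈ 𝒜, v = u₀ * u₀ * a := by
    intro v hv
    refine Submodule.mul_induction_on hv ?_ ?_
    · intro m hm n hn
      obtain ⟨a, ha, rfl⟩ := h1 m hm
      obtain ⟨a', ha', rfl⟩ := h1 n hn
      exact ⟨a * a', mul_mem ha ha', by ring⟩
    · rintro _ _ ⟨a, ha, rfl⟩ ⟨a', ha', rfl⟩
      exact ⟨a + a', add_mem ha ha', (mul_add _ _ _).symm⟩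
  have h3 := ((hA N c api hG).1 hV hq).1 s hs
  obtain ⟨v, hv, hv1⟩ := h3 1
  obtain ⟨a, ha, rfl⟩ := h2 v hv
  obtain ⟨v', hv', hv2⟩ := h3 (prj q s (u₀ * u₀) * y)
  obtain ⟨a', ha', rfl⟩ := h2 v' hv'
  refine ⟨a', ha', ?_⟩
  rw [map_mul] at hv1 hv2
  calc prj q s a' = prj q s a * (prj q s (u₀ * u₀) * prj q s a') := by
        rw [← mul_assoc, mul_comm (prj q s a), hv1, one_mul]
    _ = y := by rw [hv2, ← mul_assoc, mul_comm (prj q s a), hv1, one_mul]

/-- Step 1 -/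
lemma step1 (hE : JobEch) (hA : JobA12) (api : NFAPI N) (hG : G0 c.lr x) (hV : VanI c.lr x)
    (hq : (Fintype.card c.K + 1) ^ 2 ≤ q)
    (hα : ∀ k, N.α.co 1 k = c.cf k * N.α.co 1 (c.rep (c.cls k)))
    (𝒜 : Subalgebra (La Ω) (Lq (E → Ω) q)) (u₀ : Lq (E → Ω) q)
    (hdim : finrank (La Ω) 𝒜 ≤ q * Fintype.card c.K) (h𝒜 : ∀ δ, ∃ a ∈ 𝒜, N.lam δ = u₀ * a)
    (k : E) (δ δ' : ι → EE Ω q) :
    pL q k (N.lam δ) * pL q (c.rep (c.cls k)) (N.lam δ') =
      pL q (c.rep (c.cls k)) (N.lam δ) * pL q k (N.lam δ') := by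
  have hs := surj_sec hA api hG hV hq 𝒜 u₀ h𝒜 c.rep c.cls_rep
  have hs' := surj_sec hA api hG hV hq 𝒜 u₀ h𝒜 (Function.update c.rep (c.cls k) k) fun κ => by
    by_cases h : κ = c.cls k
    · subst h; rw [Function.update_self]
    · rw [Function.update_of_ne h, c.cls_rep]
  obtain ⟨ζ, hζ, h⟩ := rot 𝒜 c.rep (c.cls k) k hs (inj_of_surj hE 𝒜 hdim _ hs)
    (inj_of_surj hE 𝒜 hdim _ hs')
  set k' := c.rep (c.cls k) with hk'
  have hζ1 : ζ = 1 := by
    obtain ⟨δ₁, h1, h1'⟩ := exists_lam api k' (hG (c.cls k)) 1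
    obtain ⟨δ₂, h2, h2'⟩ := exists_lam api k' (hG (c.cls k)) 2
    obtain ⟨a₁, ha₁, e₁⟩ := h𝒜 δ₁
    obtain ⟨a₂, ha₂, e₂⟩ := h𝒜 δ₂
    have e : pL q k (N.lam δ₂) * scHom Ω q ζ hζ (pL q k' (N.lam δ₁)) =
        pL q k (N.lam δ₁) * scHom Ω q ζ hζ (pL q k' (N.lam δ₂)) := by
      rw [e₁, e₂]; simp only [map_mul, h a₁ ha₁, h a₂ ha₂]; ring
    have sc : ∀ (m : ℤ) (y : Lq Ω q), y ∈ Sk.ord _ _ m → scHom Ω q ζ hζ y ∈ Sk.ord _ _ m :=
      fun m y hy n hn => by rw [scHom_co, hy n hn, mul_zero]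
    have o1 := (api.lam_lead 1 δ₁ h1).1
    have o2 := (api.lam_lead 2 δ₂ h2).1
    have l1 := Sk.co_mul_lead (pL_mem (k := k) o2) (sc _ _ (pL_mem (k := k') o1))
    have l2 := Sk.co_mul_lead (pL_mem (k := k) o1) (sc _ _ (pL_mem (k := k') o2))
    rw [e, add_comm, l2] at l1
    simp only [one_zpow, RingAut.one_apply, scHom_co, pL_co] at l1
    rw [lam_lead_cls api hα k 1 δ₁ h1, lam_lead_cls api hα k 2 δ₂ h2, ← hk', zpow_natCast,
      zpow_natCast] at l1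
    have : c.cf k * (N.lam δ₁).co (1 : ℕ) k' * (N.lam δ₂).co (2 : ℕ) k' * ζ * (ζ - 1) = 0 := by
      linear_combination l1
    rcases mul_eq_zero.1 this with h0 | h0
    · exact absurd h0 (mul_ne_zero (mul_ne_zero (mul_ne_zero (c.cf_ne k) h1') h2') hζ)
    · exact sub_eq_zero.1 h0
  subst hζ1
  have h' : ∀ a ∈ 𝒜, pL q k a = pL q k' a := fun a ha => by
    rw [h a ha]; ext n; rw [scHom_co, one_zpow, one_mul]
  obtain ⟨a, ha, e⟩ := h𝒜 δ
  obtain ⟨a', ha', e'⟩ := h𝒜 δ'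
  rw [e, e']; simp only [map_mul, h' a ha, h' a' ha']; ring

end step1

lemma alg {R : Type} [Ring R] {v v' w w' A U U' D P P' S S' l l' ω ω' : R} (hv : v * v' = 1)
    (hw : w * w' = 1) (h1 : A * U = U * (P + S))
    (h2 : D * U + A * U' = U' * (P + S) + U * (P' + S'))
    (h3 : v' * D * v = l + (ω * (v' * A * v) - v' * A * v * ω))
    (h4 : w' * P' * w = l' + (ω' * (w' * P * w) - w' * P * w * ω')) :
    v' * A * v * (v' * U * w) = v' * U * w * (w' * P * w) + v' * U * w * (w' * S * w) ∧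
    l * (v' * U * w) - v' * U * w * l' +
      (v' * A * v * (v' * U' * w - ω * (v' * U * w) + v' * U * w * ω') -
        (v' * U' * w - ω * (v' * U * w) + v' * U * w * ω') * (w' * P * w)) =
      (v' * U' * w - ω * (v' * U * w)) * (w' * S * w) + v' * U * w * (w' * S * w) * ω' +
        v' * U * w * (w' * S' * w) := by
  have c1 : ∀ Y Z : R, v' * (Y * Z) * w = v' * Y * v * (v' * Z * w) := fun Y Z => by
    calc v' * (Y * Z) * w = v' * Y * (v * v') * Z * w := by rw [hv]; noncomm_ring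
      _ = _ := by noncomm_ring
  have c2 : ∀ Y Z : R, v' * (Y * Z) * w = v' * Y * w * (w' * Z * w) := fun Y Z => by
    calc v' * (Y * Z) * w = v' * Y * (w * w') * Z * w := by rw [hw]; noncomm_ring
      _ = _ := by noncomm_ring
  have e1 : v' * A * v * (v' * U * w) =
      v' * U * w * (w' * P * w) + v' * U * w * (w' * S * w) := by
    rw [← c1, h1, ← c2, ← c2]; noncomm_ring
  have e2 : v' * D * v * (v' * U * w) + v' * A * v * (v' * U' * w) =
      v' * U' * w * (w' * P * w) + v' * U' * w * (w' * S * w) +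
        (v' * U * w * (w' * P' * w) + v' * U * w * (w' * S' * w)) := by
    rw [← c1, ← c1, ← c2, ← c2, ← c2, ← c2, ← add_mul, ← mul_add, h2]; noncomm_ring
  refine ⟨e1, ?_⟩
  rw [h3, h4] at e2
  generalize v' * A * v = a at *
  generalize v' * U * w = G at *
  generalize v' * U' * w = G' at *
  generalize w' * P * w = f at *
  generalize w' * S * w = r at *
  generalize w' * S' * w = r' at *
  linear_combination (norm := noncomm_ring) e2 + e1 * ω' - ω * e1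

section step2

variable {Ω E ι : Type} [Field Ω] [CharZero Ω] [Fintype ι] [DecidableEq ι] {q : ℕ}
  [NeZero q] {b : NC (E → Ω) ι} {x : ZMod q → ι → Ω} {N : NFD b x}

lemma eC_eq (a : Ω) : eC Ω q a = Sk.mono (shift Ω q) q 0 fun _ => a := by
  ext n j
  change (if n = 0 then a else 0) = (if n = 0 then (fun _ => a) else 0 : ZMod q → Ω) j
  split_ifs <;> rfl

lemma eC_comm (a : Ω) (y : EE Ω q) : Commute (eC Ω q a) y := by
  rw [eC_eq]
  ext n j
  rw [Sk.mono_mul_co, Sk.mul_mono_co]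
  simp [shift_zpow_apply, mul_comm]

lemma ptE (x : ZMod q → ι → Ω) : Pt (Sk.filt (shift Ω q) q) (eC Ω q) (XE x) where
  const a := by rw [eC_eq]; exact Sk.mono_mem_ord _ _
  comm a i := eC_comm a _
  mem i := Sk.mono_mem_ord _ _
  exh r := r.bdd

lemma dirE (δ : ι → EE Ω q) : Dir (eC Ω q) δ := fun a _ => eC_comm a _

/-- value at the base point -/
noncomputable abbrev vv (x : ZMod q → ι → Ω) : NC Ω ι →+* EE Ω q :=
  evX (Sk.filt (shift Ω q) q) (eC Ω q) (XE x)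

/-- derivative at the base point -/
noncomputable abbrev dd (x : ZMod q → ι → Ω) (f : NC Ω ι) (δ : ι → EE Ω q) : EE Ω q :=
  D1 (Sk.filt (shift Ω q) q) (eC Ω q) (XE x) f δ

lemma nat (hN : JobNat) (api : NFAPI N) (k : E) :
    pE q k (AE b x) = vv x (cmp b k) ∧ ∀ δ, pE q k (DE1 b x δ) = dd x (cmp b k) δ := by
  have hX : (fun i => pE q k (up E (XE x) i)) = XE x := funext (pE_up k _)
  have h := (hN (ι := ι) (Sk.filt (shift (E → Ω) q) q) (Sk.filt (shift Ω q) q) (eC (E → Ω) q)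
    (eC Ω q) (Pi.evalRingHom (fun _ : E => Ω) k) (pE q k) (fun n r hr => pE_mem hr)
    (pE_eC k)).2 (up E (XE x)) api.pt (by rw [hX]; exact ptE x) b
  rw [hX] at h
  refine ⟨h.1, fun δ => ?_⟩
  have hδ : (fun i => pE q k (up E δ i)) = δ := funext (pE_up k _)
  have := h.2.1 (up E δ) (api.dir δ) (dirE _)
  rw [hδ] at this
  exact this

lemma cmp_w (k : E) : pE q k N.w * pE q k N.w' = 1 ∧ pE q k N.w' * pE q k N.w = 1 :=
  ⟨by rw [← map_mul, N.mul1, map_one], by rw [← map_mul, N.mul2, map_one]⟩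

lemma cmp_eq (k : E) :
    pE q k N.w' * pE q k (AE b x) * pE q k N.w = cstE Ω q (pL q k N.α) := by
  rw [← map_mul, ← map_mul, N.eq, pE_cstE]

lemma cmp_lam (k : E) (δ : ι → EE Ω q) :
    pL q k (N.lam δ) = avg Ω (pE q k N.w' * pE q k (DE1 b x δ) * pE q k N.w) := by
  rw [NFD.lam, pL_avg, map_mul, map_mul]

lemma conj_mem (k k' : E) {n : ℤ} {y : EE Ω q} (hy : y ∈ Sk.ord _ _ n) :
    pE q k N.w' * y * pE q k' N.w ∈ Sk.ord _ _ n := by
  simpa using Sk.mul_mem_ord (Sk.mul_mem_ord (pE_mem (k := k) N.hw') hy) (pE_mem (k := k') N.hw)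

lemma conj_co (k k' : E) {n : ℤ} {y : EE Ω q} (hy : y ∈ Sk.ord _ _ n) (j : ZMod q) :
    (pE q k N.w' * y * pE q k' N.w).co n j = N.w'.co 0 j k * y.co n j * N.w.co 0 (j + n) k' := by
  have h1 := Sk.co_mul_lead (pE_mem (k := k) N.hw') hy
  have h2 := Sk.co_mul_lead (Sk.mul_mem_ord (pE_mem (k := k) N.hw') hy) (pE_mem (k := k') N.hw)
  rw [add_zero, h1, zero_add] at h2
  rw [h2]
  simp [shift_zpow_apply]

/-- `ad` in one component -/
lemma adk (api : NFAPI N) (k : E) (n : ℤ) (y : EE Ω q) (hy : y ∈ Sk.ord _ _ n)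
    (h0 : avg Ω y = 0) : ∃ ω ∈ Sk.ord (shift Ω q) q (n - 1),
      y = ω * cstE Ω q (pL q k N.α) - cstE Ω q (pL q k N.α) * ω := by
  classical
  let Y : EE (E → Ω) q := ⟨fun m j => Pi.single k (y.co m j), n, fun m hm => by
    funext j; simp [hy m hm]⟩
  have hY : Y ∈ Sk.ord _ _ n := fun m hm => by funext j; simp [Y, hy m hm]
  have hYk : pE q k Y = y := by ext m j; simp [Y]
  have e : N.w' * (N.w * Y * N.w') * N.w = Y := by
    calc N.w' * (N.w * Y * N.w') * N.w = (N.w' * N.w) * Y * (N.w' * N.w) := by noncomm_ring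
      _ = Y := by rw [N.mul2, one_mul, mul_one]
  obtain ⟨ω, hω, h⟩ := api.ad n (N.w * Y * N.w')
    (by simpa using Sk.mul_mem_ord (Sk.mul_mem_ord N.hw hY) N.hw') (by
      rw [e]
      refine ext_pL fun k' => ?_
      rw [pL_avg, map_zero]
      by_cases hk : k' = k
      · rw [hk, hYk, h0]
      · have : pE q k' Y = 0 := by ext m j; simp [Y, hk]
        rw [this]; ext m; simp [avg_co])
  refine ⟨pE q k N.w' * pE q k ω * pE q k N.w, conj_mem k k (pE_mem hω), ?_⟩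
  rw [← hYk, ← e, h, ← cmp_eq]
  simp only [map_mul, map_sub]
  have hw := (cmp_w (N := N) k).1
  generalize pE q k N.w = v at *
  generalize pE q k N.w' = v' at *
  calc v' * (pE q k ω * pE q k (AE b x) - pE q k (AE b x) * pE q k ω) * v =
      v' * pE q k ω * (v * v') * pE q k (AE b x) * v -
        v' * pE q k (AE b x) * (v * v') * pE q k ω * v := by rw [hw]; noncomm_ring
    _ = _ := by noncomm_ring

lemma cstE_mem {n : ℤ} {y : Lq Ω q} (hy : y ∈ Sk.ord _ _ n) : cstE Ω q y ∈ Sk.ord _ _ n :=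
  fun m hm => by funext j; rw [cstE_co, hy m hm]; rfl

lemma d_decomp (hAv : JobAvg) (api : NFAPI N) (k : E) (δ : ι → EE Ω q) (n : ℤ)
    (h : pE q k (DE1 b x δ) ∈ Sk.ord _ _ n) : ∃ ω ∈ Sk.ord (shift Ω q) q (n - 1),
      pE q k N.w' * pE q k (DE1 b x δ) * pE q k N.w = cstE Ω q (pL q k (N.lam δ)) +
        (ω * cstE Ω q (pL q k N.α) - cstE Ω q (pL q k N.α) * ω) := by
  have h1 := conj_mem (N := N) k k h
  obtain ⟨ω, hω, e⟩ := adk api k n
    (pE q k N.w' * pE q k (DE1 b x δ) * pE q k N.w - cstE Ω q (pL q k (N.lam δ)))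
    (sub_mem h1 (cstE_mem (by rw [cmp_lam]; exact avg_mem h1)))
    (by rw [avg_sub, (hAv (Ω := Ω) (Λ := Ω) (q := q)).2.2.2.1, cmp_lam, sub_self])
  exact ⟨ω, hω, by rw [← e]; abel⟩

lemma dd_mul (hJ : JobJet) (f g : NC Ω ι) (δ : ι → EE Ω q) :
    dd x (f * g) δ = dd x f δ * vv x g + vv x f * dd x g δ :=
  (hJ _ _ _ (ptE x)).d1_mul f g δ (dirE δ)

lemma dd_add (hJ : JobJet) (f g : NC Ω ι) (δ : ι → EE Ω q) :
    dd x (f + g) δ = dd x f δ + dd x g δ :=
  (hJ _ _ _ (ptE x)).d1_add f g δ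

lemma dd_C (hJ : JobJet) (a : Ω) (δ : ι → EE Ω q) : dd x (NC.C a) δ = 0 :=
  (hJ _ _ _ (ptE x)).d1_C a δ (dirE δ)

lemma poly (hJ : JobJet) (B : NC Ω ι) (δ : ι → EE Ω q) {w w' ω : EE Ω q} {α l : Lq Ω q}
    (hw : w * w' = 1) (hw' : w' * w = 1) (h1 : w' * vv x B * w = cstE Ω q α)
    (h2 : w' * dd x B δ * w = cstE Ω q l + (ω * cstE Ω q α - cstE Ω q α * ω)) (φ : Polynomial Ω) :
    w' * vv x (aeval B φ) * w = cstE Ω q (φ.eval₂ (Sk.cst 1 q) α) ∧
    w' * dd x (aeval B φ) δ * w = cstE Ω q ((derivative φ).eval₂ (Sk.cst 1 q) α * l) +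
      (ω * cstE Ω q (φ.eval₂ (Sk.cst 1 q) α) - cstE Ω q (φ.eval₂ (Sk.cst 1 q) α) * ω) := by
  have api := hJ _ _ _ (ptE x)
  have c2 : ∀ Y Z : EE Ω q, w' * (Y * Z) * w = w' * Y * w * (w' * Z * w) := fun Y Z => by
    calc w' * (Y * Z) * w = w' * Y * (w * w') * Z * w := by rw [hw]; noncomm_ring
      _ = _ := by noncomm_ring
  have hC : ∀ a : Ω, algebraMap Ω (NC Ω ι) a = NC.C a := fun a => by
    rw [Algebra.algebraMap_eq_smul_one]; ext v; cases v <;> simp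
  have step : ∀ ψ : Polynomial Ω, (w' * vv x (aeval B ψ) * w = cstE Ω q (ψ.eval₂ (Sk.cst 1 q) α) ∧
      w' * dd x (aeval B ψ) δ * w = cstE Ω q ((derivative ψ).eval₂ (Sk.cst 1 q) α * l) +
      (ω * cstE Ω q (ψ.eval₂ (Sk.cst 1 q) α) - cstE Ω q (ψ.eval₂ (Sk.cst 1 q) α) * ω)) →
      (w' * vv x (aeval B (ψ * X)) * w = cstE Ω q ((ψ * X).eval₂ (Sk.cst 1 q) α) ∧
      w' * dd x (aeval B (ψ * X)) δ * w =
        cstE Ω q ((derivative (ψ * X)).eval₂ (Sk.cst 1 q) α * l) +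
      (ω * cstE Ω q ((ψ * X).eval₂ (Sk.cst 1 q) α) -
        cstE Ω q ((ψ * X).eval₂ (Sk.cst 1 q) α) * ω)) := by
    rintro ψ ⟨e1, e2⟩
    rw [map_mul, aeval_X, map_mul, c2, e1, h1, eval₂_mul_X, map_mul, dd_mul hJ,
      mul_add, add_mul, c2, c2, e1, e2, h1, h2, derivative_mul, derivative_X, mul_one, eval₂_add,
      eval₂_mul_X]
    refine ⟨rfl, ?_⟩
    have : cstE Ω q ((eval₂ (Sk.cst 1 q) α (derivative ψ) * α + eval₂ (Sk.cst 1 q) α ψ) * l) =
        cstE Ω q (eval₂ (Sk.cst 1 q) α (derivative ψ) * l) * cstE Ω q α +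
          cstE Ω q (eval₂ (Sk.cst 1 q) α ψ) * cstE Ω q l := by
      rw [← map_mul, ← map_mul, ← map_add]; congr 1; ring
    rw [this]; noncomm_ring
  induction φ using Polynomial.induction_on with
  | C a =>
    have hc : cstE Ω q (Sk.cst 1 q a) = eC Ω q a := rfl
    rw [aeval_C, hC, api.ev_C, dd_C hJ, eval₂_C, derivative_C, eval₂_zero, hc,
      ← (eC_comm a ω).eq, ← (eC_comm a w').eq, mul_assoc, hw']
    simp
  | add p r hp hr =>
    rw [map_add, map_add, dd_add hJ, mul_add, add_mul, mul_add, add_mul, hp.1, hp.2, hr.1, hr.2,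
      derivative_add, eval₂_add, eval₂_add, add_mul, map_add, map_add]
    exact ⟨rfl, by noncomm_ring⟩
  | monomial n a ih =>
    rw [pow_succ, ← mul_assoc]
    exact step _ ih

lemma cancel {n : ℤ} {y g : Lq Ω q} (hg : g ∈ Sk.ord _ _ 0) (h0 : g.co 0 ≠ 0)
    (h : y * g ∈ Sk.ord _ _ n) : y ∈ Sk.ord _ _ n := by
  obtain ⟨g', h1, -, h2⟩ := Sk.exists_inv hg (IsUnit.mk0 _ h0)
  have := Sk.mul_mem_ord h h1
  rwa [mul_assoc, h2, mul_one, neg_zero, add_zero] at this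

lemma const_of_succ (g : ZMod q → Ω) (h : ∀ j, g (j + 1) = g j) (j : ZMod q) : g j = g 0 := by
  obtain ⟨n, rfl⟩ := ZMod.natCast_zmod_surjective j
  induction n with
  | zero => simp
  | succ n ih => rw [Nat.cast_succ, h, ih]

lemma G_lead (hJ : JobJet) (api : NFAPI N) {k k' : E} {c : Ω} (hl : lOf b k = c • lOf b k')
    (hα : N.α.co 1 k = c * N.α.co 1 k') {u : NC Ω ι} (hu : u.co [] = 1) :
    pE q k N.w' * vv x u * pE q k' N.w ∈ Sk.ord _ _ 0 ∧ ∃ g : Ω, g ≠ 0 ∧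
      ∀ j, (pE q k N.w' * vv x u * pE q k' N.w).co 0 j = g := by
  have jet := hJ _ _ _ (ptE x)
  have h0 : vv x u ∈ Sk.ord _ _ 0 := jet.ev_mem 0 u fun w hw => by simp at hw
  have h1 : vv x (u - 1) ∈ Sk.ord _ _ 1 := jet.ev_mem 1 (u - 1) fun w hw => by
    obtain rfl : w = [] := List.length_eq_zero_iff.1 (by omega)
    simp [hu]
  have h2 : ∀ j, (vv x u).co 0 j = 1 := fun j => by
    have := congrFun (h1 0 (by omega)) j
    rw [map_sub, map_one, Sk.co_sub] at this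
    simpa [sub_eq_zero] using this
  refine ⟨conj_mem k k' h0, N.w'.co 0 0 k * N.w.co 0 0 k', mul_ne_zero
    (left_ne_zero_of_mul_eq_one (api.lead_w 0 k).1)
    (right_ne_zero_of_mul_eq_one (api.lead_w 0 k').1), fun j => ?_⟩
  rw [conj_co k k' h0, h2]
  simp only [mul_one, Int.cast_zero, add_zero]
  refine const_of_succ (fun j => N.w'.co 0 j k * N.w.co 0 j k') (fun j => ?_) j
  have e1 := (api.lead_w j k).2
  have e2 := (api.lead_w j k').2
  have e3 := (api.lead_w (j + 1) k).1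
  have e4 := (api.lead_w j k').1
  rw [hl, lv_smul] at e1
  refine mul_left_cancel₀ (api.α_ne k) ?_
  set L := lv (lOf b k') (x j)
  linear_combination -(N.w'.co 0 (j + 1) k * N.w.co 0 (j + 1) k') * e1 +
    (N.w'.co 0 j k * c * L * N.w.co 0 (j + 1) k') * e3 -
    (N.w'.co 0 j k * N.w.co 0 j k') * hα + (N.w'.co 0 j k * N.w.co 0 j k' * c) * e2 -
    (N.w'.co 0 j k * c * L * N.w.co 0 (j + 1) k') * e4

lemma core (hJ : JobJet) (hN : JobNat) (hAv : JobAvg) (api : NFAPI N) {k k' : E} {c : Ω}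
    (hl : lOf b k = c • lOf b k') (hα : N.α.co 1 k = c * N.α.co 1 k') {d : ℕ} {u R : NC Ω ι}
    {φ : Polynomial Ω} (hu : u.co [] = 1) (hR : R ∈ NC.ordGe Ω ι d)
    (heq : cmp b k * u = u * (aeval (cmp b k') φ + R)) (δ : ι → EE Ω q)
    (hδ : ∀ i, δ i ∈ Sk.ord _ _ 1) (n : ℤ) (hn : n ≤ 2)
    (hk : pE q k (DE1 b x δ) ∈ Sk.ord _ _ n) (hk' : pE q k' (DE1 b x δ) ∈ Sk.ord _ _ n) :
    (pL q k (N.lam δ) - (derivative φ).eval₂ (Sk.cst 1 q) (pL q k' N.α) * pL q k' (N.lam δ)) *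
      avg Ω (pE q k N.w' * vv x u * pE q k' N.w) -
      avg Ω (pE q k N.w' * vv x u * pE q k' N.w * (pE q k' N.w' * dd x R δ * pE q k' N.w)) ∈
      Sk.ord _ _ (d + (n - 1)) := by
  have jet := hJ _ _ _ (ptE x)
  have av := hAv (Ω := Ω) (Λ := Ω) (q := q)
  obtain ⟨hG, g, hg0, hg⟩ := G_lead hJ api hl hα hu
  obtain ⟨ω, hω, e3⟩ := d_decomp hAv api k δ n hk
  obtain ⟨ω', hω', e4⟩ := d_decomp hAv api k' δ n hk'
  have a1 := cmp_eq (N := N) k
  have a2 := cmp_eq (N := N) k'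
  rw [(nat hN api k).1] at a1
  rw [(nat hN api k').1] at a2
  rw [(nat hN api k).2] at e3
  rw [(nat hN api k').2] at e4
  obtain ⟨p1, p2⟩ := poly hJ (cmp b k') δ (cmp_w k').1 (cmp_w k').2 a2 e4 φ
  have h1 : vv x (cmp b k) * vv x u = vv x u * (vv x (aeval (cmp b k') φ) + vv x R) := by
    rw [← map_mul, heq, map_mul, map_add]
  have h2 : dd x (cmp b k) δ * vv x u + vv x (cmp b k) * dd x u δ =
      dd x u δ * (vv x (aeval (cmp b k') φ) + vv x R) +
        vv x u * (dd x (aeval (cmp b k') φ) δ + dd x R δ) := by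
    rw [← dd_mul hJ, heq, dd_mul hJ, dd_add hJ, map_add]
  obtain ⟨i1, i2⟩ := alg (cmp_w k).1 (cmp_w k').1 h1 h2 (by rw [a1]; exact e3)
    (by rw [p1]; exact p2)
  rw [a1, p1] at i1 i2
  have hr : pE q k' N.w' * vv x R * pE q k' N.w ∈ Sk.ord _ _ d := conj_mem k' k' (jet.ev_mem d R hR)
  have hG' : pE q k N.w' * dd x u δ * pE q k' N.w ∈ Sk.ord _ _ (n - 1) :=
    (Sk.filt _ _).anti (show n - 1 ≤ 1 by omega) (conj_mem k k' (jet.d1_mem' 1 δ (dirE δ) hδ u))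
  generalize pE q k N.w' * vv x u * pE q k' N.w = G at *
  generalize pE q k N.w' * dd x u δ * pE q k' N.w = G' at *
  generalize pE q k' N.w' * vv x R * pE q k' N.w = r at *
  generalize pE q k' N.w' * dd x R δ * pE q k' N.w = r' at *
  generalize φ.eval₂ (Sk.cst 1 q) (pL q k' N.α) = f at *
  generalize (derivative φ).eval₂ (Sk.cst 1 q) (pL q k' N.α) * pL q k' (N.lam δ) = l' at *
  have hag : (avg Ω G).co 0 ≠ 0 := by simp [avg_co, hg, hg0, NeZero.ne q]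
  have j1 := congrArg (avg Ω) i1
  rw [av.1, (av.2.2.1 _ _).1, (av.2.2.1 _ _).2] at j1
  have hαf : pL q k N.α - f ∈ Sk.ord _ _ d := by
    refine cancel (avg_mem hG) hag ?_
    have : (pL q k N.α - f) * avg Ω G = avg Ω (G * r) := by linear_combination j1
    rw [this]
    simpa using avg_mem (Sk.mul_mem_ord hG hr)
  have hωG : ω * G ∈ Sk.ord _ _ (n - 1) := by simpa using Sk.mul_mem_ord hω hG
  have hG'' : G' - ω * G + G * ω' ∈ Sk.ord _ _ (n - 1) :=
    add_mem (sub_mem hG' hωG) (by simpa using Sk.mul_mem_ord hG hω')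
  have j2 := congrArg (avg Ω) i2
  rw [av.1, avg_sub, avg_sub, (av.2.2.1 _ _).1, (av.2.2.1 _ _).1, (av.2.2.1 _ _).2,
    (av.2.2.1 _ _).2, av.1 (_ + G * r * ω')] at j2
  have : (pL q k (N.lam δ) - l') * avg Ω G - avg Ω (G * r') =
      avg Ω ((G' - ω * G) * r + G * r * ω') - (pL q k N.α - f) * avg Ω (G' - ω * G + G * ω') := by
    linear_combination j2
  rw [this]
  refine sub_mem (avg_mem (add_mem ?_ ?_)) (Sk.mul_mem_ord hαf (avg_mem hG''))
  · rw [add_comm]; exact Sk.mul_mem_ord (sub_mem hG' hωG) hr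
  · simpa using Sk.mul_mem_ord (Sk.mul_mem_ord hG hr) hω'

lemma prod_mono (d : ℕ) (y : Fin d → ZMod q → Ω) :
    (List.ofFn fun r => Sk.mono (shift Ω q) q 1 (y r)).prod =
      Sk.mono (shift Ω q) q d fun j => ∏ r, y r (j + (r : ℕ)) := by
  induction d with
  | zero => simp [Sk.one_def]; rfl
  | succ d ih =>
    rw [List.ofFn_succ, List.prod_cons, ih, Sk.mono_mul_mono]
    congr 1
    · push_cast; ring
    · funext j
      rw [Fin.prod_univ_succ, Pi.mul_apply, shift_zpow_apply]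
      simp only [Fin.val_zero, Nat.cast_zero, add_zero, Int.cast_one, Fin.val_succ, Nat.cast_succ]
      congr 1
      refine prod_congr rfl fun r _ => ?_
      congr 1; ring

lemma dd_lead (hJ : JobJet) {d : ℕ} {R : NC Ω ι} (hR : R ∈ NC.ordGe Ω ι d)
    (η : ZMod q → ι → Ω) (j : ZMod q) : (dd x R (XE η)).co d j =
      ∑ p : Fin d, hat d R (Function.update (win x j d) p (η (j + (p : ℕ)))) := by
  have h := (hJ _ _ _ (ptE x)).d1_lead d 1 (XE η) (dirE _) (fun i => Sk.mono_mem_ord _ _) R hR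
    d (by omega)
  rw [Sk.co_sub, sub_eq_zero] at h
  rw [h]
  simp only [Sk.co_sum, Finset.sum_apply, hat]
  rw [sum_comm]
  refine sum_congr rfl fun p _ => sum_congr rfl fun u _ => ?_
  have : (fun r => if r = p then XE η (u r) else XE x (u r)) = fun r =>
      Sk.mono (shift Ω q) q 1 fun j => if r = p then η j (u r) else x j (u r) := by
    funext r; split_ifs <;> rfl
  rw [this, prod_mono, eC_eq, Sk.mono_mul_mono]
  simp only [zero_add, Sk.co_mono, if_true, zpow_zero, RingAut.one_apply, Pi.mul_apply]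
  congr 1
  refine prod_congr rfl fun r _ => ?_
  by_cases hr : r = p
  · subst hr; simp
  · simp [hr, win]

end step2

end A3

open A3 in
theorem jobA3 (hE : JobEch) (hJ : JobJet) (hN : JobNat) (hAv : JobAvg) (hA : JobA12) : JobA3 := by
  intro Ω E ι _ _ _ _ _ q _ b x N c _ api hG hV hq hα 𝒜 u₀ hdim h𝒜 k d u R φ _ hu _ _ hR heq η hη
  have s1 := step1 hE hA api hG hV hq hα 𝒜 u₀ hdim h𝒜 k
  have hl := c.eq k
  have hα' := hα k
  change ∀ j, lv (lOf b (c.rep (c.cls k))) (η j) = 0 at hη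
  change ∑ j, _ * (zz (lOf b (c.rep (c.cls k))) x d j)⁻¹ = 0
  have hG' : ∀ j, lv (lOf b (c.rep (c.cls k))) (x j) ≠ 0 := hG (c.cls k)
  generalize c.rep (c.cls k) = k' at *
  have jet := hJ _ _ _ (ptE x)
  obtain ⟨hG0, g, hg0, hg⟩ := G_lead hJ api hl hα' hu
  have hag : (avg Ω (pE q k N.w' * vv x u * pE q k' N.w)).co 0 = g := by
    simp [avg_co, hg, NeZero.ne q]
  have hr' : ∀ δ : ι → EE Ω q, (∀ i, δ i ∈ Sk.ord _ _ 1) → dd x R δ ∈ Sk.ord _ _ d :=
    fun δ hδ => by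
      have := jet.d1_mem d 1 δ (dirE δ) hδ R hR
      rwa [sub_add_cancel] at this
  have hE1 : ∀ δ : ι → EE Ω q, (∀ i, δ i ∈ Sk.ord _ _ 1) → pL q k (N.lam δ) -
      (derivative φ).eval₂ (Sk.cst 1 q) (pL q k' N.α) * pL q k' (N.lam δ) ∈ Sk.ord _ _ d := by
    intro δ hδ
    have h1 := (api.de1_lead 1 δ hδ).1
    have h2 := core hJ hN hAv api hl hα' hu hR heq δ hδ 1 (by omega) (pE_mem h1) (pE_mem h1)
    rw [sub_self, add_zero] at h2
    refine cancel (avg_mem hG0) (by rw [hag]; exact hg0) ?_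
    have h3 := avg_mem (Sk.mul_mem_ord hG0 (conj_mem (N := N) k' k' (hr' δ hδ)))
    rw [zero_add] at h3
    simpa using add_mem h2 h3
  have hδ : ∀ i, XE η i ∈ Sk.ord (shift Ω q) q 1 := fun i => Sk.mono_mem_ord _ _
  have hD : ∀ k₁, (∀ j, lv (lOf b k₁) (η j) = 0) →
      pE q k₁ (DE1 b x (XE η)) ∈ Sk.ord _ _ 2 := fun k₁ h n hn => by
    rcases lt_or_eq_of_le (show n ≤ 1 by omega) with h1 | rfl
    · exact pE_mem (api.de1_lead 1 _ hδ).1 n h1
    · funext j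
      rw [pE_co, (api.de1_lead 1 _ hδ).2]
      simpa [XE] using h j
  have hk' := hD k' hη
  have hk := hD k fun j => by rw [hl, lv_smul, hη, mul_zero]
  have h2 := core hJ hN hAv api hl hα' hu hR heq _ hδ 2 le_rfl hk hk' d (by omega)
  have h3 := Sk.co_mul_lead (hE1 _ hδ) (avg_mem hG0)
  have h4 := Sk.co_mul_lead hG0 (conj_mem (N := N) k' k' (hr' _ hδ))
  rw [add_zero, hag] at h3
  rw [zero_add] at h4
  rw [Sk.co_sub, h3, avg_co, h4] at h2
  obtain ⟨δ₀, hδ₀, hl₀⟩ := exists_lam api k' hG' 1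
  have h5 : (pL q k (N.lam (XE η)) -
      (derivative φ).eval₂ (Sk.cst 1 q) (pL q k' N.α) * pL q k' (N.lam (XE η))) *
      pL q k' (N.lam δ₀) = pL q k' (N.lam (XE η)) * (pL q k (N.lam δ₀) -
      (derivative φ).eval₂ (Sk.cst 1 q) (pL q k' N.α) * pL q k' (N.lam δ₀)) := by
    linear_combination s1 (XE η) δ₀
  have h6 := Sk.co_mul_lead (hE1 _ hδ) (pL_mem (k := k') (api.lam_lead 1 δ₀ hδ₀).1)
  have h7 : pL q k' (N.lam (XE η)) ∈ Sk.ord _ _ 2 := by
    rw [cmp_lam]; exact avg_mem (conj_mem k' k' hk')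
  rw [h5, Sk.mul_mem_ord h7 (hE1 δ₀ hδ₀) _ (by push_cast; omega)] at h6
  simp only [one_zpow, RingAut.one_apply, pL_co] at h6
  rw [(mul_eq_zero.1 h6.symm).resolve_right hl₀, zero_mul, zero_sub, neg_eq_zero] at h2
  replace h2 := (mul_eq_zero.1 h2).resolve_left (inv_ne_zero (Nat.cast_ne_zero.2 (NeZero.ne q)))
  refine mul_left_cancel₀ (mul_ne_zero hg0 (pow_ne_zero d (api.α_ne k'))) ?_
  rw [mul_zero, ← h2, mul_sum]
  refine sum_congr rfl fun j _ => ?_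
  rw [zpow_zero, RingAut.one_apply, Pi.mul_apply, hg, conj_co k' k' (hr' _ hδ), dd_lead hJ hR,
    Int.cast_natCast, mul_right_comm (N.w'.co 0 j k'), api.lead_w_pow]
  ring

end Crest.Agent.KU
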