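import Crest.Agent.KU.A5

/-! Row 180, job A4: trace identities extend by one order. -/

set_option autoImplicit false
set_option linter.unusedSectionVars false

namespace Crest.Agent.KU
namespace A4x

open Finset Module Polynomial A5x

lemma rot_ofFn {α : Type} {n : ℕ} (F : Fin (n + 1) → α) (p : Fin (n + 1)) :
    (List.ofFn F).rotate p = List.ofFn fun r => F (r + p) := by
  refine List.ext_getElem (by simp) fun k h1 h2 => ?_
  rw [List.getElem_rotate, List.getElem_ofFn, List.getElem_ofFn]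
  congr 1
  ext
  simp [Fin.val_add]

/-- translation of index functions -/
def shiftE {α : Type} {n : ℕ} (p : Fin (n + 1)) : (Fin (n + 1) → α) ≃ (Fin (n + 1) → α) where
  toFun u := fun r => u (r + p)
  invFun u := fun r => u (r + -p)
  left_inv u := by funext r; simp
  right_inv u := by funext r; simp

section nc

variable {Ω ι : Type} [Field Ω] [Fintype ι] [DecidableEq ι]

/-- cyclic symmetrisation -/
def cyc (n : ℕ) (ρ : NC Ω ι) : NC Ω ι := ⟨fun w => ∑ p : Fin (n + 1), ρ.co (w.rotate p)⟩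

lemma cyc_ofFn (n : ℕ) (ρ : NC Ω ι) (v : Fin (n + 1) → ι) :
    (cyc n ρ).co (List.ofFn v) = ∑ p : Fin (n + 1), ρ.co (List.ofFn fun r => v (r + -p)) := by
  simp only [cyc, rot_ofFn]
  exact (Equiv.sum_comp (Equiv.neg _) fun p => ρ.co (List.ofFn fun r => v (r + p))).symm

lemma lin_mem (l : ι → Ω) : NC.lin l ∈ NC.ordGe Ω ι 1 := fun w hw => by
  cases w with
  | nil => rfl
  | cons a w => simp at hw

lemma lin_pow_mem (l : ι → Ω) (n : ℕ) : NC.lin l ^ n ∈ NC.ordGe Ω ι n := by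
  induction n with
  | zero => intro w hw; omega
  | succ n ih => rw [pow_succ]; exact NC.mul_mem_ordGe ih (lin_mem l)

lemma lin_pow_cons (l : ι → Ω) (n : ℕ) (a : ι) (w : List ι) :
    (NC.lin l ^ (n + 1)).co (a :: w) = l a * (NC.lin l ^ n).co w := by
  have : NC.der a (NC.lin l) = NC.C (l a) := by
    ext v; cases v <;> simp
  rw [pow_succ', NC.mul_cons, this]; simp

lemma lin_pow_ofFn (l : ι → Ω) (n : ℕ) (u : Fin n → ι) :
    (NC.lin l ^ n).co (List.ofFn u) = ∏ r, l (u r) := by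
  induction n with
  | zero => simp
  | succ n ih => rw [List.ofFn_succ, lin_pow_cons, ih, Fin.prod_univ_succ]

lemma hat_lin_pow {q : ℕ} (l : ι → Ω) (x : ZMod q → ι → Ω) (n : ℕ) (j : ZMod q) :
    hat n (NC.lin l ^ n) (win x j n) = zz l x n j := by
  simp only [hat, lin_pow_ofFn, zz, lv, win, ← prod_mul_distrib]
  rw [← Fin.prod_univ_eq_prod_range (fun r : ℕ => ∑ i, l i * x (j + r) i), prod_univ_sum]
  simp

lemma mon_rot (hN : JobNCB) (w : List ι) (k : ℕ) (a : Ω) :
    NC.mon w a - NC.mon (w.rotate k) a ∈ commSpan (NC Ω ι) := by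
  have h := (hN (A := Ω) (ι := ι)).2.2.2.2.2.1
  have hc : ∀ f : NC Ω ι, f * NC.C a = NC.C a * f := fun f => by ext v; simp [mul_comm]
  refine AddSubgroup.subset_closure ⟨NC.C a * ((w.take (k % w.length)).map NC.X).prod,
    ((w.drop (k % w.length)).map NC.X).prod, ?_⟩
  rw [List.rotate_eq_drop_append_take_mod, ← h, ← h, ← mul_assoc _ (NC.C a), hc, mul_assoc,
    mul_assoc, ← List.prod_append, ← List.prod_append, ← List.map_append, ← List.map_append,
    List.take_append_drop]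

lemma co_mon (w v : List ι) (a : Ω) : (NC.mon w a).co v = if v = w then a else 0 := by
  simp only [NC.mon]; congr

lemma exists_z [CharZero Ω] (hN : JobNCB) (n : ℕ) (ρ : NC Ω ι) :
    ∃ z ∈ commSpan (NC Ω ι), (∀ w : List ι, w.length ≠ n + 1 → z.co w = 0) ∧
      ∀ w : List ι, w.length = n + 1 →
        z.co w = ρ.co w - ((n + 1 : ℕ) : Ω)⁻¹ * (cyc n ρ).co w := by
  refine ⟨∑ p : Fin (n + 1), ∑ u : Fin (n + 1) → ι,
    (NC.mon (List.ofFn u) (((n + 1 : ℕ) : Ω)⁻¹ * ρ.co (List.ofFn u)) -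
      NC.mon ((List.ofFn u).rotate p) (((n + 1 : ℕ) : Ω)⁻¹ * ρ.co (List.ofFn u))),
    sum_mem fun p _ => sum_mem fun u _ => mon_rot hN _ _ _, fun w hw => ?_, fun w hw => ?_⟩
  · simp only [NC.co_sum, NC.co_sub, co_mon]
    refine sum_eq_zero fun p _ => sum_eq_zero fun u _ => ?_
    rw [if_neg (fun h => hw (by simp [h])), if_neg (fun h => hw (by simp [h])), sub_zero]
  · obtain ⟨v, rfl⟩ : ∃ v : Fin (n + 1) → ι, w = List.ofFn v :=
      ⟨fun r => w[(r : ℕ)]'(by omega), List.ext_getElem (by simp [hw]) fun k _ _ => by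
        rw [List.getElem_ofFn]⟩
    have h0 : ((n + 1 : ℕ) : Ω) ≠ 0 := Nat.cast_ne_zero.2 (by omega)
    simp only [NC.co_sum, NC.co_sub, co_mon]
    simp only [rot_ofFn, List.ofFn_inj, sum_sub_distrib, cyc_ofFn,
      sum_ite_eq, mem_univ, if_true, sum_const, card_univ, Fintype.card_fin, nsmul_eq_mul,
      mul_sum]
    rw [mul_inv_cancel_left₀ h0]
    congr 1
    refine sum_congr rfl fun p _ => ?_
    rw [Finset.sum_eq_single (fun r => v (r + -p)), if_pos (by funext r; simp)]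
    · intro u _ hu
      rw [if_neg]
      rintro rfl
      exact hu (by funext r; simp)
    · simp

end nc

section tr

variable {Ω : Type} [Field Ω] [CharZero Ω] {q : ℕ} [NeZero q]

/-- the trace -/
noncomputable def tr (Ω : Type) [Field Ω] (q : ℕ) [NeZero q] : EE Ω q →+ Ω where
  toFun y := (q : Ω)⁻¹ * ∑ j, y.co q j
  map_zero' := by simp
  map_add' y z := by simp [sum_add_distrib, mul_add]

lemma tr_apply (y : EE Ω q) : tr Ω q y = (q : Ω)⁻¹ * ∑ j, y.co q j := rfl

lemma tr_comm (hA : JobAvg) (y z : EE Ω q) : tr Ω q (y * z) = tr Ω q (z * y) := by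
  have := (hA (Ω := Ω) (Λ := Ω) (q := q)).2.2.2.2.1 y z 1
  rw [mul_one] at this
  exact this

lemma tr_rot (hA : JobAvg) (L : List (EE Ω q)) (k : ℕ) :
    tr Ω q (L.rotate k).prod = tr Ω q L.prod := by
  rw [List.rotate_eq_drop_append_take_mod, List.prod_append, tr_comm hA, ← List.prod_append,
    List.take_append_drop]

lemma eC_eq {Λ : Type} [Ring Λ] (a : Λ) : eC Λ q a = Sk.mono _ _ 0 fun _ => a := by
  ext n j
  simp only [eC, cstE, RingHom.comp_apply, Sk.co_map, Sk.co_cst, Sk.co_mono]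
  split_ifs <;> rfl

lemma eC_mul_co (a : Ω) (y : EE Ω q) (n : ℤ) (j : ZMod q) :
    (eC Ω q a * y).co n j = a * y.co n j := by
  rw [eC_eq, Sk.mono_mul_co]; simp

lemma eC_comm (a : Ω) (y : EE Ω q) : Commute (eC Ω q a) y := by
  ext n j
  rw [eC_mul_co, eC_eq, Sk.mul_mono_co]
  simp [shift_zpow_apply, mul_comm]

lemma tr_eC (a : Ω) (y : EE Ω q) : tr Ω q (eC Ω q a * y) = a * tr Ω q y := by
  simp only [tr_apply, eC_mul_co, ← mul_sum]; ring

variable {ι : Type} [Fintype ι] [DecidableEq ι]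

lemma pt0 (x : ZMod q → ι → Ω) : Pt (Sk.filt _ _) (eC Ω q) (XE x) where
  const a := by rw [eC_eq]; exact Sk.mono_mem_ord _ _
  comm a _ := eC_comm a _
  mem _ := Sk.mono_mem_ord _ _
  exh := Sk.exists_ord

lemma dir0 (δ : ι → EE Ω q) : Dir (eC Ω q) δ := fun a _ => eC_comm a _

lemma prod_XE (x : ZMod q → ι → Ω) (n : ℕ) (u : Fin n → ι) :
    (List.ofFn fun r => XE x (u r)).prod =
      Sk.mono _ _ (n : ℤ) fun j => ∏ r : Fin n, x (j + (r : ℕ)) (u r) := by
  induction n with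
  | zero => simp only [List.ofFn_zero, List.prod_nil, Sk.one_def]; rfl
  | succ n ih =>
    rw [List.ofFn_succ, List.prod_cons, ih, XE, Sk.mono_mul_mono]
    congr 1
    · push_cast; ring
    · funext j
      simp only [Pi.mul_apply, shift_zpow_apply, Fin.prod_univ_succ, Fin.val_zero, Nat.cast_zero,
        add_zero, Fin.val_succ, Nat.cast_add, Nat.cast_one, Int.cast_one]
      congr 1
      exact prod_congr rfl fun r _ => by rw [add_assoc, add_comm (1 : ZMod q)]

/-- the trace of the leading part of the derivative -/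
lemma tr_lead (hA : JobAvg) (x : ZMod q → ι → Ω) (n m : ℕ) (hm : m + n = q) (ρ : NC Ω ι)
    (δ : ι → EE Ω q) :
    tr Ω q (∑ u : Fin (n + 1) → ι, ∑ p : Fin (n + 1), eC Ω q (ρ.co (List.ofFn u)) *
      (List.ofFn fun r => if r = p then δ (u r) else XE x (u r)).prod) =
    (q : Ω)⁻¹ * ∑ j, ∑ a, (δ a).co m j * hat n (NC.der a (cyc n ρ)) (win x (j + m) n) := by
  let t : (Fin (n + 1) → ι) → Ω := fun v =>
    tr Ω q (δ (v 0) * (List.ofFn fun r : Fin n => XE x (v r.succ)).prod)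
  have e1 : ∀ (u : Fin (n + 1) → ι) (p : Fin (n + 1)),
      tr Ω q (List.ofFn fun r => if r = p then δ (u r) else XE x (u r)).prod =
        t (shiftE p u) := fun u p => by
    rw [← tr_rot hA _ p, rot_ofFn, List.ofFn_succ, List.prod_cons]
    simp [t, shiftE, Fin.succ_ne_zero]
  have e2 : ∀ p : Fin (n + 1), ∑ u : Fin (n + 1) → ι, ρ.co (List.ofFn u) * t (shiftE p u) =
      ∑ v : Fin (n + 1) → ι, ρ.co (List.ofFn fun r => v (r + -p)) * t v := fun p => by
    rw [← (shiftE p).symm.sum_comp]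
    simp only [Equiv.apply_symm_apply]
    rfl
  have e3 : ∀ (a : ι) (u : Fin n → ι), t (Fin.cons a u) =
      (q : Ω)⁻¹ * ∑ j, (δ a).co m j * ∏ r : Fin n, x (j + m + (r : ℕ)) (u r) := fun a u => by
    simp only [t, Fin.cons_zero, Fin.cons_succ, prod_XE, tr_apply, Sk.mul_mono_co]
    rw [show (q : ℤ) - n = m by omega]
    simp only [Pi.mul_apply, shift_zpow_apply, Int.cast_natCast]
  simp only [map_sum, tr_eC, e1]
  rw [sum_comm]
  simp only [e2]
  rw [sum_comm]
  simp only [← sum_mul, ← cyc_ofFn]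
  rw [← (Fin.consEquiv fun _ : Fin (n + 1) => ι).sum_comp, Fintype.sum_prod_type]
  have e4 : ∀ (a : ι) (u : Fin n → ι),
      (Fin.consEquiv fun _ : Fin (n + 1) => ι) (a, u) = Fin.cons a u := fun _ _ => rfl
  simp only [e4, e3, List.ofFn_succ, Fin.cons_zero, Fin.cons_succ, hat,
    NC.co_der, win, mul_sum]
  rw [sum_comm (s := (univ : Finset (ZMod q)))]
  refine sum_congr rfl fun a _ => ?_
  rw [sum_comm]
  exact sum_congr rfl fun j _ => sum_congr rfl fun u _ => by ring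

end tr

section nf

variable {Ω E ι : Type} [Field Ω] [CharZero Ω] [Fintype E] [Fintype ι] [DecidableEq ι] {q : ℕ}
  [NeZero q] {b : NC (E → Ω) ι} {x : ZMod q → ι → Ω} {N : NFD b x}

lemma mapE_up (k : E) (δ : ι → EE Ω q) :
    (fun i => mapE q (Pi.evalRingHom (fun _ : E => Ω) k) (up E δ i)) = δ := by
  funext i; ext n j; rfl

lemma nat (hNat : JobNat) (api : NFAPI N) (k : E) (δ : ι → EE Ω q) :
    mapE q (Pi.evalRingHom (fun _ : E => Ω) k) (AE b x) =
      evX (Sk.filt _ _) (eC Ω q) (XE x) (cmp b k) ∧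
    mapE q (Pi.evalRingHom (fun _ : E => Ω) k) (DE1 b x δ) =
      D1 (Sk.filt _ _) (eC Ω q) (XE x) (cmp b k) δ := by
  have h := (hNat (ι := ι) (Sk.filt _ _) (Sk.filt _ _) (eC (E → Ω) q) (eC Ω q)
    (Pi.evalRingHom (fun _ : E => Ω) k) (mapE q (Pi.evalRingHom (fun _ : E => Ω) k))
    (fun n r hr m hm => by
      funext j
      change r.co m j k = 0
      rw [hr m hm]; rfl)
    (fun a => by
      rw [eC_eq, eC_eq]; ext n j
      simp only [mapE, Sk.co_map, Sk.co_mono]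
      split_ifs <;> rfl)).2 (up E (XE x)) api.pt (by rw [mapE_up]; exact pt0 x) b
  have h2 := h.2.1 (up E δ) (api.dir δ) (dir0 _)
  have h1 := h.1
  rw [mapE_up] at h1
  rw [mapE_up, mapE_up] at h2
  exact ⟨h1, h2⟩

lemma key (hA : JobAvg) (k : E) {δ : ι → EE Ω q} (hδ : N.lam δ = 0) (n : ℕ) :
    tr Ω q (mapE q (Pi.evalRingHom (fun _ : E => Ω) k) (AE b x ^ n * DE1 b x δ)) = 0 := by
  obtain ⟨-, -, a3, -, a5, -⟩ := hA (Ω := Ω) (Λ := E → Ω) (q := q)
  have e1 : ∀ n : ℕ, N.w' * AE b x ^ n = cstE (E → Ω) q (N.α ^ n) * N.w' := fun n => by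
    induction n with
    | zero => simp
    | succ n ih =>
      rw [pow_succ, ← mul_assoc, ih, pow_succ, map_mul, ← N.eq, mul_assoc, mul_assoc, mul_assoc,
        N.mul1, mul_one]
  have e2 : avg Ω (N.w' * (AE b x ^ n * DE1 b x δ) * N.w) = 0 := by
    rw [← mul_assoc, e1, mul_assoc, mul_assoc, (a3 _ _).1, ← mul_assoc]
    change _ * N.lam δ = 0
    rw [hδ, mul_zero]
  have e3 := a5 (N.w' * (AE b x ^ n * DE1 b x δ)) N.w 1
  rw [e2, ← mul_assoc, N.mul1, one_mul, mul_one] at e3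
  have e4 := congrFun e3 k
  change (0 : Ω) = ((q : Ω)⁻¹ • ∑ j : ZMod q, (AE b x ^ n * DE1 b x δ).co q j) k at e4
  rw [Pi.smul_apply, Finset.sum_apply, smul_eq_mul] at e4
  exact e4.symm

lemma tr_aeval (hJet : JobJet) (hNat : JobNat) (hA : JobAvg) (api : NFAPI N) (k : E)
    {δ : ι → EE Ω q} (hδ : N.lam δ = 0) (H : Polynomial Ω) :
    tr Ω q (D1 (Sk.filt _ _) (eC Ω q) (XE x) (aeval (cmp b k) H) δ) = 0 := by
  have jet := hJet _ _ _ (pt0 x)
  obtain ⟨n1, n2⟩ := nat hNat api k δ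
  set A := evX (Sk.filt _ _) (eC Ω q) (XE x) (cmp b k) with hAd
  have k1 : ∀ n : ℕ, tr Ω q (A ^ n * D1 (Sk.filt _ _) (eC Ω q) (XE x) (cmp b k) δ) = 0 :=
    fun n => by rw [← n1, ← n2, ← map_pow, ← map_mul]; exact key hA k hδ n
  have k2 : ∀ n s : ℕ,
      tr Ω q (A ^ s * D1 (Sk.filt _ _) (eC Ω q) (XE x) (cmp b k ^ n) δ) = 0 := fun n => by
    induction n with
    | zero =>
      intro s
      rw [pow_zero, ← map_one (NC.C : Ω →+* NC Ω ι), jet.d1_C _ _ (dir0 δ), mul_zero, map_zero]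
    | succ n ih =>
      intro s
      rw [pow_succ, jet.d1_mul _ _ _ (dir0 δ), mul_add, map_add, map_pow, ← hAd, ← mul_assoc,
        ← mul_assoc, ← pow_add, k1, add_zero, tr_comm hA, ← mul_assoc, ← pow_succ', ih]
  induction H using Polynomial.induction_on' with
  | add p p' hp hp' => rw [map_add, jet.d1_add, map_add, hp, hp', add_zero]
  | monomial n a =>
    have : algebraMap Ω (NC Ω ι) a = NC.C a := by
      rw [Algebra.algebraMap_eq_smul_one]; ext w; cases w <;> simp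
    rw [aeval_monomial, this, jet.d1_mul _ _ _ (dir0 δ), jet.d1_C _ _ (dir0 δ), zero_mul,
      zero_add, jet.ev_C, tr_eC]
    have := k2 n 0
    rw [pow_zero, one_mul] at this
    rw [this, mul_zero]

end nf

end A4x

open A4x A5x Finset Module Polynomial in
theorem jobA4 (hN : JobNCB) (hA : JobAvg) (hJet : JobJet) (hNat : JobNat) (h12 : JobA12) :
    JobA4 := by
  classical
  intro Ω E ι _ _ _ _ _ q _ b x N c _ api g0 hF hdim d H z hd hdq hG hz hρ
  have h3 := ((h12 N c api g0).2 hF).2 hdim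
  have jet := hJet _ _ _ (pt0 x)
  obtain ⟨n, rfl⟩ : ∃ n, d = n + 1 := ⟨d - 1, by omega⟩
  obtain ⟨m, hm⟩ : ∃ m, m + n = q := ⟨q - n, by omega⟩
  rw [Nat.add_sub_cancel] at hG
  set ρ := ∑ κ, aeval (cmp b (c.rep κ)) (H κ) - z with hρd
  have hq0 : (q : Ω) ≠ 0 := Nat.cast_ne_zero.2 (NeZero.ne q)
  have van : ∀ η : ZMod q → ι → Ω, (∀ κ, ∑ j, lv (c.lr κ) (η j) * (zz (c.lr κ) x m j)⁻¹ = 0) →
      ∑ j, ∑ a, η j a * hat n (NC.der a (cyc n ρ)) (win x (j + m) n) = 0 := fun η hη => by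
    obtain ⟨δ, d1, d2, d3⟩ := kerlift api h3 m η hη
    let T : NC Ω ι →+ Ω := (tr Ω q).comp
      (AddMonoidHom.mk' (fun f => D1 (Sk.filt _ _) (eC Ω q) (XE x) f δ)
        fun f g => jet.d1_add f g δ)
    have hT : ∀ f, T f = tr Ω q (D1 (Sk.filt _ _) (eC Ω q) (XE x) f δ) := fun _ => rfl
    have t1 : T z = 0 := by
      refine (AddSubgroup.closure_le T.ker).2 ?_ hz
      rintro _ ⟨f, g, rfl⟩
      change T _ = 0
      rw [map_sub, hT, hT, jet.d1_mul _ _ _ (dir0 δ), jet.d1_mul _ _ _ (dir0 δ), map_add, map_add,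
        tr_comm hA (D1 _ _ _ f δ), tr_comm hA (D1 _ _ _ g δ)]
      ring
    have t2 : T ρ = 0 := by
      rw [hρd, map_sub, map_sum, t1, sub_zero]
      exact sum_eq_zero fun κ _ => tr_aeval hJet hNat hA api _ d3 _
    have t3 := jet.d1_lead (n + 1) m δ (dir0 δ) d1 ρ hρ q (by push_cast; omega)
    have t4 : tr Ω q (D1 (Sk.filt _ _) (eC Ω q) (XE x) ρ δ -
        ∑ u : Fin (n + 1) → ι, ∑ p : Fin (n + 1), eC Ω q (ρ.co (List.ofFn u)) *
          (List.ofFn fun r => if r = p then δ (u r) else XE x (u r)).prod) = 0 := by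
      rw [tr_apply, t3]; simp
    rw [map_sub, ← hT, t2, tr_lead hA x n m hm, zero_sub, neg_eq_zero,
      mul_eq_zero_iff_left (inv_ne_zero hq0)] at t4
    simpa only [d2] using t4
  let fn : (ZMod q → ι → Ω) → (ZMod q → ι → Ω) →ₗ[Ω] Ω := fun g =>
    { toFun := fun η => ∑ j, ∑ a, η j a * g j a
      map_add' := fun η η' => by simp [add_mul, sum_add_distrib]
      map_smul' := fun s η => by simp [mul_sum, mul_assoc] }
  have hfn : ∀ g j a, fn g (Pi.single j (Pi.single a 1)) = g j a := fun g j a => by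
    change ∑ j', ∑ a', _ = _
    rw [Finset.sum_eq_single j, Finset.sum_eq_single a]
    · simp
    · intro a' _ h; simp [h]
    · simp
    · intro j' _ h; simp [h]
    · simp
  have hsp := mem_span_of_iInf_ker_le_ker
    (L := fun κ : c.K => fn fun j a => c.lr κ a * (zz (c.lr κ) x m j)⁻¹)
    (K := fn fun j a => hat n (NC.der a (cyc n ρ)) (win x (j + m) n)) fun η hη => by
      refine van η fun κ => ?_
      have : ∑ j, ∑ a, η j a * (c.lr κ a * (zz (c.lr κ) x m j)⁻¹) = 0 :=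
        (Submodule.mem_iInf _).1 hη κ
      rw [← this]
      refine sum_congr rfl fun j _ => ?_
      simp only [lv, sum_mul]
      exact sum_congr rfl fun a _ => by ring
  obtain ⟨γ', hγ'⟩ := (Submodule.mem_span_range_iff_exists_fun Ω).1 hsp
  let γ : c.K → Ω := fun κ => γ' κ * (N.α.co 1 (c.rep κ) ^ q)⁻¹
  have hcyc : ∀ a w, w.length = n →
      (cyc n ρ).co (a :: w) = ∑ κ, γ κ * (NC.lin (c.lr κ) ^ (n + 1)).co (a :: w) := by
    intro a w hw
    have := hG (NC.der a (cyc n ρ) - ∑ κ, (γ κ * c.lr κ a) • NC.lin (c.lr κ) ^ n) (fun j => by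
      obtain ⟨j, rfl⟩ : ∃ j', j = j' + m := ⟨j - m, by ring⟩
      have e := LinearMap.congr_fun hγ' (Pi.single j (Pi.single a 1))
      simp only [LinearMap.sum_apply, LinearMap.smul_apply, hfn, smul_eq_mul] at e
      have e2 : hat n (NC.der a (cyc n ρ) - ∑ κ, (γ κ * c.lr κ a) • NC.lin (c.lr κ) ^ n)
          (win x (j + m) n) = hat n (NC.der a (cyc n ρ)) (win x (j + m) n) -
            ∑ κ, γ κ * c.lr κ a * hat n (NC.lin (c.lr κ) ^ n) (win x (j + m) n) := by
        simp only [hat, NC.co_sub, NC.co_sum, NC.co_smul, smul_eq_mul, sub_mul, sum_sub_distrib,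
          sum_mul, mul_sum, mul_assoc]
        rw [sum_comm]
      rw [e2, ← e, sub_eq_zero]
      refine sum_congr rfl fun κ _ => ?_
      have z1 := zz_add (c.lr κ) x m n j
      have z2 : N.α.co 1 (c.rep κ) ^ q = zz (c.lr κ) x q j := api.α_pow (c.rep κ) j
      rw [hm, ← z2] at z1
      have n1 := zz_ne _ x (g0 κ) m j
      have n2 := zz_ne _ x (g0 κ) n (j + m)
      simp only [hat_lin_pow, γ, z1]
      field_simp) w hw
    simp only [NC.co_sub, NC.co_der, NC.co_sum, NC.co_smul, smul_eq_mul, sub_eq_zero] at this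
    rw [this]
    exact sum_congr rfl fun κ _ => by rw [lin_pow_cons, mul_assoc]
  obtain ⟨z', hz', z1, z2⟩ := exists_z hN n ρ
  refine ⟨fun κ => ((n + 1 : ℕ) : Ω)⁻¹ * γ κ, z', hz', fun w hw => ?_⟩
  simp only [NC.co_sub, NC.co_sum, NC.co_smul, smul_eq_mul]
  rcases eq_or_lt_of_le (Nat.lt_succ_iff.1 hw) with h | h
  · rw [z2 w h]
    obtain _ | ⟨a, w⟩ := w
    · simp at h
    · rw [hcyc a w (by simpa using h), mul_sum]
      simp only [mul_assoc]; ring
  · rw [z1 w h.ne, hρ w h, sum_eq_zero fun κ _ => by rw [lin_pow_mem _ _ w h, mul_zero]]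
    simp

end Crest.Agent.KU
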