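import Crest.Agent.KU.Jobs

/-! Row 180, job Avg: the averaging map. -/

set_option autoImplicit false
set_option linter.unusedSectionVars false

namespace Crest.Agent.KU

open Finset

namespace AvgX

variable {Ω Λ : Type} [Field Ω] [CharZero Ω] [CommRing Λ] [Algebra Ω Λ] {q : ℕ} [NeZero q]

lemma avg_co (y : EE Λ q) (n : ℤ) : (avg Ω y).co n = (q : Ω)⁻¹ • ∑ j : ZMod q, y.co n j := rfl

lemma cstE_co (c : Lq Λ q) (n : ℤ) (j : ZMod q) : (cstE Λ q c).co n j = c.co n := rfl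

lemma cstE_bdd {c : Lq Λ q} {a : ℤ} (ha : ∀ n < a, c.co n = 0) :
    ∀ n < a, (cstE Λ q c).co n = 0 := fun n hn => by
  funext j; rw [cstE_co, ha n hn]; rfl

lemma avg_bdd {y : EE Λ q} {a : ℤ} (ha : ∀ n < a, y.co n = 0) :
    ∀ n < a, (avg Ω y).co n = 0 := fun n hn => by
  rw [avg_co, ha n hn]; simp

lemma sum_shift (g : ZMod q → Λ) (i : ZMod q) : ∑ j, g (j + i) = ∑ j, g j :=
  Equiv.sum_comp (Equiv.addRight i) g

lemma avg_cst_mul (c : Lq Λ q) (y : EE Λ q) : avg Ω (cstE Λ q c * y) = c * avg Ω y := by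
  obtain ⟨a, ha⟩ := c.bdd; obtain ⟨b, hb⟩ := y.bdd
  ext n
  rw [avg_co, Sk.co_mul (cstE_bdd ha) hb, Sk.co_mul ha (avg_bdd hb)]
  simp only [Finset.sum_apply, Pi.mul_apply, shift_zpow_apply, cstE_co, avg_co, one_zpow,
    RingAut.one_apply]
  rw [sum_comm, smul_sum]
  refine sum_congr rfl fun i _ => ?_
  rw [← mul_sum, sum_shift, mul_smul_comm]

lemma avg_mul_cst (c : Lq Λ q) (y : EE Λ q) : avg Ω (y * cstE Λ q c) = avg Ω y * c := by
  obtain ⟨a, ha⟩ := c.bdd; obtain ⟨b, hb⟩ := y.bdd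
  ext n
  rw [avg_co, Sk.co_mul hb (cstE_bdd ha), Sk.co_mul (avg_bdd hb) ha]
  simp only [Finset.sum_apply, Pi.mul_apply, shift_zpow_apply, cstE_co, avg_co, one_zpow,
    RingAut.one_apply]
  rw [sum_comm, smul_sum]
  refine sum_congr rfl fun i _ => ?_
  rw [← sum_mul, smul_mul_assoc]

lemma cstE_algebraMap (f : La Ω) :
    cstE Λ q (algebraMap (La Ω) (Lq Λ q) f) = algebraMap (La Ω) (EE Λ q) f := by
  ext n j
  rw [cstE_co, Sk.co_algebraMap, Sk.co_algebraMap]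
  split_ifs <;> rfl

lemma mapE_algebraMap (f : La Ω) :
    mapE q (algebraMap Ω Λ) (algebraMap (La Ω) (EE Ω q) f) = algebraMap (La Ω) (EE Λ q) f := by
  ext n j
  change algebraMap Ω Λ ((algebraMap (La Ω) (EE Ω q) f).co n j) = _
  rw [Sk.co_algebraMap, Sk.co_algebraMap]
  split_ifs
  · rfl
  · simp

lemma avg_comm (y z : EE Λ q) (e : ℤ) :
    (avg Ω (y * z)).co (q * e) = (avg Ω (z * y)).co (q * e) := by
  obtain ⟨a, ha⟩ := y.bdd; obtain ⟨b, hb⟩ := z.bdd
  rw [avg_co, avg_co, Sk.co_mul ha hb, Sk.co_mul_of hb ha _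
    ((Icc a (q * e - b)).map (Equiv.subLeft (q * e : ℤ)).toEmbedding) (fun i h1 h2 => by
      simp only [mem_map, mem_Icc, Equiv.coe_toEmbedding, Equiv.subLeft_apply]
      exact ⟨q * e - i, ⟨by omega, by omega⟩, by ring⟩), sum_map]
  congr 1
  simp only [Finset.sum_apply, Pi.mul_apply, shift_zpow_apply, Equiv.coe_toEmbedding,
    Equiv.subLeft_apply]
  rw [sum_comm, sum_comm (s := univ)]
  refine sum_congr rfl fun i _ => ?_
  rw [← sum_shift (fun j => z.co (q * e - i) j * y.co (q * e - (q * e - i))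
    (j + ((q * e - i : ℤ) : ZMod q))) (i : ZMod q)]
  refine sum_congr rfl fun j _ => ?_
  rw [mul_comm, sub_sub_cancel]
  simp

end AvgX

open AvgX in
theorem jobAvg : JobAvg := by
  intro Ω Λ _ _ _ _ q _
  refine ⟨fun y z => ?_, fun f y => ?_, fun c y => ⟨avg_cst_mul c y, avg_mul_cst c y⟩,
    fun c => ?_, avg_comm, fun f c => ?_, fun f y => ?_⟩
  · ext n; simp [avg_co, sum_add_distrib]
  · rw [Algebra.smul_def, Algebra.smul_def, ← cstE_algebraMap, avg_cst_mul]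
  · ext n
    simp only [avg_co, cstE_co, sum_const, card_univ, ZMod.card]
    rw [← Nat.cast_smul_eq_nsmul Ω, smul_smul, inv_mul_cancel₀ (Nat.cast_ne_zero.2 (NeZero.ne q)),
      one_smul]
  · rw [Algebra.smul_def, Algebra.smul_def, map_mul, cstE_algebraMap]
  · rw [Algebra.smul_def, Algebra.smul_def, map_mul, mapE_algebraMap]

end Crest.Agent.KU
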