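import Crest.Agent.KU.Jobs

/-! Job BC: base change along a semilinear map. -/

set_option autoImplicit false

namespace Crest.Agent.KU

open Finset Module

theorem jobBC : JobBC := by
  intro k Ω V W _ _ _ _ _ _ φ j hj
  refine ⟨fun {I} _ y hy hi n z hz => ?_, fun h _ P => ?_⟩
  · letI := φ.toAlgebra
    choose M hM using fun a => (Submodule.mem_span_range_iff_exists_fun k).1
      (hy ▸ Submodule.mem_top : z a ∈ Submodule.span k (Set.range y))
    have h1 : LinearIndependent k M := .of_comp (Fintype.linearCombination k y) (by
      simpa [Function.comp_def, Fintype.linearCombination_apply, hM] using hz)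
    convert! ((linearIndependent_algebraMap_comp_iff (S := Ω)).2 h1).map'
      (Fintype.linearCombination Ω fun i => j (y i))
      (LinearMap.ker_eq_bot.2 hi.fintypeLinearCombination_injective) using 2 with a
    simp [Fintype.linearCombination_apply, ← hM, hj, RingHom.algebraMap_toAlgebra]
  · let b := Module.finBasis k P
    have hb : LinearIndependent k fun i => (b i : V) :=
      b.linearIndependent.map' P.subtype P.ker_subtype
    have e : Submodule.span Ω (j '' P) = Submodule.span Ω (Set.range fun i => j (b i)) := by
      refine le_antisymm (Submodule.span_le.2 ?_) (Submodule.span_mono ?_)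
      · rintro _ ⟨v, hv, rfl⟩
        have := congrArg (fun x : P => j x) (b.sum_repr ⟨v, hv⟩)
        simp only [Submodule.coe_sum, Submodule.coe_smul, map_sum, hj] at this
        rw [← this]
        exact Submodule.sum_mem _ fun i _ => Submodule.smul_mem _ _ (Submodule.subset_span ⟨i, rfl⟩)
      · rintro _ ⟨i, rfl⟩
        exact ⟨_, (b i).2, rfl⟩
    refine ⟨by rw [e, finrank_span_eq_card (h _ _ hb), Fintype.card_fin], fun v hv => ?_⟩
    by_contra hP
    have h1 := h _ (Fin.cons v fun i => (b i : V)) (linearIndependent_finCons.2 ⟨hb, fun h' =>
      hP (Submodule.span_le.2 (by rintro _ ⟨i, rfl⟩; exact (b i).2) h')⟩)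
    refine (linearIndependent_finCons.1 (show LinearIndependent Ω (Fin.cons (j v) fun i => j (b i))
      by convert h1 using 2 with i; cases i using Fin.cases <;> rfl)).2 (e ▸ hv)

end Crest.Agent.KU
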