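import Crest.Agent.KU.P1a

/-! Row 180: the bridge between an extension and the split picture. -/

set_option autoImplicit false
set_option linter.unusedSectionVars false

namespace Crest.Agent.KU

open Finset Module Polynomial

namespace Br

lemma cstE_inj {Λ : Type} [Ring Λ] {q : ℕ} [NeZero q] : Function.Injective (cstE Λ q) :=
  fun f g h => by
    ext n
    exact congrFun (congrArg (fun y => Sk.co y n) h) 0

section

variable {Ω E ι : Type} [Field Ω] [CharZero Ω] [Fintype ι] [DecidableEq ι] {q : ℕ} [NeZero q]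
  {b : NC (E → Ω) ι} {x : ZMod q → ι → Ω} (N : NFD b x)

lemma avg_sub (av : JobAvg) (y z : EE (E → Ω) q) : avg Ω (y - z) = avg Ω y - avg Ω z := by
  rw [eq_sub_iff_add_eq, ← (av (Ω := Ω)).1, sub_add_cancel]

lemma avg_comm (av : JobAvg) (ω : EE (E → Ω) q) :
    avg Ω (N.w' * (ω * AE b x - AE b x * ω) * N.w) = 0 := by
  have e : N.w' * (ω * AE b x - AE b x * ω) * N.w =
      N.w' * ω * N.w * cstE _ q N.α - cstE _ q N.α * (N.w' * ω * N.w) := by
    rw [← N.eq]
    have h := N.mul1
    calc _ = N.w' * ω * (N.w * N.w') * AE b x * N.w - N.w' * AE b x * (N.w * N.w') * ω * N.w := by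
          rw [h]; noncomm_ring
      _ = _ := by noncomm_ring
  rw [e, avg_sub av, ((av (Ω := Ω)).2.2.1 _ _).1, ((av (Ω := Ω)).2.2.1 _ _).2, mul_comm, sub_self]

end

variable (a : An) (p : Par a.F) (ξ : a.ι → Lq a.F p.q) (N : NFD a.bb (xOf p (a.th p.q) ξ))

/-- the embedding of the centralizer -/
noncomputable def jj (hN : NFAPI N) (hA : a.jSh p (AA p ξ a.B) = AE a.bb (xOf p (a.th p.q) ξ)) :
    Cent p ξ a.B →+* Lq (a.Emb → Om a.F) p.q :=
  have h : ∀ y : Cent p ξ a.B, N.w' * a.jSh p y * N.w =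
      cstE _ p.q (avg (Om a.F) (N.w' * a.jSh p y * N.w)) := fun y => hN.cent _ (by
    rw [← hA]
    exact Commute.map ((Subalgebra.mem_centralizer_iff _).1 y.2 _ rfl).symm _)
  { toFun := fun y => avg (Om a.F) (N.w' * a.jSh p y * N.w)
    map_one' := cstE_inj (by rw [← h]; simp [N.mul2])
    map_mul' := fun y z => cstE_inj (by
      rw [map_mul, ← h, ← h, ← h, MulMemClass.coe_mul, map_mul]
      calc _ = N.w' * a.jSh p y * (N.w * N.w') * a.jSh p z * N.w := by
            rw [N.mul1]; noncomm_ring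
        _ = _ := by noncomm_ring)
    map_zero' := cstE_inj (by rw [← h]; simp)
    map_add' := fun y z => cstE_inj (by
      rw [map_add, ← h, ← h, ← h, AddMemClass.coe_add, map_add, mul_add, add_mul]) }

end Br

open Br in
theorem jobBr (ech : JobEch) (av : JobAvg) (jet : JobJet) (mb : JobMorB) (extK : JobExtK)
    (spl : JobSpl) (nt : JobNT) (jt : JobJT) : JobBr := by
  intro a p ξ N hc hξ hN
  obtain ⟨sl⟩ := mb.2.2.2.2.2.2.1 p ξ a.two
  obtain ⟨⟨nf⟩, w1⟩ := extK a p ξ sl
  obtain ⟨r1, r2, -⟩ := w1 nf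
  obtain ⟨s1, -, s3, s4, s5, s6, s7⟩ := spl a p hc
  obtain ⟨t1, t2, -⟩ := s7 ξ
  have J := jet _ _ _ (mb.2.2.2.2.2.2.2 p ξ a.D).1
  have hA : AA p ξ a.B ∈ Sk.ord (sc a.D p) p.q 1 := J.ev_mem 1 _ a.ord1
  obtain ⟨k⟩ : Nonempty a.Emb := Fintype.card_pos_iff.1 (s1 ▸ finrank_pos)
  have hA0 : (AA p ξ a.B).co 1 ≠ 0 := fun h => by
    have h1 := hN.ae_lead.2 0 k
    rw [← t1] at h1
    change a.jCo p ((AA p ξ a.B).co 1) 0 k = _ at h1
    rw [h, map_zero] at h1
    have h2 := (hN.lead_w 0 k).2
    rw [← h1] at h2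
    exact hN.α_ne k (by rw [← h2]; simp)
  set j := jj a p ξ N hN t1 with hj
  have hjv : ∀ y, j y = avg (Om a.F) (N.w' * a.jSh p y * N.w) := fun _ => rfl
  have hcst : ∀ y : Cent p ξ a.B, N.w' * a.jSh p y * N.w = cstE _ p.q (j y) := fun y =>
    hN.cent _ (by
      rw [← t1]
      exact Commute.map ((Subalgebra.mem_centralizer_iff _).1 y.2 _ rfl).symm _)
  have semi : ∀ (c : La (La a.F)) (y : Cent p ξ a.B), j (c • y) = a.phi1 p c • j y := fun c y => by
    rw [hjv, hjv, ← (av (Ω := Om a.F)).2.1, SetLike.val_smul, s3, mul_smul_comm, smul_mul_assoc]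
  have ind : ∀ (n : ℕ) (y : Fin n → Cent p ξ a.B), LinearIndependent (La (La a.F)) y →
      LinearIndependent (La (Om a.F)) fun i => j (y i) := fun n y hy => by
    have h1 := s5 n _ (hy.map' (Cent p ξ a.B).val.toLinearMap
      (LinearMap.ker_eq_bot.2 Subtype.val_injective))
    let T : Lq (a.Emb → Om a.F) p.q →ₗ[La (Om a.F)] EE (a.Emb → Om a.F) p.q :=
      { toFun := fun c => N.w * cstE _ p.q c * N.w'
        map_add' := fun c c' => by rw [map_add, mul_add, add_mul]
        map_smul' := fun f c => by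
          rw [(av (Ω := Om a.F)).2.2.2.2.2.1, mul_smul_comm, smul_mul_assoc]; rfl }
    refine LinearIndependent.of_comp T ((congrArg (fun v => LinearIndependent (La (Om a.F)) v)
      (funext fun i => ?_)).mp h1)
    change a.jSh p (y i) = N.w * cstE _ p.q (j (y i)) * N.w'
    rw [← hcst]
    calc _ = (N.w * N.w') * a.jSh p (y i) * (N.w * N.w') := by rw [N.mul1, one_mul, mul_one]
      _ = _ := by noncomm_ring
  have hinj : Function.Injective j := (injective_iff_map_eq_zero j).2 fun y hy => by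
    by_contra h0
    exact (ind 1 (fun _ => y) (linearIndependent_unique_iff.2 h0)).ne_zero 0 hy
  have hlam : ∀ α, N.lam (fun i => a.jQ p (sl.E α i)) = j (nf.B'.co [α]) := fun α => by
    rw [NFD.lam, ← t2, r2, map_add, mul_add, add_mul, (av (Ω := Om a.F)).1, map_sub, map_mul,
      map_mul, t1, avg_comm N av, add_zero, hjv]
  let Lm : (a.ι → EE (Om a.F) p.q) →ₗ[La (Om a.F)] Lq (a.Emb → Om a.F) p.q :=
    { toFun := N.lam, map_add' := hN.lam_add, map_smul' := hN.lam_smul }
  refine ⟨a.ext p nf, ⟨⟨r1 hξ, fun y z => hinj (by rw [map_mul, map_mul, mul_comm]),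
    nt.1 a p ξ sl nf 1 a.ord1 le_rfl hA0, sl.card, a.phi1 p, j, semi, ind, le_antisymm ?_ ?_,
    le_antisymm ?_ ?_, jt a p ξ sl nf N hc hN⟩⟩⟩
  · have h1 := (ind _ _ (Module.finBasis (La (La a.F)) (Cent p ξ a.B)).linearIndependent
      ).fintype_card_le_finrank
    rw [(ech (k := Om a.F) (σ := (1 : RingAut (a.Emb → Om a.F))) (q := p.q)).2.2.1 inferInstance,
      Module.finrank_fintype_fun_eq_card, s1, Fintype.card_fin] at h1
    exact h1
  · let b := Module.finBasis a.F a.D
    let y : Fin (finrank a.F a.D) × Fin p.q → Cent p ξ a.B := fun i =>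
      ⟨shC a.D p (b i.1) * AA p ξ a.B ^ (i.2 : ℕ), (Subalgebra.mem_centralizer_iff _).2 fun g hg => by
        rw [Set.mem_singleton_iff.1 hg, ← mul_assoc, ← P1a.shC_comm p (fun c => hc c _), mul_assoc,
          mul_assoc, ← pow_succ, ← pow_succ']⟩
    have hy : LinearIndependent (La (La a.F)) y :=
      LinearIndependent.of_comp (Cent p ξ a.B).val.toLinearMap
        (P1a.indep ech p _ b.linearIndependent hA hA0)
    simpa [mul_comm] using hy.fintype_card_le_finrank
  · refine Submodule.span_le.2 ?_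
    rintro _ ⟨y, hy, rfl⟩
    induction hy using Submodule.span_induction with
    | mem y hy =>
      obtain ⟨α, rfl⟩ := hy
      exact Submodule.subset_span ⟨_, hlam α⟩
    | zero => rw [map_zero]; exact zero_mem _
    | add y z _ _ hy hz => rw [map_add]; exact add_mem hy hz
    | smul c y _ hy => rw [semi]; exact Submodule.smul_mem _ _ hy
  · set S := Submodule.span (La (Om a.F)) (j '' (a.ext p nf).U) with hS
    have h1 : ∀ δ : a.ι → Sh a.F p, Lm (fun i => a.jQ p (δ i)) ∈ S := fun δ => by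
      obtain ⟨v, ω, hv⟩ := sl.span δ
      have e : (fun i => a.jQ p (δ i)) = ∑ α, a.phi1 p (v α) • (fun i => a.jQ p (sl.E α i)) +
          fun i => a.jQ p (ω * XQ p ξ i - XQ p ξ i * ω) := by
        funext i
        rw [hv, map_add, map_sum]
        simp [s4]
      rw [e, map_add, map_sum]
      refine add_mem (sum_mem fun α _ => ?_) ?_
      · rw [map_smul]
        refine Submodule.smul_mem _ _ ?_
        change N.lam _ ∈ _
        rw [hlam]
        exact Submodule.subset_span ⟨_, Submodule.subset_span ⟨α, rfl⟩, rfl⟩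
      · change N.lam _ ∈ _
        have e2 : DA1 p ξ a.B (fun i => ω * XQ p ξ i - XQ p ξ i * ω) =
            qMap a.D p ω * AA p ξ a.B - AA p ξ a.B * qMap a.D p ω := by
          rw [DA1]
          simp only [map_sub, map_mul]
          exact J.inn1 a.B _ ((mb.2.2.2.2.2.2.2 p ξ a.D).2.1 ω)
        rw [NFD.lam, ← t2, e2, map_sub, map_mul, map_mul, t1, avg_comm N av]
        exact zero_mem _
    have h2 : ∀ (i : a.ι) (y : EE (Om a.F) p.q), Lm (Pi.single i y) ∈ S := fun i y => by
      have hy : y ∈ Submodule.span (La (Om a.F)) (Set.range (a.jQ p)) := s6 ▸ Submodule.mem_top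
      induction hy using Submodule.span_induction with
      | mem y hy =>
        obtain ⟨y, rfl⟩ := hy
        have := h1 (Pi.single i y)
        convert this using 2
        funext i'
        by_cases h : i' = i
        · subst h; simp
        · simp [h]
      | zero => rw [Pi.single_zero, map_zero]; exact zero_mem _
      | add y z _ _ hy hz => rw [Pi.single_add, map_add]; exact add_mem hy hz
      | smul c y _ hy => rw [Pi.single_smul, map_smul]; exact Submodule.smul_mem _ _ hy
    refine Submodule.span_le.2 ?_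
    rintro _ ⟨δ, rfl⟩
    change Lm δ ∈ S
    rw [← univ_sum_single δ, map_sum]
    exact sum_mem fun i _ => h2 i _

end Crest.Agent.KU
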