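import Crest.Agent.KU.Jobs

/-! Job CB: the coboundary lemma. -/

set_option autoImplicit false
set_option linter.unusedSectionVars false

namespace Crest.Agent.KU

open Finset Module Polynomial

namespace CB

section poly

variable {Ω ι : Type} [Field Ω] [Fintype ι] [DecidableEq ι] {q : ℕ}

lemma poly_const (c : Ω) : IsPoly (q := q) (ι := ι) fun _ => c := ⟨MvPolynomial.C c, by simp⟩

lemma poly_coord (j : ZMod q) (i : ι) : IsPoly (Ω := Ω) fun x => x j i :=
  ⟨MvPolynomial.X (j, i), by simp⟩

lemma poly_add {G H : (ZMod q → ι → Ω) → Ω} (hG : IsPoly G) (hH : IsPoly H) :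
    IsPoly fun x => G x + H x := by
  obtain ⟨P, hP⟩ := hG; obtain ⟨Q, hQ⟩ := hH
  exact ⟨P + Q, by simp [hP, hQ]⟩

lemma poly_mul {G H : (ZMod q → ι → Ω) → Ω} (hG : IsPoly G) (hH : IsPoly H) :
    IsPoly fun x => G x * H x := by
  obtain ⟨P, hP⟩ := hG; obtain ⟨Q, hQ⟩ := hH
  exact ⟨P * Q, by simp [hP, hQ]⟩

lemma poly_sum {α : Type} (s : Finset α) {G : α → (ZMod q → ι → Ω) → Ω} (h : ∀ a, IsPoly (G a)) :
    IsPoly fun x => ∑ a ∈ s, G a x := by
  choose P hP using h
  exact ⟨∑ a ∈ s, P a, by simp [hP]⟩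

lemma poly_prod {α : Type} (s : Finset α) {G : α → (ZMod q → ι → Ω) → Ω} (h : ∀ a, IsPoly (G a)) :
    IsPoly fun x => ∏ a ∈ s, G a x := by
  choose P hP using h
  exact ⟨∏ a ∈ s, P a, by simp [hP]⟩

lemma poly_zz (l : ι → Ω) (m : ℕ) (j : ZMod q) : IsPoly fun x => zz l x m j :=
  poly_prod _ fun _ => poly_sum _ fun _ => poly_mul (poly_const _) (poly_coord _ _)

lemma poly_hat (d : ℕ) (R : NC Ω ι) (Y : (ZMod q → ι → Ω) → Fin d → ι → Ω)
    (hY : ∀ r i, IsPoly fun x => Y x r i) : IsPoly fun x => hat d R (Y x) :=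
  poly_sum _ fun _ => poly_mul (poly_const _) (poly_prod _ fun _ => hY _ _)

lemma gen_clear [NeZero q] (h z : ZMod q → (ZMod q → ι → Ω) → Ω) (hh : ∀ j, IsPoly (h j))
    (hz : ∀ j, IsPoly (z j)) (x₀ : ZMod q → ι → Ω) (h1 : ∀ j, z j x₀ ≠ 0)
    (h2 : ∑ j, h j x₀ * (z j x₀)⁻¹ ≠ 0) : Gen fun x => ∑ j, h j x * (z j x)⁻¹ ≠ 0 := by
  have key : ∀ x, (∀ j, z j x ≠ 0) → ∑ j, h j x * ∏ j' ∈ univ.erase j, z j' x =
      (∏ j, z j x) * ∑ j, h j x * (z j x)⁻¹ := fun x hx => by
    rw [mul_sum]
    refine sum_congr rfl fun j _ => ?_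
    rw [← mul_prod_erase univ (fun j => z j x) (mem_univ j)]
    field_simp [hx j]
  refine ⟨fun x => (∏ j, z j x) * ∑ j, h j x * ∏ j' ∈ univ.erase j, z j' x,
    poly_mul (poly_prod _ hz) (poly_sum _ fun j => poly_mul (hh j) (poly_prod _ hz)),
    ⟨x₀, ?_⟩, fun x hx h0 => ?_⟩
  · have := prod_ne_zero_iff.2 fun j (_ : j ∈ univ) => h1 j
    simp only [key x₀ h1]
    exact mul_ne_zero this (mul_ne_zero this h2)
  · have h3 := fun j => prod_ne_zero_iff.1 (left_ne_zero_of_mul hx) j (mem_univ j)
    apply hx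
    simp only [key x h3, h0, mul_zero]

lemma Gen.mono {P Q : (ZMod q → ι → Ω) → Prop} (h : Gen P) (hPQ : ∀ x, P x → Q x) : Gen Q := by
  obtain ⟨G, h1, h2, h3⟩ := h
  exact ⟨G, h1, h2, fun x hx => hPQ x (h3 x hx)⟩

end poly

section ev

variable {k ι : Type} [Field k] [Fintype ι] [DecidableEq ι]

/-- evaluation of the homogeneous part on a list of vectors -/
def evL : List (ι → k) → NC k ι → k
  | [], R => R.co []
  | y :: ys, R => ∑ i, y i * evL ys (NC.der i R)

lemma hat_eq (d : ℕ) (R : NC k ι) (y : Fin d → ι → k) : hat d R y = evL (List.ofFn y) R := by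
  induction d generalizing R with
  | zero => simp [hat, evL]
  | succ d ih =>
    rw [List.ofFn_succ, evL]
    simp only [← ih, hat]
    rw [← (Fin.consEquiv fun _ => ι).sum_comp, Fintype.sum_prod_type]
    refine sum_congr rfl fun i _ => ?_
    rw [mul_sum]
    refine sum_congr rfl fun u _ => ?_
    simp [Fin.consEquiv, List.ofFn_succ, Fin.prod_univ_succ]
    ring

/-- `evL ys` as a linear map -/
def evM (ys : List (ι → k)) : NC k ι →ₗ[k] k where
  toFun := evL ys
  map_add' f g := by
    induction ys generalizing f g with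
    | nil => rfl
    | cons y ys ih =>
      simp only [evL, ← sum_add_distrib, ← mul_add, ← ih]
      rfl
  map_smul' c f := by
    induction ys generalizing f with
    | nil => rfl
    | cons y ys ih =>
      simp only [evL, RingHom.id_apply, smul_eq_mul, mul_sum] at ih ⊢
      refine sum_congr rfl fun i _ => ?_
      rw [mul_left_comm, ← ih]
      rfl

lemma evM_nil (R : NC k ι) : evM [] R = R.co [] := rfl
lemma evM_cons (y : ι → k) (ys : List (ι → k)) (R : NC k ι) :
    evM (y :: ys) R = ∑ i, y i * evM ys (NC.der i R) := rfl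

lemma der_mul (i : ι) (f g : NC k ι) :
    NC.der i (f * g) = f.co [] • NC.der i g + NC.der i f * g := by
  ext w; simp [NC.mul_cons]

lemma der_lin (i : ι) (l : ι → k) : NC.der i (NC.lin l) = l i • (1 : NC k ι) := by
  ext w; cases w <;> simp

lemma evM_one_cons (y : ι → k) (ys : List (ι → k)) : evM (y :: ys) (1 : NC k ι) = 0 := by
  rw [evM_cons]
  refine sum_eq_zero fun i _ => ?_
  have : NC.der i (1 : NC k ι) = 0 := by ext w; simp
  rw [this, map_zero, mul_zero]

lemma evM_lin_mul (l y : ι → k) (ys : List (ι → k)) (f : NC k ι) :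
    evM (y :: ys) (NC.lin l * f) = lv l y * evM ys f := by
  rw [evM_cons, lv, sum_mul]
  refine sum_congr rfl fun i _ => ?_
  rw [der_mul, der_lin]
  simp; ring

lemma evM_mul_lin (l y : ι → k) (ys : List (ι → k)) (f : NC k ι) :
    evM (ys ++ [y]) (f * NC.lin l) = evM ys f * lv l y := by
  induction ys generalizing f with
  | nil =>
    rw [List.nil_append, evM_cons, lv, evM_nil, mul_sum]
    refine sum_congr rfl fun i _ => ?_
    rw [der_mul, der_lin, evM_nil]
    simp; ring
  | cons y' ys ih =>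
    rw [List.cons_append, evM_cons, evM_cons, sum_mul]
    refine sum_congr rfl fun i _ => ?_
    have h0 : evM (ys ++ [y]) (1 : NC k ι) = 0 := by
      cases ys <;> exact evM_one_cons _ _
    rw [der_mul, der_lin, map_add, ih, map_smul, map_smul, h0]
    simp; ring

lemma evM_mul_pow (l : ι → k) (ys zs : List (ι → k)) (hz : ∀ z ∈ zs, lv l z = 1) (f : NC k ι) :
    evM (ys ++ zs) (f * NC.lin l ^ zs.length) = evM ys f := by
  induction zs using List.reverseRecOn with
  | nil => simp
  | append_singleton zs z ih =>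
    rw [List.length_append, List.length_singleton, pow_succ, ← mul_assoc, ← List.append_assoc,
      evM_mul_lin, ih fun z hz' => hz z (by simp [hz']), hz z (by simp), mul_one]

/-- contraction with `ε` on the left -/
def con (ε : ι → k) (R : NC k ι) : NC k ι := ∑ i, ε i • NC.der i R

lemma evM_con (ε : ι → k) (ys : List (ι → k)) (R : NC k ι) :
    evM (ε :: ys) R = evM ys (con ε R) := by
  simp [evM_cons, con]

lemma evM_rep (ε : ι → k) (p : ℕ) (ys : List (ι → k)) (R : NC k ι) :
    evM (List.replicate p ε ++ ys) R = evM ys ((con ε)^[p] R) := by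
  induction p generalizing R with
  | zero => simp
  | succ p ih => rw [List.replicate_succ, List.cons_append, evM_con, ih, Function.iterate_succ_apply]

lemma con_ord (ε : ι → k) {d : ℕ} {R : NC k ι} (hR : R ∈ NC.ordGe k ι d) (p : ℕ) :
    (con ε)^[p] R ∈ NC.ordGe k ι (d - p) := by
  induction p with
  | zero => simpa using hR
  | succ p ih =>
    rw [Function.iterate_succ_apply']
    intro w hw
    simp only [con, NC.co_sum, NC.co_smul, NC.co_der]
    exact sum_eq_zero fun i _ => by rw [ih _ (by simp; omega), smul_zero]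

lemma lin_ord (l : ι → k) : NC.lin l ∈ NC.ordGe k ι 1 := fun w hw => by
  cases w with
  | nil => simp
  | cons _ _ => simp at hw

lemma lin_pow_ord (l : ι → k) (n : ℕ) : NC.lin l ^ n ∈ NC.ordGe k ι n := by
  induction n with
  | zero => intro w hw; omega
  | succ n ih => rw [pow_succ]; exact NC.mul_mem_ordGe ih (lin_ord l)

lemma vanish {l ε : ι → k} (hε : lv l ε = 1) (w : List ι) (S : NC k ι)
    (h : ∀ ys : List (ι → k), ys.length = w.length → (∀ y ∈ ys, lv l y = 1) → evM ys S = 0) :
    S.co w = 0 := by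
  induction w generalizing S with
  | nil => exact h [] rfl (by simp)
  | cons i w ih =>
    refine ih (NC.der i S) fun ys hys hp => ?_
    have h1 := h (ε :: ys) (by simp [hys]) (by simpa [hε] using hp)
    have h2 := h ((Pi.single i 1 + (1 - l i) • ε) :: ys) (by simp [hys]) (by
      have : lv l (Pi.single i 1 + (1 - l i) • ε) = 1 := by
        have e : lv l (Pi.single i 1 + (1 - l i) • ε) = l i + (1 - l i) * lv l ε := by
          simp only [lv, Pi.add_apply, Pi.smul_apply, smul_eq_mul, mul_add, sum_add_distrib,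
            mul_sum]
          congr 1
          · simp [Pi.single_apply]
          · exact sum_congr rfl fun _ _ => by ring
        rw [e, hε]; ring
      simpa [this] using hp)
    rw [evM_cons] at h1 h2
    simp only [Pi.add_apply, Pi.smul_apply, smul_eq_mul, add_mul, sum_add_distrib, mul_assoc,
      ← mul_sum, h1] at h2
    simpa [Pi.single_apply] using h2

/-- the algebraic core -/
lemma core {l ε : ι → k} (hε : lv l ε = 1) {m : ℕ} {R : NC k ι} (hR : R ∈ NC.ordGe k ι (m + 1))
    (K : ∀ (y : ι → k) (t : List (ι → k)), t.length = m → lv l y = 1 → (∀ z ∈ t, lv l z = 1) →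
      ∑ p ∈ range (m + 1), evM (List.replicate p ε ++ (y :: t).take (m + 1 - p)) R =
      ∑ p ∈ range (m + 1), evM (List.replicate p ε ++ (ε :: t).take (m + 1 - p)) R) :
    ∃ ψ ∈ NC.ordGe k ι m, R - evM (List.replicate (m + 1) ε) R • NC.lin l ^ (m + 1) -
      (NC.lin l * ψ - ψ * NC.lin l) ∈ NC.ordGe k ι (m + 1 + 1) := by
  set ψ : NC k ι := ∑ p ∈ range m, (con ε)^[p + 1] R * NC.lin l ^ p with hψ
  have hψo : ψ ∈ NC.ordGe k ι m := sum_mem fun p hp => by
    have := NC.mul_mem_ordGe (con_ord ε hR (p + 1)) (lin_pow_ord l p)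
    rw [mem_range] at hp
    rwa [show m + 1 - (p + 1) + p = m by omega] at this
  have hψe : ∀ zs : List (ι → k), zs.length = m → (∀ z ∈ zs, lv l z = 1) →
      evM zs ψ = ∑ p ∈ range m, evM (zs.take (m - p)) ((con ε)^[p + 1] R) := fun zs h1 h2 => by
    rw [hψ, map_sum]
    refine sum_congr rfl fun p hp => ?_
    rw [mem_range] at hp
    have := evM_mul_pow l (zs.take (m - p)) (zs.drop (m - p))
      (fun z hz => h2 z (List.mem_of_mem_drop hz)) ((con ε)^[p + 1] R)
    rwa [List.take_append_drop, List.length_drop, show zs.length - (m - p) = p by omega] at this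
  refine ⟨ψ, hψo, fun w hw => ?_⟩
  by_cases hw' : w.length < m + 1
  · have h1 := NC.mul_mem_ordGe (lin_ord l) hψo w (by omega)
    have h2 := NC.mul_mem_ordGe hψo (lin_ord l) w hw'
    simp [h1, h2, hR w hw', lin_pow_ord l (m + 1) w hw']
  refine vanish hε w _ fun ys hys hp => ?_
  have hlen : ys.length = m + 1 := by omega
  have hne : ys ≠ [] := by rintro rfl; simp at hlen
  obtain ⟨y, t, hyt⟩ := List.exists_cons_of_ne_nil hne
  obtain ⟨t', y', hty⟩ : ∃ t' y', ys = t' ++ [y'] :=
    ⟨ys.dropLast, ys.getLast hne, (List.dropLast_append_getLast hne).symm⟩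
  have l1 : t.length = m := by rw [hyt] at hlen; simpa using hlen
  have l2 : t'.length = m := by rw [hty] at hlen; simpa using hlen
  have p1 : lv l y = 1 := hp y (by simp [hyt])
  have p2 : ∀ z ∈ t, lv l z = 1 := fun z hz => hp z (by simp [hyt, hz])
  have p3 : lv l y' = 1 := hp y' (by simp [hty])
  have p4 : ∀ z ∈ t', lv l z = 1 := fun z hz => hp z (by simp [hty, hz])
  have e1 : evM ys (NC.lin l * ψ) = evM t ψ := by rw [hyt, evM_lin_mul, p1, one_mul]
  have e2 : evM ys (ψ * NC.lin l) = evM t' ψ := by rw [hty, evM_mul_lin, p3, mul_one]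
  have e3 : evM ys (NC.lin l ^ (m + 1)) = 1 := by
    have := evM_mul_pow l [] ys hp 1
    rwa [List.nil_append, one_mul, hlen] at this
  have hK := K y t l1 p1 p2
  rw [sum_range_succ', sum_range_succ, ← hyt] at hK
  have e4 : ∀ p ∈ range m, evM (List.replicate (p + 1) ε ++ ys.take (m + 1 - (p + 1))) R =
      evM (t'.take (m - p)) ((con ε)^[p + 1] R) := fun p _ => by
    rw [evM_rep, show m + 1 - (p + 1) = m - p by omega, hty, List.take_append_of_le_length (by omega)]
  have e5 : ∀ p ≤ m, evM (List.replicate p ε ++ (ε :: t).take (m + 1 - p)) R =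
      evM (t.take (m - p)) ((con ε)^[p + 1] R) := fun p hp => by
    rw [show m + 1 - p = (m - p) + 1 by omega, List.take_succ_cons, evM_rep, evM_con,
      Function.iterate_succ_apply']
  have e6 : evM (List.replicate (m + 1) ε) R = evM (t.take (m - m)) ((con ε)^[m + 1] R) := by
    rw [← evM_rep]; simp
  rw [sum_congr rfl e4, sum_congr rfl fun p hp => e5 p (mem_range.1 hp).le, e5 m le_rfl, ← e6,
    ← hψe t l1 p2, ← hψe t' l2 p4, List.replicate_zero, List.nil_append,
    List.take_of_length_le (by omega)] at hK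
  rw [map_sub, map_sub, map_sub, map_smul, e1, e2, e3, smul_eq_mul]
  linear_combination hK

lemma hat_update (d : ℕ) (R : NC k ι) (y : Fin d → ι → k) (p : Fin d) (v : ι → k) :
    hat d R (Function.update y p v) =
      ∑ u : Fin d → ι, R.co (List.ofFn u) * (v (u p) * ∏ r ∈ univ.erase p, y r (u r)) := by
  refine sum_congr rfl fun u _ => ?_
  rw [← mul_prod_erase univ _ (mem_univ p), Function.update_self]
  congr 2
  exact prod_congr rfl fun r hr => by rw [Function.update_of_ne (ne_of_mem_erase hr)]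

lemma hat_update_zero (d : ℕ) (R : NC k ι) (y : Fin d → ι → k) (p : Fin d) :
    hat d R (Function.update y p 0) = 0 := by simp [hat_update]

lemma hat_update_sub (d : ℕ) (R : NC k ι) (y : Fin d → ι → k) (p : Fin d) (v v' : ι → k) :
    hat d R (Function.update y p (v - v')) =
      hat d R (Function.update y p v) - hat d R (Function.update y p v') := by
  simp only [hat_update, ← sum_sub_distrib, Pi.sub_apply]
  exact sum_congr rfl fun _ _ => by ring

variable {q : ℕ} [NeZero q]

/-- the configuration carrying `ys` at the positions `0, 1, …` and `ε` elsewhere -/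
def cfg (q : ℕ) (ε : ι → k) (ys : List (ι → k)) : ZMod q → ι → k := fun j => ys.getD j.val ε

lemma cfg_plane {l ε : ι → k} (hε : lv l ε = 1) {ys : List (ι → k)} (h : ∀ y ∈ ys, lv l y = 1)
    (j : ZMod q) : lv l (cfg q ε ys j) = 1 := by
  unfold cfg
  by_cases hj : j.val < ys.length
  · rw [List.getD_eq_getElem _ _ hj]; exact h _ (List.getElem_mem _)
  · rw [List.getD_eq_default _ _ (by omega)]; exact hε

lemma val_neg_add {p r : ℕ} (hp : p < q) (hr : r < q) :
    (-(p : ZMod q) + r).val = if r < p then q + r - p else r - p := by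
  split_ifs with h
  · have : (-(p : ZMod q) + r) = ((q + r - p : ℕ) : ZMod q) := by
      rw [Nat.cast_sub (by omega)]; push_cast; rw [ZMod.natCast_self]; ring
    rw [this, ZMod.val_cast_of_lt (by omega)]
  · have : (-(p : ZMod q) + r) = ((r - p : ℕ) : ZMod q) := by
      rw [Nat.cast_sub (by omega)]; ring
    rw [this, ZMod.val_cast_of_lt (by omega)]

lemma ofFn_win {d : ℕ} (hq : 2 * d ≤ q) (ε : ι → k) {ys : List (ι → k)} (hl : ys.length = d)
    (p : Fin d) : List.ofFn (win (cfg q ε ys) (-((p : ℕ) : ZMod q)) d) =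
      List.replicate p ε ++ ys.take (d - p) := by
  have hp := p.2
  refine List.ext_getElem (by simp; omega) fun r h1 h2 => ?_
  have hr : r < d := by simpa using h1
  rw [List.getElem_ofFn]
  simp only [win, cfg]
  rw [val_neg_add (by omega) (by omega)]
  split_ifs with h
  · rw [List.getD_eq_default _ _ (by omega), List.getElem_append_left (by simpa using h)]
    simp
  · rw [List.getD_eq_getElem _ _ (by omega), List.getElem_append_right (by simpa using h)]
    simp

lemma cfg_ne (ε y : ι → k) (t : List (ι → k)) {j : ZMod q} (hj : j ≠ 0) :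
    cfg q ε (y :: t) j = cfg q ε (ε :: t) j := by
  unfold cfg
  obtain ⟨n, hn⟩ := Nat.exists_eq_succ_of_ne_zero (fun h => hj ((ZMod.val_eq_zero j).1 h))
  rw [hn]; rfl

lemma neg_inj' {d : ℕ} (hq : 2 * d ≤ q) :
    Function.Injective fun p : Fin d => -((p : ℕ) : ZMod q) := fun p p' h => by
  have h1 := congrArg ZMod.val (neg_injective h)
  rw [ZMod.val_cast_of_lt (by omega), ZMod.val_cast_of_lt (by omega)] at h1
  exact Fin.ext h1

lemma win_update {d : ℕ} (hq : 2 * d ≤ q) (ε y : ι → k) (t : List (ι → k)) (p : Fin d) :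
    Function.update (win (cfg q ε (ε :: t)) (-((p : ℕ) : ZMod q)) d) p y =
      win (cfg q ε (y :: t)) (-((p : ℕ) : ZMod q)) d := by
  funext r
  by_cases h : r = p
  · subst h
    simp [win, cfg]
  · rw [Function.update_of_ne h]
    refine (cfg_ne ε y t fun h0 => h (neg_inj' hq ?_)).symm
    exact neg_eq_of_add_eq_zero_left h0

lemma K_of_fin {d : ℕ} (hq : 2 * d ≤ q) (ε : ι → k) (R : NC k ι) {ys : List (ι → k)}
    (hl : ys.length = d) :
    ∑ p : Fin d, hat d R (win (cfg q ε ys) (-((p : ℕ) : ZMod q)) d) =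
      ∑ p ∈ range d, evM (List.replicate p ε ++ ys.take (d - p)) R := by
  rw [← Fin.sum_univ_eq_sum_range fun p => evM (List.replicate p ε ++ ys.take (d - p)) R]
  exact sum_congr rfl fun p _ => by rw [hat_eq, ofFn_win hq ε hl]; rfl

lemma wit2 {l ε : ι → k} (hε : lv l ε = 1) {m : ℕ} (hq : 2 * (m + 1) ≤ q) {R : NC k ι}
    (hR : R ∈ NC.ordGe k ι (m + 1))
    (h : ∀ x η : ZMod q → ι → k, (∀ j, lv l (x j) = 1) → (∀ j, lv l (η j) = 0) →
      ∑ j, ∑ p : Fin (m + 1), hat (m + 1) R
        (Function.update (win x j (m + 1)) p (η (j + (p : ℕ)))) = 0) :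
    ∃ ψ ∈ NC.ordGe k ι m, R - evM (List.replicate (m + 1) ε) R • NC.lin l ^ (m + 1) -
      (NC.lin l * ψ - ψ * NC.lin l) ∈ NC.ordGe k ι (m + 1 + 1) := by
  refine core hε hR fun y t ht hy hp => ?_
  have h1 := h (cfg q ε (ε :: t)) (Pi.single 0 (y - ε))
    (cfg_plane hε (by simpa [hε] using hp)) fun j => by
      by_cases hj : j = 0
      · subst hj
        simp only [lv, Pi.single_eq_same, Pi.sub_apply, mul_sub, sum_sub_distrib] at hy hε ⊢
        rw [hy, hε, sub_self]
      · simp [hj, lv]
  rw [sum_comm] at h1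
  rw [← K_of_fin hq ε R (by simp [ht]), ← K_of_fin hq ε R (by simp [ht]), ← sub_eq_zero,
    ← sum_sub_distrib, ← h1]
  refine sum_congr rfl fun p _ => ?_
  rw [sum_eq_single (-((p : ℕ) : ZMod q))]
  · rw [neg_add_cancel, Pi.single_eq_same, hat_update_sub, win_update hq, win_update hq]
  · intro j _ hj
    rw [Pi.single_eq_of_ne fun h0 => hj (eq_neg_of_add_eq_zero_left h0), hat_update_zero]
  · simp

lemma wit1 [CharZero k] {l ε : ι → k} (hε : lv l ε = 1) {m : ℕ} (hq : 2 * (m + 1) ≤ q)
    {R : NC k ι} (hR : R ∈ NC.ordGe k ι (m + 1))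
    (h : ∀ x : ZMod q → ι → k, (∀ j, lv l (x j) = 1) →
      ∑ j, hat (m + 1) R (win x j (m + 1)) = 0) :
    ∃ ψ ∈ NC.ordGe k ι m, R - (NC.lin l * ψ - ψ * NC.lin l) ∈ NC.ordGe k ι (m + 1 + 1) := by
  have hc : evM (List.replicate (m + 1) ε) R = 0 := by
    have h1 := h (fun _ => ε) fun _ => hε
    have h2 : ∀ j : ZMod q, hat (m + 1) R (win (fun _ => ε) j (m + 1)) =
        evM (List.replicate (m + 1) ε) R := fun j => by
      rw [hat_eq, ← List.ofFn_const]; rfl
    simp only [h2, sum_const, nsmul_eq_mul, card_univ, ZMod.card] at h1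
    exact (mul_eq_zero.1 h1).resolve_left (Nat.cast_ne_zero.2 (NeZero.ne q))
  have := core hε hR fun y t ht hy hp => ?_
  · simpa [hc] using this
  have h1 := h (cfg q ε (y :: t)) (cfg_plane hε (by simpa [hy] using hp))
  have h2 := h (cfg q ε (ε :: t)) (cfg_plane hε (by simpa [hε] using hp))
  rw [← K_of_fin hq ε R (by simp [ht]), ← K_of_fin hq ε R (by simp [ht]), ← sub_eq_zero,
    ← sum_sub_distrib]
  rw [Fintype.sum_of_injective _ (neg_inj' (d := m + 1) hq) _
    (fun j => hat (m + 1) R (win (cfg q ε (y :: t)) j (m + 1)) -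
      hat (m + 1) R (win (cfg q ε (ε :: t)) j (m + 1))) ?_ fun _ => rfl,
    sum_sub_distrib, h1, h2, sub_self]
  intro j hj
  rw [sub_eq_zero]
  congr 1
  funext r
  exact cfg_ne ε y t fun h0 => hj ⟨r, (eq_neg_of_add_eq_zero_left h0).symm⟩

end ev

section transfer

variable {k Ω ι : Type} [Field k] [Field Ω] [Fintype ι] [DecidableEq ι] {q : ℕ} (e : k →+* Ω)

lemma hat_map (d : ℕ) (R : NC k ι) (y : Fin d → ι → k) :
    hat d (NC.map e R) (fun r i => e (y r i)) = e (hat d R y) := by
  simp [hat]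

lemma lv_map (l y : ι → k) : lv (fun i => e (l i)) (fun i => e (y i)) = e (lv l y) := by
  simp [lv]

lemma zz_map (l : ι → k) (x : ZMod q → ι → k) (hx : ∀ j, lv l (x j) = 1) (d : ℕ) (j : ZMod q) :
    zz (fun i => e (l i)) (fun j i => e (x j i)) d j = 1 :=
  prod_eq_one fun r _ => by rw [lv_map, hx, map_one]

end transfer

end CB

open CB in
theorem jobCB : JobCB := by
  intro k Ω ι _ _ _ _ _ q _ e l d R hl hd hq hR
  obtain ⟨m, rfl⟩ : ∃ m, d = m + 1 := ⟨d - 1, by omega⟩
  obtain ⟨ε, hε⟩ : ∃ ε : ι → k, lv l ε = 1 := by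
    obtain ⟨i, hi⟩ := Function.ne_iff.1 hl
    refine ⟨Pi.single i (l i)⁻¹, ?_⟩
    have hi' : l i ≠ 0 := hi
    simp [lv, Pi.single_apply, hi']
  simp only [Nat.add_sub_cancel]
  refine ⟨fun hn => ?_, fun hn => ?_⟩
  · have := mt (wit1 hε hq hR) hn
    push Not at this
    obtain ⟨x, hx, h⟩ := this
    refine gen_clear (fun j x => hat (m + 1) (NC.map e R) (win x j (m + 1)))
      (fun j x => zz (fun i => e (l i)) x (m + 1) j)
      (fun j => poly_hat _ _ _ fun r i => poly_coord _ _) (fun j => poly_zz _ _ _)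
      (fun j i => e (x j i)) (fun j => by simp [zz_map e l x hx]) ?_
    simp only [zz_map e l x hx, inv_one, mul_one]
    intro h0
    apply h
    apply e.injective
    rw [map_sum, map_zero, ← h0]
    exact sum_congr rfl fun j _ => (hat_map e _ R _).symm
  · have := mt (wit2 hε hq hR) fun ⟨ψ, h1, h2⟩ => hn ⟨_, ψ, h1, h2⟩
    push Not at this
    obtain ⟨x, η, hx, hη, h⟩ := this
    refine CB.Gen.mono (gen_clear (fun (j : ZMod q) x => ∑ p : Fin (m + 1), hat (m + 1) (NC.map e R)
        (Function.update (win x j (m + 1)) p fun i => e (η (j + (p : ℕ)) i)))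
      (fun j x => zz (fun i => e (l i)) x (m + 1) j)
      (fun j => poly_sum _ fun p => poly_hat _ _ _ fun r i => ?_) (fun j => poly_zz _ _ _)
      (fun j i => e (x j i)) (fun j => by simp [zz_map e l x hx]) ?_)
      fun x hx => ⟨fun j i => e (η j i), fun j => by rw [lv_map, hη, map_zero], hx⟩
    · by_cases hr : r = p
      · subst hr
        simp only [Function.update_self]
        exact poly_const _
      · simp only [Function.update_of_ne hr]
        exact poly_coord _ _
    · simp only [zz_map e l x hx, inv_one, mul_one]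
      intro h0
      apply h
      apply e.injective
      rw [map_sum, map_zero, ← h0]
      refine sum_congr rfl fun j _ => ?_
      rw [map_sum]
      refine sum_congr rfl fun p _ => ?_
      rw [← hat_map]
      congr 1
      funext r
      by_cases hr : r = p
      · subst hr; simp
      · simp only [Function.update_of_ne hr]; rfl

end Crest.Agent.KU
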