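import Crest.Agent.KU.Jobs

/-! Row 180: the proportionality classes of the embeddings. -/

set_option autoImplicit false
set_option linter.unusedSectionVars false

namespace Crest.Agent.KU

open Finset Module Polynomial

namespace ClsX

lemma isDiv_sub {F D : Type} [Field F] [Ring D] [IsDiv D] [Algebra F D] [FiniteDimensional F D]
    (L : Subalgebra F D) : IsDiv L where
  nontriv := ⟨⟨0, 1, fun h => zero_ne_one (congrArg Subtype.val h)⟩⟩
  unit x hx := by
    have h1 : Function.Surjective (LinearMap.mulLeft F x) :=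
      LinearMap.injective_iff_surjective.1 fun a b h => mul_left_cancel₀ hx h
    have h2 : Function.Surjective (LinearMap.mulRight F x) :=
      LinearMap.injective_iff_surjective.1 fun a b h => mul_right_cancel₀ hx h
    obtain ⟨y, hy⟩ := h1 1
    obtain ⟨z, hz⟩ := h2 1
    exact isUnit_iff_exists_and_exists.2 ⟨⟨y, hy⟩, ⟨z, hz⟩⟩

lemma emb {F D : Type} [Field F] [CharZero F] [Ring D] [IsDiv D] [Algebra F D]
    [FiniteDimensional F D] (hc : ∀ x y : D, x * y = y * x) (L : Subalgebra F D) :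
    Fintype.card (L →ₐ[F] AlgebraicClosure F) = finrank F L ∧
      ∀ κ : L →ₐ[F] AlgebraicClosure F, ∃ k : D →ₐ[F] AlgebraicClosure F, k.comp L.val = κ := by
  have := isDiv_sub L
  let i1 : Field D := IsDiv.field D hc
  let i2 : Field L := IsDiv.field L fun x y => Subtype.ext (hc x y)
  refine ⟨?_, fun κ => ?_⟩
  · rw [Fintype.card_eq_nat_card, ← AlgHom.card F L (AlgebraicClosure F), Fintype.card_eq_nat_card]
  · have : Algebra.IsAlgebraic L D := Algebra.IsAlgebraic.tower_top (K := F) L
    exact IsAlgClosed.surjective_domRestrict_of_isAlgebraic (K := F) (L := L) (E := D) κ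

lemma finrank_map {Ω E K : Type} [Field Ω] [Fintype E] [Fintype K] (rep : K → E) (cls : E → K)
    (t : E → Ω) (S : Submodule Ω (E → Ω)) (hS : ∀ v ∈ S, ∀ k, v k = t k * v (rep (cls k))) :
    finrank Ω (S.map (LinearMap.funLeft Ω Ω rep)) = finrank Ω S := by
  refine le_antisymm (Submodule.finrank_map_le _ _) ?_
  let T : (K → Ω) →ₗ[Ω] (E → Ω) := LinearMap.pi fun k => t k • LinearMap.proj (cls k)
  refine le_trans (Submodule.finrank_mono fun v hv => ?_)
    (Submodule.finrank_map_le T (S.map (LinearMap.funLeft Ω Ω rep)))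
  exact ⟨_, ⟨v, hv, rfl⟩, funext fun k => (hS v hv k).symm⟩

end ClsX

open ClsX in
theorem jobCls (bc : JobBC) (spl : JobSpl) (inv : JobInv) : JobCls := by
  classical
  intro a hc hb
  obtain ⟨i1, -, -, -, i5, i6, -⟩ := inv.1 a hc hb
  obtain ⟨i₀, hi₀⟩ := hb
  obtain ⟨e1, e2⟩ := emb hc a.L0
  choose rep hrep using e2
  let cls : a.Emb → (a.L0 →ₐ[a.F] AlgebraicClosure a.F) := fun k => k.comp a.L0.val
  let φ : a.F →+* Om a.F := (om0 a.F).comp (algebraMap _ _)
  have semi : ∀ (c : a.F) (y : a.D), a.jL (c • y) = φ c • a.jL y := fun c y => by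
    funext k
    change om0 a.F (k (c • y)) = om0 a.F _ * om0 a.F (k y)
    rw [map_smul, Algebra.smul_def, map_mul]
  have jne : ∀ y : a.D, y ≠ 0 → ∀ k, a.jL y k ≠ 0 := fun y hy k =>
    ((IsDiv.unit y hy).map ((Pi.evalRingHom (fun _ => Om a.F) k).comp a.jL)).ne_zero
  have hL0 : ∀ y ∈ a.L0, ∀ k, a.jL y k = a.jL y (rep (cls k)) := fun y hy k =>
    congrArg (om0 a.F) (DFunLike.congr_fun (hrep (cls k)) ⟨y, hy⟩).symm
  have hBU : ∀ i, a.B.co [i] ∈ a.U := fun i => Submodule.subset_span ⟨i, rfl⟩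
  let cf : a.Emb → Om a.F := fun k => a.jL (a.B.co [i₀]) k / a.jL (a.B.co [i₀]) (rep (cls k))
  have hU : ∀ u ∈ a.U, ∀ k, a.jL u k = cf k * a.jL u (rep (cls k)) := fun u hu k => by
    obtain ⟨v, hv⟩ := IsDiv.unit _ hi₀
    have h1 : u * ↑v⁻¹ * a.B.co [i₀] = u := by rw [← hv, mul_assoc, v.inv_mul, mul_one]
    have h2 := hL0 _ (Algebra.subset_adjoin ⟨u, hu, _, hBU i₀, hi₀, h1⟩) k
    have h3 := jne _ hi₀ (rep (cls k))
    rw [← h1, map_mul, Pi.mul_apply, Pi.mul_apply, h2]
    simp only [cf]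
    field_simp
  have hY : ∀ y ∈ a.Y, ∀ k, a.jL y k = cf k * a.jL y (rep (cls k)) := fun y hy k => by
    refine Submodule.mul_induction_on hy (fun u hu z hz => ?_) fun y z h1 h2 => ?_
    · rw [map_mul, Pi.mul_apply, Pi.mul_apply, hU u hu k, hL0 z hz k, mul_assoc]
    · rw [map_add, Pi.add_apply, Pi.add_apply, h1, h2, mul_add]
  have hUU : ∀ y ∈ a.U * a.U, ∀ k, a.jL y k = cf k ^ 2 * a.jL y (rep (cls k)) := fun y hy k => by
    refine Submodule.mul_induction_on hy (fun u hu z hz => ?_) fun y z h1 h2 => ?_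
    · rw [map_mul, Pi.mul_apply, Pi.mul_apply, hU u hu k, hU z hz k]; ring
    · rw [map_add, Pi.add_apply, Pi.add_apply, h1, h2, mul_add]
  have hsp : ∀ (t : a.Emb → Om a.F) (P : Submodule a.F a.D),
      (∀ y ∈ P, ∀ k, a.jL y k = t k * a.jL y (rep (cls k))) →
      ∀ v ∈ Submodule.span (Om a.F) (a.jL '' P), ∀ k, v k = t k * v (rep (cls k)) := by
    intro t P h v hv k
    induction hv using Submodule.span_induction with
    | mem v hv => obtain ⟨y, hy, rfl⟩ := hv; exact h y hy k
    | zero => simp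
    | add v w _ _ h1 h2 => rw [Pi.add_apply, Pi.add_apply, h1, h2, mul_add]
    | smul c v _ h1 => rw [Pi.smul_apply, Pi.smul_apply, h1, smul_eq_mul, smul_eq_mul]; ring
  have hlin : ∀ (K : Type) [Fintype K] (γ : K → Om a.F) (s : K → a.Emb),
      (∀ i, ∑ κ, γ κ * a.jL (a.B.co [i]) (s κ) = 0) → ∀ u ∈ a.U, ∑ κ, γ κ * a.jL u (s κ) = 0 := by
    intro K _ γ s h u hu
    induction hu using Submodule.span_induction with
    | mem v hv => obtain ⟨i, rfl⟩ := hv; exact h i
    | zero => simp
    | add v w _ _ h1 h2 => simp [mul_add, sum_add_distrib, h1, h2]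
    | smul c v _ h1 =>
      simp only [semi, Pi.smul_apply, smul_eq_mul, mul_left_comm _ (φ c), ← mul_sum, h1, mul_zero]
  let c : Cls (lOf a.bb) :=
    { K := a.L0 →ₐ[a.F] AlgebraicClosure a.F
      rep := rep
      cls := cls
      cf := cf
      cls_rep := hrep
      cf_rep := fun κ => by
        have : cls (rep κ) = κ := hrep κ
        simp only [cf, this]
        exact div_self (jne _ hi₀ _)
      cf_ne := fun k => div_ne_zero (jne _ hi₀ _) (jne _ hi₀ _)
      eq := fun k => funext fun i => hU _ (hBU i) k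
      np := ⟨fun κ h => jne _ hi₀ _ (congrFun h i₀), fun κ κ' t h => by
        have h1 : ∀ u ∈ a.U, a.jL u (rep κ) = t * a.jL u (rep κ') := fun u hu => by
          have := hlin Bool (fun b => cond b 1 (-t)) (fun b => cond b (rep κ) (rep κ'))
            (fun i => by
              have : a.jL (a.B.co [i]) (rep κ) = t * a.jL (a.B.co [i]) (rep κ') := congrFun h i
              simp [this]) u hu
          simpa [← sub_eq_add_neg, sub_eq_zero] using this
        have ht : t ≠ 0 := fun h0 => jne _ hi₀ (rep κ) (by rw [h1 _ (hBU i₀), h0, zero_mul])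
        have h2 : Set.EqOn (rep κ) (rep κ') a.L0 := AlgHom.eqOn_adjoin_iff.2 fun y hy => by
          obtain ⟨u, hu, u', hu', h0, rfl⟩ := hy
          have h3 := h1 _ hu
          rw [map_mul, Pi.mul_apply, Pi.mul_apply, h1 _ hu', mul_left_comm] at h3
          exact (om0 a.F).injective (mul_right_cancel₀ (jne _ h0 _) (mul_left_cancel₀ ht h3))
        rw [← hrep κ, ← hrep κ']
        ext y
        exact h2 y.2⟩ }
  have hcard : Fintype.card c.K = a.M := e1
  have hind := (spl a { q := 1, ζ := 1, prim := IsPrimitiveRoot.one } hc).2.1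
  have hbc := (bc φ a.jL.toAddMonoidHom semi).2 hind inferInstance
  let R := LinearMap.funLeft (Om a.F) (Om a.F) rep
  have hfin : ∀ (t : a.Emb → Om a.F) (P : Submodule a.F a.D),
      (∀ y ∈ P, ∀ k, a.jL y k = t k * a.jL y (rep (cls k))) →
      finrank (Om a.F) ((Submodule.span (Om a.F) (a.jL '' P)).map R) = finrank a.F P :=
    fun t P h => (finrank_map rep cls t _ (hsp t P h)).trans (hbc P).1
  have htop : ∀ (t : a.Emb → Om a.F) (P : Submodule a.F a.D),
      (∀ y ∈ P, ∀ k, a.jL y k = t k * a.jL y (rep (cls k))) → finrank a.F P = a.M →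
      (Submodule.span (Om a.F) (a.jL '' P)).map R = ⊤ := fun t P h hP =>
    Submodule.eq_top_of_finrank_eq (by rw [hfin t P h, hP, finrank_fintype_fun_eq_card, e1]; rfl)
  have hmem : ∀ (P : Submodule a.F a.D),
      (∀ y ∈ P, ∀ k, a.jL y k = cf k * a.jL y (rep (cls k))) → ∀ y,
      (∀ k, a.jL y k = cf k * a.jL y (rep (cls k))) →
      R (a.jL y) ∈ (Submodule.span (Om a.F) (a.jL '' P)).map R → y ∈ P := fun P h y hy hR => by
    obtain ⟨v, hv, e⟩ := hR
    refine (hbc P).2 y ?_
    have : v = a.jL y := funext fun k => by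
      rw [hsp cf P h v hv k, hy k]
      exact congrArg _ (congrFun e (cls k))
    exact this ▸ hv
  have hrow : (Submodule.span (Om a.F) (a.jL '' a.U)).map R =
      Submodule.span (Om a.F) (Set.range fun i κ => c.lr κ i) := by
    refine le_antisymm ?_ (Submodule.span_le.2 ?_)
    · rw [Submodule.map_le_iff_le_comap]
      refine Submodule.span_le.2 ?_
      rintro _ ⟨u, hu, rfl⟩
      induction hu using Submodule.span_induction with
      | mem v hv => obtain ⟨i, rfl⟩ := hv; exact Submodule.subset_span ⟨i, rfl⟩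
      | zero => rw [map_zero]; exact zero_mem _
      | add v w _ _ h1 h2 => rw [map_add]; exact add_mem h1 h2
      | smul c v _ h1 => rw [semi]; exact Submodule.smul_mem _ _ h1
    · rintro _ ⟨i, rfl⟩
      exact ⟨_, Submodule.subset_span ⟨_, hBU i, rfl⟩, rfl⟩
  refine ⟨c, hcard, ?_, fun h2 γ hγ => ?_, fun y hy => hmem _ hY y hy ?_, fun y hy h => ?_⟩
  · have h1 := LinearMap.finrank_range_add_finrank_ker (Fintype.linearCombination (Om a.F) c.lr)
    rw [Fintype.range_linearCombination, finrank_fintype_fun_eq_card, hcard] at h1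
    have h2 := Matrix.rank_eq_finrank_span_row (Matrix.of c.lr)
    have h3 := Matrix.rank_eq_finrank_span_cols (Matrix.of c.lr)
    have h4 := hfin cf a.U hU
    rw [hrow] at h4
    have h5 : finrank (Om a.F) (Submodule.span (Om a.F) (Set.range c.lr)) = finrank a.F a.U :=
      h2.symm.trans (h3.trans h4)
    unfold An.h Gam
    omega
  · have h1 := htop _ _ hUU h2
    have h3 : ∀ u ∈ a.U, ∀ i, ∑ κ, γ κ * a.jL u (rep κ) * a.jL (a.B.co [i]) (rep κ) = 0 :=
      fun u hu i => by
        have := hlin _ (fun κ => γ κ * a.jL (a.B.co [i]) (rep κ)) rep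
          (fun i' => by rw [← hγ i i']; exact sum_congr rfl fun κ _ => mul_assoc _ _ _) u hu
        rw [← this]
        exact sum_congr rfl fun κ _ => mul_right_comm _ _ _
    have h4 : ∀ y ∈ a.U * a.U, ∑ κ, γ κ * a.jL y (rep κ) = 0 := fun y hy => by
      refine Submodule.mul_induction_on hy (fun u hu z hz => ?_) fun y z h1 h2 => ?_
      · rw [← hlin _ (fun κ => γ κ * a.jL u (rep κ)) rep (h3 u hu) z hz, map_mul]
        exact sum_congr rfl fun κ _ => (mul_assoc _ _ _).symm
      · simp [mul_add, sum_add_distrib, h1, h2]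
    have h5 : ∀ v ∈ Submodule.span (Om a.F) (a.jL '' (a.U * a.U : Submodule a.F a.D)),
        ∑ κ, γ κ * v (rep κ) = 0 := fun v hv => by
      induction hv using Submodule.span_induction with
      | mem v hv => obtain ⟨y, hy, rfl⟩ := hv; exact h4 y hy
      | zero => simp
      | add v w _ _ h1 h2 => simp [mul_add, sum_add_distrib, h1, h2]
      | smul c v _ h1 =>
        simp only [Pi.smul_apply, smul_eq_mul, mul_left_comm _ c, ← mul_sum, h1, mul_zero]
    funext κ
    obtain ⟨v, hv, e⟩ : Pi.single κ 1 ∈ (Submodule.span (Om a.F)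
      (a.jL '' (a.U * a.U : Submodule a.F a.D))).map R := h1 ▸ Submodule.mem_top
    have h6 := h5 v hv
    have h7 : ∀ κ', v (rep κ') = (Pi.single κ 1 : c.K → Om a.F) κ' := congrFun e
    simpa [h7, Pi.single_apply] using h6
  · rw [htop _ _ hY i5]; trivial
  · refine hmem _ hU y (hY y hy) ?_
    rw [hrow]
    by_contra hn
    obtain ⟨f, f1, f2⟩ := Submodule.exists_le_ker_of_notMem hn
    have f3 : ∀ v, f v = ∑ κ, f (Pi.single κ 1) * v κ := fun v => by
      conv_lhs => rw [pi_eq_sum_univ' v, map_sum]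
      exact sum_congr rfl fun κ _ => by rw [map_smul, smul_eq_mul, mul_comm]
    refine f1 ((f3 _).trans (h _ (LinearMap.mem_ker.2 (funext fun i => ?_))))
    have := f2 (Submodule.subset_span ⟨i, rfl⟩)
    rw [LinearMap.mem_ker, f3] at this
    simpa [Fintype.linearCombination_apply] using this

end Crest.Agent.KU
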