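import Crest.Agent.KU.Sq

/-! Row 180 (S0270, Kurosh problem for division rings): definitions.  The job statements are in
`KU/Jobs.lean`; the paper proof is in its header. -/

set_option autoImplicit false
set_option linter.unusedSectionVars false

namespace Crest.Agent.KU

open Finset Module Polynomial

/-! ### finite dimension of `Sk A σ q` over `La k` -/

instance Sk.finite {k A : Type} [Field k] [Ring A] [Algebra k A] {σ : RingAut A} {q : ℕ}
    [h : Per k σ q] [Module.Finite k A] : Module.Finite (La k) (Sk A σ q) := by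
  classical
  have hq : (0 : ℤ) < q := by exact_mod_cast h.pos
  let b := Module.finBasis k A
  refine ⟨(Submodule.fg_def).2 ⟨Set.range fun p : Fin q × Fin (finrank k A) =>
    Sk.mono σ q p.1 (b p.2), Set.finite_range _, eq_top_iff.2 fun y _ => ?_⟩⟩
  obtain ⟨N, hN⟩ := y.bdd
  let f : Fin q × Fin (finrank k A) → La k := fun p =>
    ⟨fun a => b.repr (y.co (q * a + p.1)) p.2, -(N.natAbs : ℤ) - 1, fun a ha => by
      have h1 : (p.1 : ℤ) < q := by exact_mod_cast p.1.2
      have h2 : -(N.natAbs : ℤ) ≤ N := by omega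
      have h3 : (0 : ℤ) ≤ N.natAbs := by omega
      rw [hN _ (by nlinarith), map_zero, Finsupp.zero_apply]⟩
  have : y = ∑ p, f p • Sk.mono σ q p.1 (b p.2) := by
    ext n
    have hr : (n % q).toNat < q := by
      have := Int.emod_lt_of_pos n hq; have := Int.emod_nonneg n hq.ne'; omega
    have hr' : (((n % q).toNat : ℕ) : ℤ) = n % q := by
      have := Int.emod_nonneg n hq.ne'; omega
    rw [Sk.co_sum, Fintype.sum_prod_type, Finset.sum_eq_single (⟨(n % q).toNat, hr⟩ : Fin q)]
    · have e : ∀ i, (f (⟨(n % q).toNat, hr⟩, i) • Sk.mono σ q ((n % q).toNat : ℕ) (b i)).co n =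
          b.repr (y.co n) i • b i := fun i => by
        rw [Sk.co_smul, finsum_eq_single _ (n / q)]
        · simp only [f, Sk.co_mono, hr']
          rw [if_pos (by rw [Int.emod_def]), Int.mul_ediv_add_emod]
        · intro a ha
          rw [Sk.co_mono, if_neg, smul_zero]
          intro hc
          apply ha
          rw [hr'] at hc
          have := Int.mul_ediv_add_emod n q
          have h2 : (q : ℤ) * a = q * (n / q) := by omega
          exact mul_left_cancel₀ hq.ne' h2
      simp only [e, b.sum_repr]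
    · intro m _ hm
      refine sum_eq_zero fun i _ => ?_
      rw [Sk.co_smul]
      refine finsum_eq_zero_of_forall_eq_zero fun a => ?_
      rw [Sk.co_mono, if_neg, smul_zero]
      intro hc
      apply hm
      ext
      have h1 : (m : ℤ) < q := by exact_mod_cast m.2
      replace hc : n - q * a = (m : ℕ) := hc
      have : n % q = m := by
        rw [show n = m + q * a by omega, Int.add_mul_emod_self_left]
        exact Int.emod_eq_of_lt (by omega) h1
      simp [this]
    · simp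
  rw [this]
  exact Submodule.sum_mem _ fun p _ => Submodule.smul_mem _ _ (Submodule.subset_span ⟨p, rfl⟩)

/-! ### states, morphisms -/

/-- `F` contains primitive roots of unity of all orders -/
class HasRoots (F : Type) [Field F] : Prop where
  out : ∀ q : ℕ, 0 < q → ∃ ζ : F, IsPrimitiveRoot ζ q

instance (F : Type) [Field F] [h : HasRoots F] : HasRoots (La F) :=
  ⟨fun q hq => by
    obtain ⟨ζ, hζ⟩ := h.out q hq
    exact ⟨Sk.cst 1 0 ζ, hζ.map_of_injective (Sk.cst (1 : RingAut F) 0).injective⟩⟩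

/-- a finite-dimensional division algebra `D / F` and a set `ι` of at least two variables -/
structure St where
  F : Type
  [iF : Field F]
  [cF : CharZero F]
  [rF : HasRoots F]
  D : Type
  [iD : Ring D]
  [vD : IsDiv D]
  [aD : Algebra F D]
  [fD : FiniteDimensional F D]
  ι : Type
  [fι : Fintype ι]
  [dι : DecidableEq ι]
  two : 2 ≤ Fintype.card ι

attribute [instance] St.iF St.cF St.rF St.iD St.vD St.aD St.fD St.fι St.dι

section mor

variable {F D ι : Type} [Field F] [Ring D] [Algebra F D]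

/-- `B + 𝔪² = everything` -/
def Dense2 (B : Subalgebra F (NC D ι)) : Prop := ∀ f, ∃ b ∈ B, f - b ∈ NC.ordGe D ι 2

/-- a morphism of states: compatible with scalars and preserving generation modulo `𝔪²` -/
structure IsMor {F' D' ι' : Type} [Field F'] [Ring D'] [Algebra F' D'] (φ : F →+* F')
    (Φ : NC D ι →+* NC D' ι') : Prop where
  alg : ∀ c : F, Φ (algebraMap F _ c) = algebraMap F' _ (φ c)
  gen : ∀ B : Subalgebra F (NC D ι), Dense2 B → Dense2 (Algebra.adjoin F' (Φ '' B))

variable (F) in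
/-- `a` becomes algebraic after a morphism to some state -/
def Good (a : NC D ι) : Prop :=
  ∃ (σ : St) (φ : F →+* σ.F) (Φ : NC D ι →+* NC σ.D σ.ι), IsMor φ Φ ∧ IsAlgebraic σ.F (Φ a)

variable (F) in
/-- `a₀ + B` is good in every over-algebra, for every central constant `a₀` -/
def Kill (B : NC D ι) : Prop :=
  ∀ (D' : Type) [Ring D'] [IsDiv D'] [Algebra F D'] [FiniteDimensional F D'] (i : D →ₐ[F] D')
    (a₀ : D), (∀ c, Commute a₀ c) → Good F (NC.map i.toRingHom (NC.C a₀ + B))

end mor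

/-- an analysis state: a state and a series without constant term -/
structure An extends St where
  B : NC D ι
  ord1 : B ∈ NC.ordGe D ι 1

namespace An

variable (a : An)

/-- the goal -/
def Kill : Prop := KU.Kill a.F a.B
/-- commutative coefficient algebra -/
def Comm : Prop := ∀ x y : a.D, x * y = y * x
/-- nonzero linear part -/
def B1 : Prop := ∃ i, a.B.co [i] ≠ 0
/-- central linear part -/
def Sc : Prop := ∀ i c, Commute (a.B.co [i]) c
/-- dimension over the centre -/
noncomputable def m0 : ℕ := finrank a.F a.D / finrank a.F (Subalgebra.center a.F a.D)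
/-- span of the linear coefficients -/
def U : Submodule a.F a.D := Submodule.span a.F (Set.range fun i => a.B.co [i])
/-- the field generated by the ratios of elements of `U` -/
def L0 : Subalgebra a.F a.D :=
  Algebra.adjoin a.F {y | ∃ u ∈ a.U, ∃ u' ∈ a.U, u' ≠ 0 ∧ y * u' = u}
noncomputable def M : ℕ := finrank a.F a.L0
noncomputable def nu : ℕ := finrank a.F a.D / a.M
noncomputable def h : ℕ := a.M - finrank a.F a.U
/-- `2`-independence -/
def Two : Prop := finrank a.F (a.U * a.U : Submodule a.F a.D) = a.M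
/-- `Y = u₀ L₀` -/
def Y : Submodule a.F a.D := a.U * Subalgebra.toSubmodule a.L0
/-- kernel of the linear part -/
def V0 : Submodule a.F (a.ι → a.F) :=
  LinearMap.ker (Fintype.linearCombination a.F fun i => a.B.co [i])
/-- the quadratic part -/
def B2 (v v' : a.ι → a.F) : a.D := ∑ i, ∑ j, (v i * v' j) • a.B.co [i, j]
/-- values of `δ ↦ (B₂(eₜ, δ) mod U)ₜ` -/
def JS {r : ℕ} (e : Fin r → a.ι → a.F) : Submodule a.F (Fin r → a.D) :=
  Submodule.span a.F {v | ∃ δ ∈ a.V0, ∃ u : Fin r → a.D, (∀ t, u t ∈ a.U) ∧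
    ∀ t, v t = a.B2 (e t) δ + u t}
/-- joint surjectivity of the quadratic part for `r` vectors -/
def Jr (r : ℕ) : Prop :=
  ∃ e : Fin r → a.ι → a.F, (∀ t, e t ∈ a.V0) ∧ r * a.M ≤ finrank a.F (a.JS e)

end An

/-- substitution of series with coefficients in `F` -/
noncomputable def subPhi {F ι : Type} [Field F] (A : Type) [Ring A] [Algebra F A]
    (ψ : ι → NC F (Fin 2)) : NC A ι →+* NC A (Fin 2) :=
  ev (trivFilt A) (RingHom.id A) fun i => NC.map (algebraMap F A) (ψ i)

/-- the shape of the lowest-order residual of a substitution -/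
def An.R1 (a : An) : Prop :=
  ∀ ψ : a.ι → NC a.F (Fin 2), (∀ i, ψ i ∈ NC.ordGe a.F (Fin 2) 1) → ∀ d : ℕ,
    subPhi a.D ψ a.B ∈ NC.ordGe a.D (Fin 2) d → ∀ w : List (Fin 2), w.length = d →
      (subPhi a.D ψ a.B).co w ∈ a.Y ∧
        ∑ i ∈ range d, (subPhi a.D ψ a.B).co (w.rotate i) ∈ a.U

/-! ### extensions -/

section ext

variable {F ι : Type} [Field F] (p : Par F) (ξ : ι → Lq F p.q)

/-- the base point `Xᵢ = ξᵢ s ∈ Q` -/
noncomputable def XQ (i : ι) : Sh F p := Sk.mono (sc F p) p.q 1 (ξ i)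

/-- the base point generates `Q` over `F'` -/
def GenQ : Prop := Algebra.adjoin (La (La F)) (Set.range (XQ p ξ)) = ⊤

/-- a complement of the inner directions in `Q ^ ι` -/
structure Slice [Fintype ι] where
  κ : Type
  [fκ : Fintype κ]
  [dκ : DecidableEq κ]
  E : κ → ι → Sh F p
  span : ∀ δ : ι → Sh F p, ∃ (v : κ → La (La F)) (ω : Sh F p),
    ∀ i, δ i = ∑ α, v α • E α i + (ω * XQ p ξ i - XQ p ξ i * ω)
  inj : ∀ (v : κ → La (La F)) (ω : Sh F p),
    (∀ i, ∑ α, v α • E α i = ω * XQ p ξ i - XQ p ξ i * ω) → v = 0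
  card : (Fintype.card ι - 1) * p.q ^ 2 + 1 ≤ Fintype.card κ

attribute [instance] Slice.fκ Slice.dκ

variable (A : Type) [Ring A] [Algebra F A]

/-- the base point in `A♯` -/
noncomputable def XA (i : ι) : Sh A p := qMap A p (XQ p ξ i)

/-- the extension homomorphism `tᵢ ↦ Xᵢ + ∑ E α i t'_α` -/
noncomputable def extPhi {κ : Type} (E : κ → ι → Sh F p) : NC A ι →+* NC (Sh A p) κ :=
  ev (Sk.filt _ _) (shC A p) (linSub (XA p ξ A) fun α i => qMap A p (E α i))

variable {A}

/-- the value at the base point -/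
noncomputable def AA (B : NC A ι) : Sh A p := evX (Sk.filt _ _) (shC A p) (XA p ξ A) B

/-- first derivative at the base point in a direction of `Q ^ ι` -/
noncomputable def DA1 (B : NC A ι) (δ : ι → Sh F p) : Sh A p :=
  D1 (Sk.filt _ _) (shC A p) (XA p ξ A) B fun i => qMap A p (δ i)

/-- second derivative at the base point -/
noncomputable def DA2 (B : NC A ι) (δ δ' : ι → Sh F p) : Sh A p :=
  D2 (Sk.filt _ _) (shC A p) (XA p ξ A) B (fun i => qMap A p (δ i)) fun i => qMap A p (δ' i)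

/-- the centralizer of the value -/
noncomputable abbrev Cent (B : NC A ι) : Subalgebra (La (La F)) (Sh A p) :=
  Subalgebra.centralizer (La (La F)) {AA p ξ B}

/-- normal form of the extended series -/
structure ExtNF [Fintype ι] (B : NC A ι) (sl : Slice p ξ) where
  w : NC (Sh A p) sl.κ
  B' : NC (Cent p ξ B) sl.κ
  w0 : w.co [] = 1
  ord1 : B' ∈ NC.ordGe _ _ 1
  eq : extPhi p ξ A sl.E B * w =
    w * (NC.C (AA p ξ B) + NC.map (Cent p ξ B).val.toRingHom B')

end ext

instance centDiv {F D : Type} [CommRing F] [Ring D] [IsDiv D] [Algebra F D] (s : Set D) :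
    IsDiv (Subalgebra.centralizer F s) where
  nontriv := ⟨⟨0, 1, fun h => zero_ne_one (congrArg Subtype.val h)⟩⟩
  unit x hx := by
    obtain ⟨u, hu⟩ := IsDiv.unit (x : D) fun h => hx (Subtype.ext h)
    have hi : (↑u⁻¹ : D) ∈ Subalgebra.centralizer F s := by
      rw [Subalgebra.mem_centralizer_iff]
      intro g hg
      have : Commute g (u : D) := hu ▸ (Subalgebra.mem_centralizer_iff F).1 x.2 g hg
      exact this.units_inv_right.eq
    exact ⟨⟨x, ⟨_, hi⟩, Subtype.ext (by simp [← hu]), Subtype.ext (by simp [← hu])⟩, rfl⟩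

lemma Slice.two {F ι : Type} [Field F] [Fintype ι] {p : Par F} {ξ : ι → Lq F p.q}
    (sl : Slice p ξ) (h : 2 ≤ Fintype.card ι) : 2 ≤ Fintype.card sl.κ := by
  have h1 := sl.card
  have h2 : 1 ≤ p.q ^ 2 := Nat.one_le_pow _ _ (NeZero.pos _)
  have h3 : 1 * 1 ≤ (Fintype.card ι - 1) * p.q ^ 2 := Nat.mul_le_mul (by omega) h2
  omega

/-- the extended state (same coefficients enlarged to `D♯`) -/
@[reducible] noncomputable def St.ext (σ : St) (p : Par σ.F) {ξ : σ.ι → Lq σ.F p.q}
    (sl : Slice p ξ) : St where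
  F := La (La σ.F)
  D := Sh σ.D p
  ι := sl.κ
  two := sl.two σ.two

/-- the extended analysis state -/
@[reducible] noncomputable def An.ext (a : An) (p : Par a.F) {ξ : a.ι → Lq a.F p.q}
    {sl : Slice p ξ} (nf : ExtNF p ξ a.B sl) : An where
  F := La (La a.F)
  D := Cent p ξ a.B
  ι := sl.κ
  two := sl.two a.two
  B := nf.B'
  ord1 := nf.ord1

/-! ### generic points -/

section gen

variable {Ω ι : Type} [Field Ω] [Fintype ι] [DecidableEq ι] {q : ℕ}

/-- polynomial functions of a configuration -/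
def IsPoly (G : (ZMod q → ι → Ω) → Ω) : Prop :=
  ∃ P : MvPolynomial (ZMod q × ι) Ω, ∀ x, G x = MvPolynomial.eval (fun p => x p.1 p.2) P

/-- `P` holds on a nonempty Zariski open set -/
def Gen (P : (ZMod q → ι → Ω) → Prop) : Prop :=
  ∃ G, IsPoly G ∧ (∃ x, G x ≠ 0) ∧ ∀ x, G x ≠ 0 → P x

/-- value of a linear form -/
def lv (l y : ι → Ω) : Ω := ∑ i, l i * y i

/-- the window `x j, …, x (j + d - 1)` -/
def win (x : ZMod q → ι → Ω) (j : ZMod q) (d : ℕ) : Fin d → ι → Ω := fun r => x (j + (r : ℕ))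

/-- the product `∏_{r < m} l (x (j + r))` -/
def zz (l : ι → Ω) (x : ZMod q → ι → Ω) (m : ℕ) (j : ZMod q) : Ω :=
  ∏ r ∈ range m, lv l (x (j + (r : ℕ)))

/-- the degree-`d` part of `R` as a multilinear form -/
def hat (d : ℕ) (R : NC Ω ι) (y : Fin d → ι → Ω) : Ω :=
  ∑ u : Fin d → ι, R.co (List.ofFn u) * ∏ r, y r (u r)

variable {K : Type} [Fintype K]

def G0 (l : K → ι → Ω) (x : ZMod q → ι → Ω) : Prop := ∀ κ j, lv (l κ) (x j) ≠ 0

def Fm (l : K → ι → Ω) (x : ZMod q → ι → Ω) (m : ℕ) : Prop :=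
  ∀ γ : K → Ω, (∀ j i, ∑ κ, γ κ * (zz (l κ) x m j)⁻¹ * l κ i = 0) → γ = 0

def VanI (l : K → ι → Ω) (x : ZMod q → ι → Ω) : Prop :=
  ∀ m, Fintype.card K ≤ m → m + Fintype.card K ≤ q → ∀ (j₀ : ZMod q) (t : K → Ω),
    ∃ τ : Fin (Fintype.card K) → Ω, ∀ κ, ∑ r, τ r * (zz (l κ) x m (j₀ + (r : ℕ)))⁻¹ = t κ

def G2 (d : ℕ) (x : ZMod q → ι → Ω) : Prop :=
  ∀ R : NC Ω ι, (∀ j, hat d R (win x j d) = 0) → ∀ w : List ι, w.length = d → R.co w = 0

/-- pairwise non-proportional nonzero forms -/
def NonProp (l : K → ι → Ω) : Prop :=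
  (∀ κ, l κ ≠ 0) ∧ ∀ κ κ' (c : Ω), l κ = c • l κ' → κ = κ'

/-- the tensor squares of the forms are independent -/
def TwoInd (l : K → ι → Ω) : Prop :=
  ∀ γ : K → Ω, (∀ i i', ∑ κ, γ κ * (l κ i * l κ i') = 0) → γ = 0

/-- linear relations between the forms -/
def Gam (l : K → ι → Ω) : Submodule Ω (K → Ω) := LinearMap.ker (Fintype.linearCombination Ω l)

/-- proportionality classes of a family of forms -/
structure Cls {E : Type} (l : E → ι → Ω) where
  K : Type
  [fK : Fintype K]
  [dK : DecidableEq K]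
  rep : K → E
  cls : E → K
  cf : E → Ω
  cls_rep : ∀ κ, cls (rep κ) = κ
  cf_rep : ∀ κ, cf (rep κ) = 1
  cf_ne : ∀ k, cf k ≠ 0
  eq : ∀ k, l k = cf k • l (rep (cls k))
  np : NonProp fun κ => l (rep κ)

attribute [instance] Cls.fK Cls.dK

/-- the forms of the representatives -/
def Cls.lr {E : Type} {l : E → ι → Ω} (c : Cls l) : c.K → ι → Ω := fun κ => l (c.rep κ)

end gen

/-- the configuration `x j = θ (σ ^ j ξ)` -/
noncomputable def xOf {F ι Ω : Type} [Field F] [Field Ω] (p : Par F) (θ : Lq F p.q →+* Ω)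
    (ξ : ι → Lq F p.q) : ZMod p.q → ι → Ω := fun j i => θ ((sc F p ^ j.val) (ξ i))

/-- finite sums of commutators -/
def commSpan (R : Type) [Ring R] : AddSubgroup R :=
  AddSubgroup.closure {z | ∃ f g : R, z = f * g - g * f}

/-! ### the split picture -/

section split

variable {Ω E ι : Type} [Field Ω] [Fintype ι] {q : ℕ} [NeZero q]

/-- scalar directions, viewed with coefficients in `E → Ω` -/
noncomputable def up (E : Type) (δ : ι → EE Ω q) : ι → EE (E → Ω) q :=
  fun i => mapE q (algebraMap Ω (E → Ω)) (δ i)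

/-- the weighted shift `∑_j x j i · e_{j,j+1} s` -/
noncomputable def XE (x : ZMod q → ι → Ω) (i : ι) : EE Ω q :=
  Sk.mono (shift Ω q) q 1 fun j => x j i

variable (b : NC (E → Ω) ι) (x : ZMod q → ι → Ω)

/-- linear parts of the components -/
def lOf : E → ι → Ω := fun k i => b.co [i] k

/-- the component `b_k` -/
def cmp (k : E) : NC Ω ι := NC.map (Pi.evalRingHom (fun _ : E => Ω) k) b

noncomputable def AE : EE (E → Ω) q := evX (Sk.filt _ _) (eC (E → Ω) q) (up E (XE x)) b

noncomputable def DE1 (δ : ι → EE Ω q) : EE (E → Ω) q :=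
  D1 (Sk.filt _ _) (eC (E → Ω) q) (up E (XE x)) b (up E δ)

noncomputable def DE2 (δ δ' : ι → EE Ω q) : EE (E → Ω) q :=
  D2 (Sk.filt _ _) (eC (E → Ω) q) (up E (XE x)) b (up E δ) (up E δ')

/-- normal form data: `w⁻¹ b(X) w = α` has constant coefficients -/
structure NFD where
  w : EE (E → Ω) q
  w' : EE (E → Ω) q
  α : Lq (E → Ω) q
  hw : w ∈ Sk.ord _ _ 0
  hw' : w' ∈ Sk.ord _ _ 0
  mul1 : w * w' = 1
  mul2 : w' * w = 1
  hα : α ∈ Sk.ord _ _ 1
  eq : w' * AE b x * w = cstE (E → Ω) q α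

variable {b x} (N : NFD b x)

/-- first-order variation of the eigenvalues -/
noncomputable def NFD.lam (δ : ι → EE Ω q) : Lq (E → Ω) q := avg Ω (N.w' * DE1 b x δ * N.w)

/-- the range of `lam` -/
noncomputable def NFD.RL : Submodule (La Ω) (Lq (E → Ω) q) :=
  Submodule.span (La Ω) (Set.range N.lam)

/-- split version of `An.JS` -/
noncomputable def NFD.JS {r : ℕ} (e : Fin r → ι → EE Ω q) :
    Submodule (La Ω) (Fin r → Lq (E → Ω) q) :=
  Submodule.span (La Ω) {v | ∃ (δ : ι → EE Ω q) (ω : EE (E → Ω) q) (δ'' : Fin r → ι → EE Ω q),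
    DE1 b x δ = ω * AE b x - AE b x * ω ∧
    ∀ t, v t = avg Ω (N.w' * (DE2 b x (e t) δ + DE1 b x (e t) * ω) * N.w) + N.lam (δ'' t)}

end split

/-! ### the splitting field of a commutative state -/

/-- the big algebraically closed field -/
abbrev Om (F : Type) [Field F] : Type := AlgebraicClosure (La (AlgebraicClosure F))

/-- `A((s₁)) → Om F` along `e : A → F̄` -/
noncomputable def thL {F A : Type} [Field F] [Ring A] (q : ℕ) (e : A →+* AlgebraicClosure F) :
    Lq A q →+* Om F :=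
  (algebraMap (La (AlgebraicClosure F)) (Om F)).comp (Sk.map (σ := 1) (τ := 1) e fun _ => rfl)

/-- `F̄ → Om F` -/
noncomputable def om0 (F : Type) [Field F] : AlgebraicClosure F →+* Om F :=
  (algebraMap (La (AlgebraicClosure F)) (Om F)).comp (Sk.cst 1 0)

namespace An

variable (a : An)

/-- the embeddings of the coefficient field -/
abbrev Emb : Type := a.D →ₐ[a.F] AlgebraicClosure a.F

/-- all embeddings at once -/
noncomputable def jL : a.D →+* (a.Emb → Om a.F) :=
  RingHom.pi fun k => (om0 a.F).comp k.toRingHom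

/-- the split series -/
noncomputable def bb : NC (a.Emb → Om a.F) a.ι := NC.map a.jL a.B

/-- `K = F((s₁)) → Om F` -/
noncomputable def th (q : ℕ) : Lq a.F q →+* Om a.F :=
  thL q (algebraMap a.F (AlgebraicClosure a.F))

/-- the classes compute the invariants -/
structure ClsOK (c : Cls (lOf a.bb)) : Prop where
  card : Fintype.card c.K = a.M
  gam : finrank (Om a.F) (Gam c.lr) = a.h
  two : a.Two → TwoInd c.lr
  memY : ∀ y, (∀ k, a.jL y k = c.cf k * a.jL y (c.rep (c.cls k))) → y ∈ a.Y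
  memU : ∀ y ∈ a.Y, (∀ γ ∈ Gam c.lr, ∑ κ, γ κ * a.jL y (c.rep κ) = 0) → y ∈ a.U

/-- `b_k` is conjugate to a function of `b_κ`, to every order -/
def P2 (c : Cls (lOf a.bb)) : Prop :=
  ∀ (k : a.Emb) (d : ℕ), ∃ (u : NC (Om a.F) a.ι) (φ : (Om a.F)[X]), u.co [] = 1 ∧
    φ.coeff 0 = 0 ∧ φ.coeff 1 = c.cf k ∧
    cmp a.bb k * u - u * aeval (cmp a.bb (c.rep (c.cls k))) φ ∈ NC.ordGe _ _ (d + 1)

/-- every linear relation extends to a trace identity, to every order -/
def P3 (c : Cls (lOf a.bb)) : Prop :=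
  ∀ γ ∈ Gam c.lr, ∀ d : ℕ, ∃ (H : c.K → (Om a.F)[X]) (z : NC (Om a.F) a.ι),
    (∀ κ, (H κ).coeff 0 = 0 ∧ (H κ).coeff 1 = γ κ) ∧ z ∈ commSpan (NC (Om a.F) a.ι) ∧
    ∑ κ, aeval (cmp a.bb (c.rep κ)) (H κ) - z ∈ NC.ordGe _ _ (d + 1)

variable (p : Par a.F)

/-- `y ↦ (j ↦ k ↦ θ_k (σ ^ j y))` on coefficients -/
noncomputable def jCo : Lq a.D p.q →+* (ZMod p.q → a.Emb → Om a.F) :=
  RingHom.pi fun j => RingHom.pi fun k =>
    (thL p.q k.toRingHom).comp (sc a.D p ^ j.val : RingAut _).toRingHom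

end An

lemma sc_pow_val {F : Type} [Field F] (A : Type) [Ring A] [Algebra F A] (p : Par F)
    (j : ZMod p.q) (y : Lq A p.q) :
    (sc A p ^ j.val) (sc A p y) = (sc A p ^ (j + 1).val) y := by
  have h1 : sc A p ^ (j + 1).val = sc A p ^ (j.val + 1) := by
    rw [pow_eq_pow_mod (j.val + 1) (perSc A p).per, ZMod.val_add, ZMod.val_one_eq_one_mod,
      Nat.add_mod_mod]
  rw [h1, pow_succ]; rfl

namespace An

variable (a : An) (p : Par a.F)

/-- the splitting homomorphism `L♯ → EE (Emb → Ω)` -/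
noncomputable def jSh : Sh a.D p →+* EE (a.Emb → Om a.F) p.q :=
  Sk.map (a.jCo p) fun y => by
    funext j k
    exact congrArg (thL p.q k.toRingHom) (sc_pow_val a.D p j y)

/-- the splitting homomorphism `Q → EE Ω` -/
noncomputable def jQ : Sh a.F p →+* EE (Om a.F) p.q :=
  Sk.map (RingHom.pi fun j : ZMod p.q =>
    (a.th p.q).comp (sc a.F p ^ j.val : RingAut _).toRingHom) fun y => by
    funext j
    exact congrArg (a.th p.q) (sc_pow_val a.F p j y)

/-- the scalars `F' → Ω₁` -/
noncomputable def phi1 : La (La a.F) →+* La (Om a.F) :=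
  Sk.map (σ := 1) (τ := 1) ((a.th p.q).comp (algebraMap (La a.F) (Lq a.F p.q))) fun _ => rfl

/-- what the split picture says about an extension `a'` of `a` -/
structure Bridge {q : ℕ} [NeZero q] {x : ZMod q → a.ι → Om a.F} (N : NFD a.bb x) (a' : An) where
  red : a'.Kill → a.Kill
  comm : a'.Comm
  b1 : a'.B1
  card : (Fintype.card a.ι - 1) * q ^ 2 + 1 ≤ Fintype.card a'.ι
  φ : a'.F →+* La (Om a.F)
  j : a'.D →+* Lq (a.Emb → Om a.F) q
  semi : ∀ (c : a'.F) (y : a'.D), j (c • y) = φ c • j y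
  ind : ∀ (n : ℕ) (y : Fin n → a'.D), LinearIndependent a'.F y →
    LinearIndependent (La (Om a.F)) fun i => j (y i)
  dim : finrank a'.F a'.D = q * finrank a.F a.D
  spanU : Submodule.span (La (Om a.F)) (j '' a'.U) = N.RL
  jt : ∀ (r : ℕ) (e : Fin r → a.ι → EE (Om a.F) q), (∀ t, N.lam (e t) = 0) →
    ∃ e' : Fin r → a'.ι → a'.F, (∀ t, e' t ∈ a'.V0) ∧
      finrank (La (Om a.F)) (N.JS e) ≤ finrank a'.F (a'.JS e')

end An

end Crest.Agent.KU
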