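import Crest.Agent.KU.Jobs

/-! Row 180, job Ech: valuation lemmas in `Sk A σ q`. -/

set_option autoImplicit false
set_option linter.unusedSectionVars false

namespace Crest.Agent.KU
namespace EchAux

open Finset Module

variable {k A : Type} [Field k] [Ring A] [Algebra k A] {σ : RingAut A} {q : ℕ} [hP : Per k σ q]

theorem smul_ord (e m : ℤ) (f : La k) (y : Sk A σ q) (hf : f ∈ Sk.ord 1 0 e)
    (hy : y ∈ Sk.ord σ q m) :
    f • y ∈ Sk.ord σ q (q * e + m) ∧ (f • y).co (q * e + m) = f.co e • y.co m := by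
  have hq : (0 : ℤ) < q := by exact_mod_cast hP.pos
  refine ⟨fun n hn => ?_, ?_⟩
  · rw [Sk.co_smul]
    refine finsum_eq_zero_of_forall_eq_zero fun a => ?_
    by_cases ha : a < e
    · rw [hf a ha, zero_smul]
    · rw [hy _ (by nlinarith), smul_zero]
  · rw [Sk.co_smul, finsum_eq_single _ e]
    · congr 2; ring
    · intro a ha
      rcases lt_or_gt_of_ne ha with ha | ha
      · rw [hf a ha, zero_smul]
      · rw [hy _ (by nlinarith), smul_zero]

theorem ech_ord {I : Type} [Fintype I] (y : I → Sk A σ q) (m : I → ℤ)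
    (hy : ∀ i, y i ∈ Sk.ord σ q (m i))
    (hli : ∀ r : ZMod q, LinearIndependent k fun i : {i // (m i : ZMod q) = r} => (y i).co (m i))
    (f : I → La k) (n : ℤ) (hn : ∑ i, f i • y i ∈ Sk.ord σ q n) (i₀ : I) (e₀ : ℤ)
    (h₀ : q * e₀ + m i₀ < n) : (f i₀).co e₀ = 0 := by
  classical
  have hq : (0 : ℤ) < q := by exact_mod_cast hP.pos
  by_contra hne
  obtain ⟨N, ⟨i₁, e₁, h₁, hN₁⟩, hmin⟩ := Int.exists_least_of_bdd
    (P := fun z => ∃ i e, (f i).co e ≠ 0 ∧ z = q * e + m i) (by
      choose a ha using fun i => (f i).bdd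
      obtain ⟨b, hb⟩ := (Set.finite_range fun i => (q : ℤ) * a i + m i).bddBelow
      refine ⟨b, ?_⟩
      rintro z ⟨i, e, he, rfl⟩
      have h1 : a i ≤ e := by by_contra hc; exact he (ha i e (by omega))
      have h2 := hb ⟨i, rfl⟩
      simp only at h2
      nlinarith) ⟨_, i₀, e₀, hne, rfl⟩
  have hNn : N < n := lt_of_le_of_lt (hmin _ ⟨i₀, e₀, hne, rfl⟩) h₀
  have hz := hn N hNn
  rw [Sk.co_sum] at hz
  have hterm : ∀ i, (f i • y i).co N =
      if (m i : ZMod q) = (N : ZMod q) then (f i).co ((N - m i) / q) • (y i).co (m i) else 0 := by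
    intro i
    have hdiv := Int.mul_ediv_add_emod (N - m i) q
    have hr0 := Int.emod_nonneg (N - m i) hq.ne'
    have hr1 := Int.emod_lt_of_pos (N - m i) hq
    split_ifs with h
    · have hd : (q : ℤ) ∣ N - m i := (ZMod.intCast_eq_intCast_iff_dvd_sub _ _ _).1 h
      have e1 : N = q * ((N - m i) / q) + m i := by rw [Int.mul_ediv_cancel' hd]; ring
      have hf : f i ∈ Sk.ord 1 0 ((N - m i) / q) := fun e he => by
        by_contra hc
        have := hmin _ ⟨i, e, hc, rfl⟩
        nlinarith
      have := (smul_ord _ _ (f i) (y i) hf (hy i)).2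
      rwa [← e1] at this
    · have hd : (N - m i) % q ≠ 0 := fun h0 => h ((ZMod.intCast_eq_intCast_iff_dvd_sub _ _ _).2
        (Int.dvd_of_emod_eq_zero h0))
      have hf : f i ∈ Sk.ord 1 0 ((N - m i) / q + 1) := fun e he => by
        by_contra hc
        have := hmin _ ⟨i, e, hc, rfl⟩
        have h3 : e ≤ (N - m i) / q := by omega
        have h4 : (q : ℤ) * e ≤ q * ((N - m i) / q) := by nlinarith
        omega
      refine (smul_ord _ _ (f i) (y i) hf (hy i)).1 N ?_
      rw [mul_add]; omega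
  rw [sum_congr rfl fun i _ => hterm i, ← sum_filter,
    sum_subtype (p := fun i => (m i : ZMod q) = (N : ZMod q)) _ (by simp)] at hz
  have hr : (m i₁ : ZMod q) = (N : ZMod q) := by rw [hN₁]; simp
  have := Fintype.linearIndependent_iff.1 (hli N) (fun i => (f i).co ((N - m i) / q)) hz ⟨i₁, hr⟩
  apply h₁
  simp only at this
  rwa [hN₁, add_sub_cancel_right, Int.mul_ediv_cancel_left _ hq.ne'] at this

theorem ech_li {I : Type} [Fintype I] (y : I → Sk A σ q) (m : I → ℤ)
    (hy : ∀ i, y i ∈ Sk.ord σ q (m i))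
    (hli : ∀ r : ZMod q, LinearIndependent k fun i : {i // (m i : ZMod q) = r} => (y i).co (m i)) :
    LinearIndependent (La k) y := by
  refine Fintype.linearIndependent_iff.2 fun f hf i => ?_
  ext e
  exact ech_ord y m hy hli f (q * e + m i + 1) (by rw [hf]; exact zero_mem _) i e (by omega)

theorem li_mono [NeZero q] {J : Type} [Fintype J] (c : ZMod q → J → A)
    (h : ∀ r, LinearIndependent k (c r)) :
    LinearIndependent (La k) fun i : ZMod q × J => Sk.mono σ q (i.1.val : ℕ) (c i.1 i.2) := by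
  refine ech_li _ (fun i => (i.1.val : ℕ)) (fun i => Sk.mono_mem_ord _ _) fun r => ?_
  have hr : ∀ i : {i : ZMod q × J // (((i.1.val : ℕ) : ℤ) : ZMod q) = r}, i.1.1 = r := fun i => by
    simpa using i.2
  have := (h r).comp (fun i : {i : ZMod q × J // (((i.1.val : ℕ) : ℤ) : ZMod q) = r} => i.1.2)
    fun i j hij => Subtype.ext (Prod.ext ((hr i).trans (hr j).symm) hij)
  convert this using 2 with i
  simp [hr i]

/-- coordinates in the monomial basis -/
noncomputable def crd [NeZero q] {J : Type} (b : Basis J k A) (y : Sk A σ q) (p : ZMod q × J) :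
    La k :=
  ⟨fun a => b.repr (y.co (q * a + (p.1.val : ℕ))) p.2, by
    obtain ⟨N, hN⟩ := y.bdd
    have hq : (0 : ℤ) < q := by exact_mod_cast hP.pos
    refine ⟨-(N.natAbs : ℤ) - 1, fun a ha => ?_⟩
    have h1 : ((p.1.val : ℕ) : ℤ) < q := by exact_mod_cast ZMod.val_lt p.1
    have h2 : -(N.natAbs : ℤ) ≤ N := by omega
    have h3 : (0 : ℤ) ≤ N.natAbs := by omega
    rw [hN _ (by nlinarith), map_zero, Finsupp.zero_apply]⟩

theorem crd_ord [NeZero q] {J : Type} (b : Basis J k A) (y : Sk A σ q) (p : ZMod q × J) (e : ℤ)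
    (hy : y ∈ Sk.ord σ q (q * e)) : crd b y p ∈ Sk.ord 1 0 e := fun a ha => by
  have hq : (0 : ℤ) < q := by exact_mod_cast hP.pos
  have h1 : ((p.1.val : ℕ) : ℤ) < q := by exact_mod_cast ZMod.val_lt p.1
  change b.repr (y.co _) _ = 0
  rw [hy _ (by nlinarith), map_zero, Finsupp.zero_apply]

theorem decomp [NeZero q] {J : Type} [Fintype J] (b : Basis J k A) (y : Sk A σ q) :
    y = ∑ p : ZMod q × J, crd b y p • Sk.mono σ q (p.1.val : ℕ) (b p.2) := by
  classical
  have hq : (0 : ℤ) < q := by exact_mod_cast hP.pos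
  ext n
  have hr' : (((n : ZMod q).val : ℕ) : ℤ) = n % q := ZMod.val_intCast n
  rw [Sk.co_sum, Fintype.sum_prod_type, Finset.sum_eq_single (n : ZMod q)]
  · have e : ∀ i, (crd b y ((n : ZMod q), i) • Sk.mono σ q ((n : ZMod q).val : ℕ) (b i)).co n =
        b.repr (y.co n) i • b i := fun i => by
      rw [Sk.co_smul, finsum_eq_single _ (n / q)]
      · simp only [crd, Sk.co_mono, hr']
        rw [if_pos (by rw [Int.emod_def]), Int.mul_ediv_add_emod]
      · intro a ha
        rw [Sk.co_mono, if_neg, smul_zero]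
        intro hc
        apply ha
        rw [hr'] at hc
        have := Int.mul_ediv_add_emod n q
        have h2 : (q : ℤ) * a = q * (n / q) := by omega
        exact mul_left_cancel₀ hq.ne' h2
    simp only [e, b.sum_repr]
  · intro m _ hm
    refine sum_eq_zero fun i _ => ?_
    rw [Sk.co_smul]
    refine finsum_eq_zero_of_forall_eq_zero fun a => ?_
    rw [Sk.co_mono, if_neg, smul_zero]
    intro hc
    apply hm
    replace hc : n - q * a = (m.val : ℕ) := hc
    rw [show n = (m.val : ℕ) + q * a by omega]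
    simp
  · simp

theorem finrank_sk [Module.Finite k A] : finrank (La k) (Sk A σ q) = q * finrank k A := by
  have : NeZero q := ⟨hP.pos.ne'⟩
  let b := Module.finBasis k A
  have hli := li_mono (σ := σ) (q := q) (fun _ => b) fun _ => b.linearIndependent
  rw [finrank_eq_card_basis (Basis.mk hli fun y _ => by
    rw [decomp b y]
    exact Submodule.sum_mem _ fun p _ => Submodule.smul_mem _ _ (Submodule.subset_span ⟨p, rfl⟩))]
  simp

theorem upper [Module.Finite k A] (Y : Submodule (La k) (Sk A σ q)) (P : ZMod q → Submodule k A)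
    (n : ℕ) (hY : ∀ y ∈ Y, ∀ m : ℤ, y ∈ Sk.ord σ q m → y.co m ∈ P m)
    (hn : ∀ r, finrank k (P r) ≤ n) : finrank (La k) Y ≤ q * n := by
  have : NeZero q := ⟨hP.pos.ne'⟩
  choose C hC using fun r => (P r).exists_isCompl
  have hCd : ∀ r, finrank k A - n ≤ finrank k (C r) := fun r => by
    have := Submodule.finrank_add_eq_of_isCompl (hC r)
    have := hn r
    omega
  choose c hc using fun r => exists_linearIndependent_of_le_finrank (hCd r)
  have hli := li_mono (σ := σ) (q := q) (fun r j => (c r j : A))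
    fun r => (hc r).map' (C r).subtype (Submodule.ker_subtype _)
  set W := Submodule.span (La k) (Set.range fun i : ZMod q × Fin (finrank k A - n) =>
    Sk.mono σ q (i.1.val : ℕ) (c i.1 i.2 : A)) with hW
  have hWd : finrank (La k) W = q * (finrank k A - n) := by
    rw [hW, finrank_span_eq_card hli]; simp
  have hWC : ∀ w ∈ W, ∀ m : ℤ, w.co m ∈ C m := by
    intro w hw
    induction hw using Submodule.span_induction with
    | mem x hx =>
      obtain ⟨i, rfl⟩ := hx
      intro m
      rw [Sk.co_mono]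
      split_ifs with h
      · have : (m : ZMod q) = i.1 := by rw [h]; simp
        rw [this]; exact (c i.1 i.2).2
      · exact zero_mem _
    | zero => intro m; exact zero_mem _
    | add x y _ _ hx hy => intro m; exact add_mem (hx m) (hy m)
    | smul f x _ hx =>
      intro m
      rw [Sk.co_smul]
      refine finsum_induction (fun z => z ∈ C m) (zero_mem _) (fun _ _ => add_mem) fun a => ?_
      have := hx (m - q * a)
      rw [show ((m - q * a : ℤ) : ZMod q) = m by simp] at this
      exact Submodule.smul_mem _ _ this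
  have hdis : Disjoint Y W := by
    rw [Submodule.disjoint_def]
    intro y hy hw
    by_contra h0
    obtain ⟨m, h1, h2⟩ := Sk.exists_lead h0
    exact h2 (Submodule.disjoint_def.1 (hC m).disjoint _ (hY y hy m h1) (hWC y hw m))
  have h1 := Submodule.finrank_add_finrank_le_of_disjoint hdis
  rw [hWd, finrank_sk] at h1
  have h2 : q * finrank k A ≤ q * n + q * (finrank k A - n) := by
    rw [← mul_add]; exact Nat.mul_le_mul_left _ (by omega)
  omega

theorem closed [Module.Finite k A] {I : Type} [Fintype I] (Y : Submodule (La k) (I → Sk A σ q))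
    (y : I → Sk A σ q) (h : ∀ n : ℤ, ∃ z ∈ Y, ∀ i, y i - z i ∈ Sk.ord σ q n) : y ∈ Y := by
  classical
  have : NeZero q := ⟨hP.pos.ne'⟩
  let b := Module.finBasis k A
  by_contra hy
  obtain ⟨φ, hφ, hφY⟩ := Submodule.exists_dual_map_eq_bot_of_notMem hy inferInstance
  have hφ0 : ∀ z ∈ Y, φ z = 0 := fun z hz => by
    have : φ z ∈ Y.map φ := Submodule.mem_map_of_mem hz
    rwa [hφY, Submodule.mem_bot] at this
  let g : I × (ZMod q × Fin (finrank k A)) → La k := fun t =>
    φ (Pi.single t.1 (Sk.mono σ q (t.2.1.val : ℕ) (b t.2.2)))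
  have hexp : ∀ w : I → Sk A σ q, φ w = ∑ t : I × (ZMod q × Fin (finrank k A)),
      crd b (w t.1) t.2 * g t := fun w => by
    rw [Fintype.sum_prod_type]
    conv_lhs => rw [← Finset.univ_sum_single w]
    rw [map_sum]
    refine sum_congr rfl fun i _ => ?_
    conv_lhs => rw [decomp b (w i)]
    rw [← LinearMap.single_apply (La k), map_sum, map_sum]
    refine sum_congr rfl fun p _ => ?_
    rw [map_smul, map_smul, smul_eq_mul]
    rfl
  choose a ha using fun t => (g t).bdd
  obtain ⟨B, hB⟩ := (Set.finite_range a).bddBelow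
  apply hφ
  ext n
  obtain ⟨z, hz, hyz⟩ := h (q * (n + 1 - B))
  have e : φ y = φ (y - z) := by rw [map_sub, hφ0 z hz, sub_zero]
  rw [e, hexp, Sk.co_sum]
  refine sum_eq_zero fun t _ => ?_
  have h1 := crd_ord b ((y - z) t.1) t.2 _ (hyz t.1)
  have h2 : g t ∈ Sk.ord 1 0 B := fun m hm => ha t m (lt_of_lt_of_le hm (hB ⟨t, rfl⟩))
  exact Sk.mul_mem_ord h1 h2 n (by omega)

end EchAux

open EchAux in
theorem jobEch : JobEch := by
  intro k A _ _ _ σ q _
  exact ⟨smul_ord, fun y m hy hli => ⟨ech_li y m hy hli, ech_ord y m hy hli⟩,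
    fun _ => finrank_sk, fun _ => upper, fun _ _ _ => closed⟩

end Crest.Agent.KU
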