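import Crest.Agent.KU.NCB

/-! Job Ev: evaluation homomorphisms. -/

set_option autoImplicit false

namespace Crest.Agent.KU

open Finset NC

namespace Evl

variable {A R ι ι' : Type} [Ring A] [Ring R] [Fintype ι] (J : Filt R)

/-- words of length `< n` -/
noncomputable def W (ι : Type) [Fintype ι] (n : ℕ) : Finset (List ι) :=
  (List.finite_length_lt ι n).toFinset

@[simp] lemma mem_W {n : ℕ} {w : List ι} : w ∈ W ι n ↔ w.length < n := by simp [W]

lemma dens (T : NC A ι →+ R) (hT : ∀ n : ℤ, ∃ d : ℕ, ∀ f ∈ ordGe A ι d, T f ∈ J.I n)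
    (h0 : ∀ (w : List ι) (a : A), T (C a * (w.map X).prod) = 0) (f : NC A ι) : T f = 0 := by
  classical
  refine J.sep _ fun n => ?_
  obtain ⟨d, hd⟩ := hT n
  have := hd (f - ∑ w ∈ W ι d, C (f.co w) * (w.map X).prod) fun w hw => by
    simp only [co_sub, co_sum, C_mul_prod, mon]
    rw [sum_eq_single w (fun v _ hv => if_neg hv.symm) fun h => (h (mem_W.2 hw)).elim]
    simp
  simpa [map_sum, h0] using this

omit [Fintype ι] in
lemma prod_mem {y : ι → R} (hy : ∀ i, y i ∈ J.I 1) (w : List ι) :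
    (w.map y).prod ∈ J.I w.length := by
  induction w with
  | nil => simpa using J.one_mem
  | cons i w ih => simpa [add_comm] using J.mul_mem (hy i) ih

lemma exists_hom (ρ : A →+* R) (y : ι → R) (h0 : ∀ a, ρ a ∈ J.I 0) (hy : ∀ i, y i ∈ J.I 1)
    (hc : ∀ a i, Commute (ρ a) (y i)) : ∃ Φ : NC A ι →+* R, (∀ a, Φ (C a) = ρ a) ∧
      (∀ i, Φ (X i) = y i) ∧ ∀ d : ℕ, ∀ f ∈ ordGe A ι d, Φ f ∈ J.I d := by
  classical
  set P : ℕ → NC A ι → R := fun n f => ∑ w ∈ W ι n, ρ (f.co w) * (w.map y).prod with hP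
  have : ∀ f, ∃ z, ∀ n : ℕ, z - P n f ∈ J.I (0 + n) := fun f => by
    obtain ⟨z, hz⟩ := J.complete (fun n => P (n + 1) f - P n f) 0 fun n => by
      rw [hP, ← sum_sdiff_eq_sub (fun w hw => mem_W.2 ((mem_W.1 hw).trans n.lt_succ_self))]
      refine sum_mem fun w hw => ?_
      rw [mem_sdiff, mem_W, mem_W] at hw
      exact (show w.length = n by omega) ▸ J.mul_mem (h0 _) (prod_mem J hy w)
    refine ⟨z, fun n => ?_⟩
    have := hz n
    rwa [sum_range_sub (fun n => P n f), show P 0 f = 0 from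
      sum_eq_zero fun w hw => by simp at hw, sub_zero] at this
  choose Φ hΦ using this
  let T : NC A ι →+ R := .mk' Φ fun f g => J.eq_of_forall 0 fun n => by
    have := sub_mem (hΦ (f + g) n) (add_mem (hΦ f n) (hΦ g n))
    simp only [hP, co_add, map_add, add_mul, sum_add_distrib] at this
    convert this using 1; abel
  have hT : ∀ d : ℕ, ∀ f ∈ ordGe A ι d, T f ∈ J.I d := fun d f hf => by
    have := hΦ f d
    rwa [show P d f = 0 from sum_eq_zero fun w hw => by simp [hf w (mem_W.1 hw)], sub_zero,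
      zero_add] at this
  have hm : ∀ (w : List ι) a, T (C a * (w.map X).prod) = ρ a * (w.map y).prod := fun w a =>
    J.eq_of_forall 0 fun n => by
      refine J.anti (show (0 : ℤ) + n ≤ 0 + (n + w.length + 1 : ℕ) by omega) ?_
      have : P (n + w.length + 1) (C a * (w.map X).prod) = ρ a * (w.map y).prod := by
        simp only [hP, C_mul_prod, mon]
        rw [sum_eq_single w (fun v _ hv => by simp [hv]) fun h => (h (mem_W.2 (by omega))).elim]
        simp
      exact this ▸ hΦ (C a * (w.map X).prod) (n + w.length + 1)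
  have hc' : ∀ (r : R) (g : NC A ι → NC A ι) (k : NC A ι → R), (∀ d, ∀ f ∈ ordGe A ι d,
      g f ∈ ordGe A ι d ∧ k f ∈ J.I d) → ∀ n : ℤ, ∃ d : ℕ, ∀ f ∈ ordGe A ι d, T (g f) - k f ∈ J.I n :=
    fun r g k h n => ⟨n.toNat, fun f hf => J.anti (by omega)
      (sub_mem (hT _ _ (h _ f hf).1) (h _ f hf).2)⟩
  have hmul : ∀ f g, T (f * g) = T f * T g := fun f g => by
    refine sub_eq_zero.1 (dens J (T.comp (.mulLeft f) - (AddMonoidHom.mulLeft (T f)).comp T)
      (hc' 0 (f * ·) (T f * T ·) fun d g hg => ⟨by simpa using mul_mem_ordGe (mem_ordGe_zero f) hg,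
        by simpa using J.mul_mem (hT 0 f (mem_ordGe_zero f)) (hT d g hg)⟩) (fun v b => ?_) g)
    refine dens J (T.comp (.mulRight _) - (AddMonoidHom.mulRight (T _)).comp T)
      (hc' 0 (· * _) (T · * T _) fun d g hg => ⟨by simpa using mul_mem_ordGe hg (mem_ordGe_zero _),
        by simpa using J.mul_mem (hT d g hg) (hT 0 _ (mem_ordGe_zero _))⟩) (fun w a => ?_) f
    have e1 : Commute (C b : NC A ι) (w.map X).prod := Commute.list_prod_right _ _ fun x hx => by
      obtain ⟨i, -, rfl⟩ := List.mem_map.1 hx; exact C_comm_X b i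
    have e2 : Commute (ρ b) (w.map y).prod := Commute.list_prod_right _ _ fun x hx => by
      obtain ⟨i, -, rfl⟩ := List.mem_map.1 hx; exact hc b i
    change T (_ * _) - T _ * T _ = 0
    rw [mul_assoc, ← mul_assoc _ (C b), ← e1.eq, mul_assoc, ← mul_assoc, ← map_mul,
      ← List.prod_append, ← List.map_append, hm, hm, hm, mul_assoc, ← mul_assoc _ (ρ b), ← e2.eq]
    simp [mul_assoc]
  refine ⟨{ T with map_one' := by simpa using hm [] 1, map_mul' := hmul }, fun a => ?_, fun i => ?_,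
    hT⟩
  · simpa using hm [] a
  · simpa using hm [i] 1

lemma uniq {ρ : A →+* R} {y : ι → NC R ι'} {Φ Ψ : NC A ι →+* NC R ι'} (h : IsEv J ρ y Φ)
    (h' : IsEv J ρ y Ψ) : Φ = Ψ := by
  refine RingHom.ext fun f => NC.ext (funext fun w => sub_eq_zero.1 (dens J
    ((coHom w).comp (Φ.toAddMonoidHom - Ψ.toAddMonoidHom)) (fun n => ?_) (fun v a => ?_) f))
  · obtain ⟨d, hd⟩ := h.cont w n
    obtain ⟨e, he⟩ := h'.cont w n
    exact ⟨max d e, fun f hf => sub_mem (hd f (ordGe_anti (le_max_left _ _) hf))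
      (he f (ordGe_anti (le_max_right _ _) hf))⟩
  · simp [map_list_prod, h.const, h'.const, Function.comp_def, h.var, h'.var]

variable {J} {ρ : A →+* R} {Y : ι → R}

omit [Fintype ι] in
lemma adm_lin (h : Pt J ρ Y) {E : ι' → ι → R} (hE : ∀ α, Dir ρ (E α)) {m : ι' → ℤ}
    (hm : ∀ α i, E α i ∈ J.I (m α)) : Adm J ρ (linSub Y E) fun α => 1 - m α := by
  refine ⟨h.const, fun a i w => ?_, fun i w => ?_⟩ <;> rcases w with _ | ⟨α, _ | ⟨β, w⟩⟩ <;>
    simp [linSub, h.comm, h.mem, show ∀ α a i, Commute (ρ a) (E α i) from hE, hm]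

lemma exists_m (h : Pt J ρ Y) (E : ι' → ι → R) : ∃ m : ι' → ℤ, ∀ α i, E α i ∈ J.I (m α) := by
  choose n hn using h.exh
  exact ⟨fun α => -∑ i, |n (E α i)|, fun α i => J.anti (neg_le_of_abs_le
    (single_le_sum (f := fun i => |n (E α i)|) (fun _ _ => abs_nonneg _) (mem_univ i))) (hn _)⟩

omit [Fintype ι] in
lemma adm_C (h : Pt J ρ Y) : Adm J ρ (fun i => (C (Y i) : NC R Empty)) Empty.elim := by
  refine ⟨h.const, fun a i w => ?_, fun i w => ?_⟩ <;> rcases w with _ | ⟨⟨⟩, w⟩ <;>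
    simp [h.comm, h.mem]

end Evl

open Evl

theorem jobEv : JobEv := by
  intro A R ι ι' _ _ _ J ρ
  refine ⟨fun y c h => ?_, fun y Φ Ψ => uniq J, dens J⟩
  obtain ⟨Φ, h1, h2, h3⟩ := exists_hom (J.nc ι' c) (C.comp ρ) y
    (fun a w => by cases w <;> simp [h.const]) h.mem fun a i => NC.ext (funext fun w => by
      simp [(h.comm a i w).eq])
  have hΦ : IsEv J ρ y Φ := ⟨h1, h2, fun w n => ⟨(n + (w.map c).sum).toNat, fun f hf =>
    J.anti (by omega) (h3 _ f hf w)⟩⟩
  have : IsEv J ρ y (ev J ρ y) := by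
    rw [ev, dif_pos ⟨Φ, hΦ⟩]; exact Exists.choose_spec (⟨Φ, hΦ⟩ : ∃ Φ, IsEv J ρ y Φ)
  exact ⟨this, uniq J this hΦ ▸ h3⟩

end Crest.Agent.KU
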