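import Crest.Agent.KU.Jobs

/-! Row 180, job ExtK: normal forms of extended series, descent of `Kill`, jets. -/

set_option autoImplicit false
set_option linter.unusedSectionVars false

namespace Crest.Agent.KU
namespace ExtKx

open Finset Module

lemma cst_comm {A : Type} [Ring A] {σ : RingAut A} {q : ℕ} (c : A) (hc : ∀ y, Commute c y)
    (hσ : σ c = c) (y : Sk A σ q) : Commute (Sk.cst σ q c) y := by
  have h : ∀ i : ℤ, (σ ^ i) c = c := fun i => by
    induction i using Int.induction_on with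
    | zero => simp
    | succ i ih => rw [zpow_add_one]; change (σ ^ (i : ℤ)) (σ c) = c; rw [hσ, ih]
    | pred i ih =>
      rw [zpow_sub_one]
      change (σ ^ (-i : ℤ)) (σ.symm c) = c
      rw [show σ.symm c = c from σ.symm_apply_eq.2 hσ.symm, ih]
  ext n
  change (Sk.mono σ q 0 c * y).co n = (y * Sk.mono σ q 0 c).co n
  rw [Sk.mono_mul_co, Sk.mul_mono_co, h, zpow_zero, sub_zero]
  exact (hc _).eq

variable {F : Type} [Field F] {A B : Type} [Ring A] [Algebra F A] [Ring B] [Algebra F B]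
  (p : Par F)

lemma shC_comm (c : A) (hc : ∀ y, Commute c y) (y : Sh A p) : Commute (shC A p c) y :=
  cst_comm _ (cst_comm c hc rfl) (by
    ext n
    rw [co_sc, Sk.co_cst]
    split_ifs with h
    · simp [h]
    · simp) y

lemma shMap_co (i : A →ₐ[F] B) (y : Sh A p) (n m : ℤ) :
    ((shMap p i y).co n).co m = i ((y.co n).co m) := rfl

lemma shMap_q (i : A →ₐ[F] B) (y : Sh F p) : shMap p i (qMap A p y) = qMap B p y := by
  ext n m
  exact i.commutes _

lemma shMap_C (i : A →ₐ[F] B) (c : A) : shMap p i (shC A p c) = shC B p (i c) := by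
  ext n m
  rw [shMap_co]
  change i (((Sk.cst _ _ (Sk.cst _ _ c)).co n).co m) = ((Sk.cst _ _ (Sk.cst _ _ (i c))).co n).co m
  simp only [Sk.co_cst]
  split_ifs
  · simp only [Sk.co_cst]; split_ifs <;> simp
  · simp

/-- `♯` of an algebra map, as an algebra map over `F'` -/
noncomputable def shAlg (i : A →ₐ[F] B) : Sh A p →ₐ[La (La F)] Sh B p :=
  { shMap p i with
    commutes' := fun c => by
      ext n m
      change i (((algebraMap (La (La F)) (Sh A p) c).co n).co m) = _
      simp only [Sk.co_algebraMap]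
      split_ifs
      · simp only [Sk.co_algebraMap]; split_ifs <;> simp
      · simp }

end ExtKx

open ExtKx Finset Module in
theorem jobExtK (hEv : JobEv) (hN : JobNCB) (hSS : JobSS) (hJet : JobJet) (hNat : JobNat)
    (hM : JobMorB) (hMor : JobMor) : JobExtK := by
  intro a p ξ sl
  obtain ⟨-, m2, m3, -, -, -, -, m8⟩ := hM
  obtain ⟨hpt, hcm, -, -⟩ := m8 p ξ a.D
  have jet := hJet _ _ _ hpt
  have hd : ∀ α, Dir (shC a.D p) fun i => qMap a.D p (sl.E α i) := fun α x i => hcm _ x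
  have c0 : (extPhi p ξ a.D sl.E a.B).co [] = AA p ξ a.B := jet.co_nil _ hd _
  have c1 : ∀ α, (extPhi p ξ a.D sl.E a.B).co [α] = DA1 p ξ a.B (sl.E α) :=
    jet.co_one _ hd _
  have c2 : ∀ α β, (extPhi p ξ a.D sl.E a.B).co [α, β] = DA2 p ξ a.B (sl.E α) (sl.E β) :=
    jet.co_two _ hd _
  refine ⟨?_, fun nf => ⟨fun hg hk D' _ _ _ _ i a₀ ha₀ => ?_, fun α => ?_, fun α β => ?_⟩⟩
  · obtain ⟨w, B, h1, h2, h3, h4⟩ :=
      (@hSS (La (La a.F)) (Sh a.D p) _ _ _ _ _ _).2 (extPhi p ξ a.D sl.E a.B)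
    rw [c0] at h3 h4
    exact ⟨⟨w, ⟨fun v => ⟨B.co v, (Subalgebra.mem_centralizer_iff _).2 fun g hg => by
      rw [Set.mem_singleton_iff.1 hg]; exact (h3 v).symm.eq⟩⟩, h1,
      fun v hv => Subtype.ext (h2 v hv), h4⟩⟩
  · refine m2 _ _ _ (hMor p ξ sl hg) ?_
    obtain ⟨hpt', hcm', -, -⟩ := m8 p ξ D'
    obtain ⟨c, hc⟩ := jet.adm _ hd
    have hf : ∀ n, ∀ r ∈ (Sk.filt (sc a.D p) p.q).I n, shMap p i r ∈ (Sk.filt (sc D' p) p.q).I n :=
      fun n r hr m hm => by
        ext m'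
        rw [shMap_co, hr m hm]; simp
    have hy : (fun j => NC.map (shMap p i) (linSub (XA p ξ a.D)
        (fun α j => qMap a.D p (sl.E α j)) j)) =
        linSub (XA p ξ D') fun α j => qMap D' p (sl.E α j) := by
      funext j
      refine NC.ext (funext fun w => ?_)
      rcases w with _ | ⟨α, _ | ⟨β, w⟩⟩ <;> simp [linSub, XA, shMap_q]
    have hc' : Adm (Sk.filt (sc D' p) p.q) (shC D' p) (fun j => NC.map (shMap p i)
        (linSub (XA p ξ a.D) (fun α j => qMap a.D p (sl.E α j)) j)) c := by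
      refine ⟨hpt'.const, fun x j w => ?_, fun j w => hf _ _ (hc.mem j w)⟩
      rw [congrFun hy j]
      rcases w with _ | ⟨α, _ | ⟨β, w⟩⟩ <;> simp [linSub, XA, hcm']
    have hn := (hNat _ _ (shC a.D p) (shC D' p) i.toRingHom (shMap p i) hf (shMap_C p i)).1 _ c hc
      hc' (NC.C a₀ + a.B)
    rw [hy] at hn
    have hA : AA p ξ a.B ∈ Cent p ξ a.B := (Subalgebra.mem_centralizer_iff _).2 fun g hg => by
      rw [Set.mem_singleton_iff.1 hg]
    have hC : shC a.D p a₀ ∈ Cent p ξ a.B := (Subalgebra.mem_centralizer_iff _).2 fun g _ =>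
      (shC_comm p a₀ (fun y => (ha₀ y)) g).symm.eq
    have hk' := hk (Sh D' p) ((shAlg p i).comp (Cent p ξ a.B).val) (⟨_, hC⟩ + ⟨_, hA⟩) fun y => by
      refine Commute.add_left (Subtype.ext (shC_comm p a₀ ha₀ y.1).eq) (Subtype.ext ?_)
      exact (Subalgebra.mem_centralizer_iff _).1 y.2 _ rfl
    refine m3 _ _ (NC.map (shMap p i) nf.w) (hN.1 _ (by rw [NC.co_map, nf.w0, map_one]; simp)) ?_ hk'
    change ev _ _ _ _ * _ = _
    rw [← hn, ← map_mul, map_add, ((hEv _ _).1 _ c hc).1.const, add_mul]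
    have e1 : NC.C (shC a.D p a₀) * nf.w = nf.w * NC.C (shC a.D p a₀) := by
      refine NC.ext (funext fun w => ?_)
      rw [NC.C_mul_co, NC.mul_C_co, (shC_comm p a₀ ha₀ _).eq]
    have e2 := nf.eq
    rw [extPhi] at e2
    rw [e1, e2, ← mul_add, map_mul]
    congr 1
    refine NC.ext (funext fun w => ?_)
    rcases w with _ | ⟨α, w⟩
    · simp only [NC.co_map, NC.co_add, NC.C_nil, ← add_assoc]; rfl
    · simp only [NC.co_map, NC.co_add, NC.C_cons, zero_add]; rfl
  · have e := congrArg (fun f => NC.co f [α]) nf.eq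
    simp only [NC.mul_single, c0, c1, nf.w0, NC.co_add, NC.co_map, NC.C_nil, NC.C_cons,
      nf.ord1 [] (by simp), map_zero, mul_one, one_mul, add_zero, zero_add] at e
    rw [← add_sub_assoc, eq_sub_iff_add_eq, add_comm, e]; rfl
  · have e := congrArg (fun f => NC.co f [α, β]) nf.eq
    simp only [NC.mul_pair, c0, c1, c2, nf.w0, NC.co_add, NC.co_map, NC.C_nil, NC.C_cons,
      nf.ord1 [] (by simp), map_zero, mul_one, one_mul, add_zero, zero_add] at e
    change _ = (nf.B'.co [α, β] : Sh a.D p) + _ * (nf.B'.co [β] : Sh a.D p) + _ at e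
    rw [← sub_eq_zero] at e ⊢
    rw [← neg_eq_zero, ← e]
    abel

end Crest.Agent.KU
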