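import Crest.Agent.KU.Jobs

/-! Job Final: the colimit. -/

set_option autoImplicit false

namespace Crest.Agent.KU.Fin

open Finset Module Polynomial Filter

lemma map_std {R S : Type} [Ring R] [Ring S] (f : R →+* S) (n : ℕ) (y : Fin n → R) :
    f (stdPoly n y) = stdPoly n fun r => f (y r) := by
  simp [stdPoly, map_list_prod, List.map_ofFn, Function.comp_def]

lemma std_zero {K D : Type} [Field K] [Ring D] [Algebra K D] [FiniteDimensional K D] {n : ℕ}
    (hn : finrank K D < n) (y : Fin n → D) : stdPoly n y = 0 := by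
  have := (MultilinearMap.alternatization (MultilinearMap.mkPiAlgebraFin K n D)).map_linearDependent
    y fun h => by simpa [hn.not_ge] using h.fintype_card_le_finrank
  simpa [MultilinearMap.alternatization_apply, Units.smul_def, stdPoly] using this

lemma inv_poly {K S : Type} [Field K] [Ring S] [Algebra K S] [NoZeroDivisors S] {a : S}
    (h : IsAlgebraic K a) : ∃ q : K[X], a ≠ 0 → a * aeval a q = 1 := by
  by_cases h0 : a = 0
  · exact ⟨0, fun h => (h h0).elim⟩
  obtain ⟨t, ht, r, hr, e⟩ := h.exists_nonzero_eq_adjoin_mul (mem_nonZeroDivisors_of_ne_zero h0)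
  rw [Algebra.adjoin_singleton_eq_range_aeval] at ht
  obtain ⟨p, rfl⟩ := ht
  refine ⟨r⁻¹ • p, fun _ => ?_⟩
  rw [map_smul, mul_smul_comm]
  erw [e]
  rw [Algebra.algebraMap_eq_smul_one, smul_smul, inv_mul_cancel₀ hr, one_smul]

lemma dense {F D ι F' D' ι' : Type} [Field F] [Ring D] [Algebra F D] [Field F'] [Ring D']
    [Algebra F' D'] {φ : F →+* F'} {Φ : NC D ι →+* NC D' ι'} (h : IsMor φ Φ) {x y : NC D ι}
    (hd : Dense2 (Algebra.adjoin F {x, y})) : Dense2 (Algebra.adjoin F' {Φ x, Φ y}) := fun f => by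
  obtain ⟨b, hb, hf⟩ := h.gen _ hd f
  refine ⟨b, Algebra.adjoin_le ?_ hb, hf⟩
  rintro _ ⟨z, hz, rfl⟩
  induction hz using Algebra.adjoin_induction with
  | mem z hz => exact Algebra.subset_adjoin (by rcases hz with rfl | rfl <;> simp)
  | algebraMap c => rw [h.alg]; exact Subalgebra.algebraMap_mem _ _
  | add a b _ _ ha hb => rw [map_add]; exact add_mem ha hb
  | mul a b _ _ ha hb => rw [map_mul]; exact mul_mem ha hb

/-- terms -/
abbrev T : Type := FreeRing ((ℕ × ℕ) ⊕ Bool)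

/-- scalar variables -/
abbrev var (j i : ℕ) : T := FreeRing.of (.inl (j, i))

/-- the two generators -/
abbrev gen (b : Bool) : T := FreeRing.of (.inr b)

/-- a stage -/
structure Stg extends St where
  val : ℕ × ℕ → F
  x : NC D ι
  y : NC D ι
  den : Dense2 (Algebra.adjoin F {x, y})

/-- evaluation of terms -/
noncomputable def Stg.ψ (s : Stg) : T →+* NC s.D s.ι :=
  FreeRing.lift (Sum.elim (fun p => algebraMap s.F _ (s.val p)) fun b => cond b s.y s.x)

@[simp] lemma ψ_var (s : Stg) (j i : ℕ) : s.ψ (var j i) = algebraMap s.F _ (s.val (j, i)) := by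
  simp [Stg.ψ]

@[simp] lemma ψ_gen (s : Stg) (b : Bool) : s.ψ (gen b) = cond b s.y s.x := by simp [Stg.ψ]

lemma step (hN : JobNCB) (hT : JobNT) (hP : JobPI)
    (hG : ∀ (σ : St) (f : NC σ.D σ.ι), Good σ.F f) (s : Stg) (n : ℕ) (t : T) :
    ∃ (s' : Stg) (Φ : NC s.D s.ι →+* NC s'.D s'.ι), (∀ b, s'.ψ (gen b) = Φ (s.ψ (gen b))) ∧
      (∀ j i, j ≠ n → s'.ψ (var j i) = Φ (s.ψ (var j i))) ∧
      (∃ m : Fin n → List Bool, IsUnit (s'.ψ (stdPoly n fun r => ((m r).map gen).prod))) ∧
      ∃ d, Φ (s.ψ t) ≠ 0 → Φ (s.ψ t) * ∑ i ∈ range d, s'.ψ (var n i) * Φ (s.ψ t) ^ i = 1 := by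
  obtain ⟨m, hm⟩ := hP s.toSt s.x s.y s.den n
  obtain ⟨σ₁, φ₁, Φ₁, h₁, u₁⟩ := hT.2.2 s.toSt _ hm
  obtain ⟨σ₂, φ₂, Φ₂, h₂, a₂⟩ := hG σ₁ (Φ₁ (s.ψ t))
  have := (@hN σ₂.D σ₂.ι _).2.2.1 inferInstance
  obtain ⟨q, hq⟩ := inv_poly a₂
  let s' : Stg := ⟨σ₂, fun p => if p.1 = n then q.coeff p.2 else φ₂ (φ₁ (s.val p)), Φ₂ (Φ₁ s.x),
    Φ₂ (Φ₁ s.y), dense h₂ (dense h₁ s.den)⟩
  have e1 : ∀ b, s'.ψ (gen b) = Φ₂ (Φ₁ (cond b s.y s.x)) := fun b =>
    (ψ_gen s' b).trans (by cases b <;> rfl)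
  have e2 : ∀ j i, s'.ψ (var j i) = algebraMap σ₂.F (NC σ₂.D σ₂.ι)
    (if j = n then q.coeff i else φ₂ (φ₁ (s.val (j, i)))) := ψ_var s'
  refine ⟨s', Φ₂.comp Φ₁, fun b => by rw [e1, ψ_gen]; rfl, fun j i hj => by
      rw [e2, if_neg hj, ψ_var, ← h₂.alg, ← h₁.alg]; rfl, ⟨m, ?_⟩, q.natDegree + 1, fun h => ?_⟩
  · convert ((@hN σ₁.D σ₁.ι _).1 _ (IsDiv.unit _ u₁)).map Φ₂ using 1
    rw [map_std, map_std, map_std]
    simp only [map_list_prod, List.map_map, Function.comp_def, e1]
  · rw [← hq h, aeval_eq_sum_range]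
    simp only [e2, if_true, Algebra.smul_def]
    rfl

/-- the initial stage -/
noncomputable def s₀ : Stg where
  F := ℂ
  rF := ⟨fun q hq => ⟨_, Complex.isPrimitiveRoot_exp q hq.ne'⟩⟩
  D := ℂ
  ι := Fin 2
  two := by simp
  val := 0
  x := NC.X 0
  y := NC.X 1
  den := fun f => by
    refine ⟨f.co [] • 1 + f.co [0] • NC.X 0 + f.co [1] • NC.X 1, add_mem (add_mem
      (Subalgebra.smul_mem _ (one_mem _) _) (Subalgebra.smul_mem _ (Algebra.subset_adjoin (by simp))
        _)) (Subalgebra.smul_mem _ (Algebra.subset_adjoin (by simp)) _), fun w hw => ?_⟩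
    rcases w with _ | ⟨i, _ | ⟨j, w⟩⟩
    · simp [NC.X, NC.mon]
    · fin_cases i <;> simp [NC.X, NC.mon]
    · simp at hw

lemma colim (s : ℕ → Stg) (Φ : ∀ n, NC (s n).D (s n).ι →+* NC (s (n + 1)).D (s (n + 1)).ι)
    (t : ℕ → T) (ht : ∀ a N, ∃ n ≥ N, t n = a)
    (h1 : ∀ n b, (s (n + 1)).ψ (gen b) = Φ n ((s n).ψ (gen b)))
    (h2 : ∀ n j i, j ≠ n → (s (n + 1)).ψ (var j i) = Φ n ((s n).ψ (var j i)))
    (h3 : ∀ n, ∃ m : Fin n → List Bool,
      IsUnit ((s (n + 1)).ψ (stdPoly n fun r => ((m r).map gen).prod)))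
    (h4 : ∀ n, ∃ d, Φ n ((s n).ψ (t n)) ≠ 0 → Φ n ((s n).ψ (t n)) *
      ∑ i ∈ range d, (s (n + 1)).ψ (var n i) * Φ n ((s n).ψ (t n)) ^ i = 1) :
    ∃ (D : Type) (_ : DivisionRing D), Countable D ∧ CharZero D ∧
      Algebra.IsAlgebraic (Subring.center D) D ∧
      (∃ x y : D, Algebra.adjoin (Subring.center D) ({x, y} : Set D) = ⊤) ∧
      ¬ FiniteDimensional (Subring.center D) D := by
  have nt : ∀ n, Nontrivial (NC (s n).D (s n).ι) := fun n => NC.eps.domain_nontrivial
  let S : ℕ → Subring T := fun n => (s (n + 1)).ψ.eqLocus ((Φ n).comp (s n).ψ)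
  have st : ∀ a : T, ∃ N, ∀ n ≥ N, a ∈ S n := fun a => by
    rw [← eventually_atTop]
    induction a using FreeRing.induction_on with
    | hn1 => exact .of_forall fun n => neg_mem (one_mem _)
    | hb b =>
      rcases b with ⟨j, i⟩ | b
      · exact (eventually_gt_atTop j).mono fun n hn => h2 n j i hn.ne
      · exact .of_forall fun n => h1 n b
    | ha a b ha hb => exact (ha.and hb).mono fun n h => add_mem h.1 h.2
    | hm a b ha hb => exact (ha.and hb).mono fun n h => mul_mem h.1 h.2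
  have pers : ∀ (P : ∀ n, NC (s n).D (s n).ι → Prop) (a : T) (N : ℕ), (∀ n ≥ N, a ∈ S n) →
      (∀ n z, P n z → P (n + 1) (Φ n z)) → P N ((s N).ψ a) → ∀ᶠ n in atTop, P n ((s n).ψ a) :=
    fun P a N ha hP h0 => eventually_atTop.2 ⟨N, fun n hn => by
      induction n, hn using Nat.le_induction with
      | base => exact h0
      | succ n hn ih => rw [ha n hn]; exact hP n _ ih⟩
  let c : RingCon T :=
    { r := fun a b => ∀ᶠ n in atTop, (s n).ψ a = (s n).ψ b
      iseqv := ⟨fun _ => .of_forall fun _ => rfl, fun h => h.mono fun _ => .symm,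
        fun h h' => (h.and h').mono fun _ h => h.1.trans h.2⟩
      mul' := fun h h' => (h.and h').mono fun _ h => by rw [map_mul, map_mul, h.1, h.2]
      add' := fun h h' => (h.and h').mono fun _ h => by rw [map_add, map_add, h.1, h.2] }
  have hc : ∀ a b, c.mk' a = c.mk' b ↔ ∀ᶠ n in atTop, (s n).ψ a = (s n).ψ b := fun a b => c.eq
  have cz : CharZero c.Quotient := ⟨fun a b h => by
    rw [← map_natCast c.mk', ← map_natCast c.mk', hc] at h
    obtain ⟨n, hn⟩ := h.exists
    have := nt n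
    have := charZero_of_injective_algebraMap (algebraMap (s n).F (NC (s n).D (s n).ι)).injective
    simpa using hn⟩
  have cen : ∀ j i, c.mk' (var j i) ∈ Subring.center c.Quotient := fun j i =>
    Subring.mem_center_iff.2 fun g => by
      obtain ⟨g, rfl⟩ := c.mk'_surjective g
      rw [← map_mul, ← map_mul, hc]
      exact .of_forall fun n => by simp [Algebra.commutes]
  have inv : ∀ a : c.Quotient, a ≠ 0 → ∃ n d, a * ∑ i ∈ range d, c.mk' (var n i) * a ^ i = 1 :=
    fun a ha => by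
      obtain ⟨a, rfl⟩ := c.mk'_surjective a
      obtain ⟨N, hN⟩ := st a
      obtain ⟨n, hn, rfl⟩ := ht a N
      obtain ⟨d, hd⟩ := h4 n
      have e : Φ n ((s n).ψ (t n)) = (s (n + 1)).ψ (t n) := (hN n hn).symm
      rw [e] at hd
      refine ⟨n, d, ?_⟩
      have := pers (fun _ z => z = 1) (t n * ∑ i ∈ range d, var n i * t n ^ i) (n + 1)
        (fun k hk => mul_mem (hN k (by omega)) (sum_mem fun i _ => mul_mem (h2 k n i (by omega))
          (pow_mem (hN k (by omega)) _))) (fun k z hz => by rw [hz, map_one]) (by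
          simpa using hd fun h0 => ha (by
            rw [← map_zero c.mk', hc]
            simpa using pers (fun _ z => z = 0) (t n) (n + 1) (fun k hk => hN k (by omega))
              (fun k z hz => by rw [hz, map_zero]) h0))
      have h5 := (hc _ 1).2 (by simpa only [map_one] using this)
      rw [c.mk'.map_mul, map_sum c.mk', c.mk'.map_one] at h5
      simpa only [c.mk'.map_mul, c.mk'.map_pow] using h5
  letI : DivisionRing c.Quotient := DivisionRing.ofIsUnitOrEqZero fun a =>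
    (em (a = 0)).symm.imp_left fun ha => by
      obtain ⟨n, d, h⟩ := inv a ha
      refine ⟨⟨a, _, h, ?_⟩, rfl⟩
      rw [← h]
      exact (Commute.sum_right _ _ _ fun i _ => Commute.mul_right
        (Subring.mem_center_iff.1 (cen n i) a) (Commute.self_pow a i)).symm
  refine ⟨c.Quotient, this, ?_, cz, ⟨fun a => ?_⟩, ⟨c.mk' (gen false), c.mk' (gen true), ?_⟩,
    fun hf => ?_⟩
  · have : Countable T := Cardinal.mk_le_aleph0_iff.1 (by simp)
    exact c.mk'_surjective.countable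
  · by_cases ha : a = 0
    · exact ha ▸ isAlgebraic_zero
    obtain ⟨n, d, h⟩ := inv a ha
    refine ⟨X * ∑ i ∈ range d, C ⟨_, cen n i⟩ * X ^ i - 1, fun h0 => ?_, ?_⟩
    · simpa using congrArg (eval 0) h0
    · simp only [map_sub, map_mul, aeval_X, map_sum, aeval_C, map_pow, map_one, sub_eq_zero]
      exact h
  · refine eq_top_iff.2 fun a _ => ?_
    obtain ⟨a, rfl⟩ := c.mk'_surjective a
    induction a using FreeRing.induction_on with
    | hn1 => rw [map_neg, map_one]; exact neg_mem (one_mem _)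
    | hb b =>
      rcases b with ⟨j, i⟩ | b
      · exact Subalgebra.algebraMap_mem _ (⟨_, cen j i⟩ : Subring.center c.Quotient)
      · exact Algebra.subset_adjoin (by cases b <;> simp)
    | ha a b ha hb => rw [map_add]; exact add_mem (ha trivial) (hb trivial)
    | hm a b ha hb => rw [map_mul]; exact mul_mem (ha trivial) (hb trivial)
  · obtain ⟨m, hm⟩ := h3 (finrank (Subring.center c.Quotient) c.Quotient + 1)
    have h0 := std_zero (K := Subring.center c.Quotient) (Nat.lt_succ_self _)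
      fun r => c.mk' ((m r).map gen).prod
    rw [← map_std, ← map_zero c.mk', hc] at h0
    obtain ⟨n, hn, hu⟩ := (h0.and (pers (fun _ z => IsUnit z) _ _ (fun k _ => show _ = _ by
      simp only [map_std, map_list_prod, List.map_map, Function.comp_def, h1, RingHom.comp_apply])
      (fun k z hz => hz.map _) hm)).exists
    have := nt n
    exact hu.ne_zero (hn.trans (map_zero _))

end Crest.Agent.KU.Fin

namespace Crest.Agent.KU
open Fin

theorem jobFinal (hN : JobNCB) (hT : JobNT) (hP : JobPI) : JobFinal := by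
  intro hG
  choose nx Φ h1 h2 h3 h4 using step hN hT hP hG
  have : Countable T := Cardinal.mk_le_aleph0_iff.1 (by simp)
  obtain ⟨e, he⟩ := exists_surjective_nat T
  let s : ℕ → Stg := fun n => Nat.rec s₀ (fun n s => nx s n (e n.unpair.1)) n
  refine colim s (fun n => Φ (s n) n (e n.unpair.1)) (fun n => e n.unpair.1) (fun a N => ?_)
    (fun n => h1 _ _ _) (fun n => h2 _ _ _) (fun n => h3 _ _ _) fun n => h4 _ _ _
  obtain ⟨k, rfl⟩ := he a
  exact ⟨k.pair N, Nat.right_le_pair _ _, by simp⟩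

end Crest.Agent.KU
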