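import Crest.Agent.KU.Jobs

/-! Job GenB: generic properties. -/

set_option autoImplicit false
set_option linter.unusedSectionVars false

namespace Crest.Agent.KU

open Finset

variable {Ω ι : Type} [Field Ω] [Fintype ι] [DecidableEq ι] {q : ℕ}

namespace IsPoly

lemma const (c : Ω) : IsPoly fun _ : ZMod q → ι → Ω => c := ⟨.C c, fun _ => by simp⟩

lemma var (j : ZMod q) (i : ι) : IsPoly fun x : ZMod q → ι → Ω => x j i :=
  ⟨.X (j, i), fun _ => by simp⟩

lemma add {G H : (ZMod q → ι → Ω) → Ω} (hG : IsPoly G) (hH : IsPoly H) : IsPoly fun x => G x + H x := by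
  obtain ⟨P, hP⟩ := hG
  obtain ⟨Q, hQ⟩ := hH
  exact ⟨P + Q, fun x => by simp [hP, hQ]⟩

lemma mul {G H : (ZMod q → ι → Ω) → Ω} (hG : IsPoly G) (hH : IsPoly H) : IsPoly fun x => G x * H x := by
  obtain ⟨P, hP⟩ := hG
  obtain ⟨Q, hQ⟩ := hH
  exact ⟨P * Q, fun x => by simp [hP, hQ]⟩

lemma sum {T : Type} (s : Finset T) {G : T → (ZMod q → ι → Ω) → Ω} (h : ∀ t, IsPoly (G t)) :
    IsPoly fun x => ∑ t ∈ s, G t x := by
  choose P hP using h
  exact ⟨∑ t ∈ s, P t, fun x => by simp [hP]⟩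

lemma prod {T : Type} (s : Finset T) {G : T → (ZMod q → ι → Ω) → Ω} (h : ∀ t, IsPoly (G t)) :
    IsPoly fun x => ∏ t ∈ s, G t x := by
  choose P hP using h
  exact ⟨∏ t ∈ s, P t, fun x => by simp [hP]⟩

lemma det {T : Type} [Fintype T] [DecidableEq T] {G : (ZMod q → ι → Ω) → Matrix T T Ω}
    (h : ∀ s t, IsPoly fun x => G x s t) : IsPoly fun x => (G x).det := by
  simp only [Matrix.det_apply']
  exact sum _ fun σ => (const _).mul (prod _ fun t => h _ _)

end IsPoly

lemma isPoly_lv (l : ι → Ω) (j : ZMod q) : IsPoly fun x : ZMod q → ι → Ω => lv l (x j) :=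
  .sum _ fun i => (IsPoly.const _).mul (.var j i)

lemma isPoly_zz (l : ι → Ω) (m : ℕ) (j : ZMod q) : IsPoly fun x => zz l x m j :=
  .prod _ fun _ => isPoly_lv _ _

lemma isPoly_hat (d : ℕ) (R : NC Ω ι) (j : ZMod q) : IsPoly fun x => hat d R (win x j d) :=
  .sum _ fun _ => (IsPoly.const _).mul (.prod _ fun _ => .var _ _)

lemma Gen.mono {P Q : (ZMod q → ι → Ω) → Prop} (h : Gen P) (h' : ∀ x, P x → Q x) : Gen Q :=
  h.imp fun _ h => ⟨h.1, h.2.1, fun x hx => h' x (h.2.2 x hx)⟩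

lemma Gen.exists {P : (ZMod q → ι → Ω) → Prop} (h : Gen P) : ∃ x, P x := by
  obtain ⟨G, -, ⟨x, hx⟩, h⟩ := h
  exact ⟨x, h x hx⟩

lemma gen_ne {G : (ZMod q → ι → Ω) → Ω} (h : IsPoly G) (x : ZMod q → ι → Ω) (hx : G x ≠ 0) :
    Gen fun x => G x ≠ 0 := ⟨G, h, ⟨x, hx⟩, fun _ h => h⟩

lemma Gen.and [CharZero Ω] {P Q : (ZMod q → ι → Ω) → Prop} (h : Gen P) (h' : Gen Q) :
    Gen fun x => P x ∧ Q x := by
  obtain ⟨G, ⟨A, hA⟩, ⟨x, hx⟩, h1⟩ := h
  obtain ⟨H, ⟨B, hB⟩, ⟨y, hy⟩, h2⟩ := h'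
  refine ⟨fun x => G x * H x, IsPoly.mul ⟨A, hA⟩ ⟨B, hB⟩, ?_,
    fun x hx => ⟨h1 x (left_ne_zero_of_mul hx), h2 x (right_ne_zero_of_mul hx)⟩⟩
  by_contra h
  push Not at h
  refine mul_ne_zero (a := A) (b := B) (by rintro rfl; simp [hA] at hx)
    (by rintro rfl; simp [hB] at hy) (MvPolynomial.funext fun z => ?_)
  simpa [hA, hB] using h fun j i => z (j, i)

lemma gen_all [CharZero Ω] {K : Type} [Finite K] {P : K → (ZMod q → ι → Ω) → Prop}
    (h : ∀ κ, Gen (P κ)) : Gen fun x => ∀ κ, P κ x := by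
  have := Fintype.ofFinite K
  classical
  have : ∀ s : Finset K, Gen fun x => ∀ κ ∈ s, P κ x := fun s => by
    induction s using Finset.induction_on with
    | empty => exact ⟨_, .const 1, ⟨0, one_ne_zero⟩, by simp⟩
    | insert a s _ ih => exact ((h a).and ih).mono fun x hx => by simpa using hx
  exact (this univ).mono fun x hx κ => hx κ (mem_univ _)

/-- injectivity of a matrix with polynomial entries is generic -/
lemma gen_inj {T K : Type} [Fintype T] [Fintype K] {A : (ZMod q → ι → Ω) → T → K → Ω}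
    (hA : ∀ t κ, IsPoly fun x => A x t κ) (x₀ : ZMod q → ι → Ω)
    (h : ∀ γ : K → Ω, (∀ t, ∑ κ, γ κ * A x₀ t κ = 0) → γ = 0) :
    Gen fun x => (∀ γ : K → Ω, (∀ t, ∑ κ, γ κ * A x t κ = 0) → γ = 0) ∧
      ∀ v : K → Ω, ∃ τ : T → Ω, ∀ κ, ∑ t, τ t * A x t κ = v κ := by
  classical
  obtain ⟨L, hL⟩ := LinearMap.exists_leftInverse_of_injective (Matrix.toLin' (Matrix.of (A x₀)))
    (LinearMap.ker_eq_bot'.2 fun γ hγ => h γ fun t => by
      simpa [Matrix.mulVec, dotProduct, mul_comm] using congrFun hγ t)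
  refine ⟨fun x => (LinearMap.toMatrix' L * Matrix.of (A x)).det,
    .det fun s t => .sum _ fun _ => (IsPoly.const _).mul (hA _ _), ⟨x₀, ?_⟩, fun x hx =>
      ⟨fun γ hγ => Matrix.eq_zero_of_mulVec_eq_zero hx ?_, fun v => ?_⟩⟩
  · beta_reduce
    rw [← LinearMap.toMatrix'_toLin' (Matrix.of (A x₀)), ← LinearMap.toMatrix'_comp, hL]
    simp
  · rw [← Matrix.mulVec_mulVec, show (Matrix.of (A x)).mulVec γ = 0 from funext fun t => by
      simpa [Matrix.mulVec, dotProduct, mul_comm] using hγ t, Matrix.mulVec_zero]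
  · obtain ⟨w, hw⟩ := Matrix.vecMul_surjective_iff_isUnit.2
      ((Matrix.isUnit_iff_isUnit_det _).2 (Ne.isUnit hx)) v
    refine ⟨Matrix.vecMul w (LinearMap.toMatrix' L), fun κ => ?_⟩
    rw [← hw]
    beta_reduce
    rw [← Matrix.vecMul_vecMul]
    rfl

lemma cast_inj_lt {a b : ℕ} (ha : a < q) (hb : b < q) (h : (a : ZMod q) = b) : a = b := by
  rw [← ZMod.val_cast_of_lt ha, h, ZMod.val_cast_of_lt hb]

lemma prod_single {d : ℕ} (u v : Fin d → ι) :
    ∏ r, (Pi.single (u r) 1 : ι → Ω) (v r) = if v = u then 1 else 0 := by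
  simp only [Pi.single_apply, prod_boole, mem_univ, forall_const, funext_iff]

theorem jobGenB : JobGenB := by
  intro Ω ι _ _ _ _ q _
  refine ⟨fun _ _ => Gen.and, fun _ => gen_all, fun l hl => gen_all fun κ => gen_all fun j => ?_,
    fun d R w hw h hd => ?_, fun d hd => ?_⟩
  · obtain ⟨i, hi⟩ := Function.ne_iff.1 (hl κ)
    exact gen_ne (isPoly_lv _ _) (fun _ => Pi.single i 1) (by simpa [lv, Pi.single_apply] using hi)
  · subst hw
    refine gen_ne (isPoly_hat _ _ _) (fun j => if h : j.val < w.length then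
      Pi.single (w.get ⟨_, h⟩) 1 else 0) ?_
    have : ∀ r : Fin w.length, ((r : ℕ) : ZMod q).val = r := fun r =>
      ZMod.val_cast_of_lt (r.2.trans_le hd)
    simp only [hat, win, zero_add, this, Fin.is_lt, dif_pos, Fin.eta, prod_single]
    simpa using h
  · let e := Fintype.equivFinOfCardEq (show Fintype.card (Fin d → ι) = Fintype.card ι ^ d by simp)
    let pos : (Fin d → ι) × Fin d → ZMod q := fun p => (finProdFinEquiv (e p.1, p.2) : ℕ)
    have hp : Function.Injective pos := fun a b h => by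
      have := finProdFinEquiv.injective (Fin.ext (cast_inj_lt
        ((Fin.is_lt _).trans_le (by rwa [mul_comm])) ((Fin.is_lt _).trans_le (by rwa [mul_comm])) h))
      simpa [Prod.ext_iff] using this
    refine (gen_inj (A := fun x (j : ZMod q) (u : Fin d → ι) => ∏ r, win x j d r (u r))
      (fun j u => .prod _ fun _ => .var _ _) (Function.extend pos (fun p => Pi.single (p.1 p.2) 1) 0)
      fun γ hγ => funext fun u => ?_).mono fun x hx R hR w hw => ?_
    · have := hγ (d * e u : ℕ)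
      have h2 : ∀ r : Fin d, ((d * e u : ℕ) : ZMod q) + (r : ℕ) = pos (u, r) := fun r => by
        simp [pos, add_comm]
      simp only [win, h2, hp.extend_apply, prod_single] at this
      simpa using this
    · subst hw
      simpa using congrFun (hx.1 _ hR) w.get

end Crest.Agent.KU
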