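import Crest.Agent.KU.GenB

/-! Job GenV. -/

set_option autoImplicit false
set_option linter.unusedSectionVars false

namespace Crest.Agent.KU

open Finset

namespace GV

variable {Ω ι K : Type} [Field Ω] [CharZero Ω] [Fintype ι] [DecidableEq ι] [Fintype K]
  [DecidableEq K] {q : ℕ} [NeZero q] {l : K → ι → Ω}

lemma zz_inv {l : ι → Ω} {x : ZMod q → ι → Ω} (h : ∀ j, lv l (x j) ≠ 0) {m : ℕ} (hm : m ≤ q)
    (j : ZMod q) : (zz l x m j)⁻¹ = (∏ i, lv l (x i))⁻¹ * zz l x (q - m) (j + m) := by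
  have h1 : ∏ i, lv l (x i) = zz l x m j * zz l x (q - m) (j + m) := by
    have : zz l x (m + (q - m)) j = ∏ i, lv l (x i) := by
      rw [Nat.add_sub_cancel' hm]
      exact prod_nbij (fun r : ℕ => j + r) (fun _ _ => mem_univ _) (fun a ha b hb h => cast_inj_lt
        (by simpa using ha) (by simpa using hb) (add_left_cancel h))
        (fun i _ => ⟨(i - j).val, by simpa using ZMod.val_lt _, by simp⟩) fun _ _ => rfl
    rw [← this, zz, prod_range_add]
    simp [zz, add_assoc]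
  have h2 : zz l x (q - m) (j + m) ≠ 0 := prod_ne_zero_iff.2 fun _ _ => h _
  rw [h1, mul_inv, mul_assoc, inv_mul_cancel₀ h2, mul_one]

lemma avoid {T : Type} [Fintype T] {f : T → ι → Ω} (hf : ∀ t, f t ≠ 0) : ∃ y, ∀ t, lv (f t) y ≠ 0 := by
  obtain ⟨x, hx⟩ := ((jobGenB (q := 1)).2.2.1 f hf).exists
  exact ⟨x 0, fun t => hx t 0⟩

lemma pair (h : NonProp l) : ∃ y y' : ι → Ω, (∀ κ, lv (l κ) y ≠ 0) ∧
    ∀ κ κ', κ ≠ κ' → lv (l κ') y * lv (l κ) y' - lv (l κ) y * lv (l κ') y' ≠ 0 := by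
  obtain ⟨y, hy⟩ := avoid h.1
  obtain ⟨y', hy'⟩ := avoid (T := {p : K × K // p.1 ≠ p.2})
    (f := fun p => lv (l p.1.2) y • l p.1.1 - lv (l p.1.1) y • l p.1.2) fun p hp => p.2
      (h.2 _ _ ((lv (l p.1.2) y)⁻¹ * lv (l p.1.1) y) (by
        rw [mul_smul, ← sub_eq_zero.1 hp, inv_smul_smul₀ (hy _)]))
  refine ⟨y, y', hy, fun κ κ' hκ => ?_⟩
  simpa [lv, mul_sum, sub_mul, mul_assoc] using hy' ⟨(κ, κ'), hκ⟩

lemma wit1 (h : NonProp l) {m : ℕ} (h1 : Fintype.card K ≤ m) (h2 : m + Fintype.card K ≤ q)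
    (j : ZMod q) : ∃ x : ZMod q → ι → Ω, ∀ γ : K → Ω,
      (∀ r : Fin (Fintype.card K), ∑ κ, γ κ * zz (l κ) x m (j + (r : ℕ)) = 0) → γ = 0 := by
  obtain ⟨y, y', h3, h4⟩ := pair h
  refine ⟨fun i => if (i - j).val < m then y else y', fun γ hγ => ?_⟩
  have hz : ∀ κ (r : Fin (Fintype.card K)), zz (l κ) (fun i => if (i - j).val < m then y else y') m
      (j + ((r : ℕ) : ZMod q)) = lv (l κ) y ^ m * (lv (l κ) y' / lv (l κ) y) ^ (r : ℕ) := by
    rintro κ ⟨r, hr⟩
    obtain ⟨c, rfl⟩ : ∃ c, m = c + r := ⟨m - r, by omega⟩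
    have : ∀ s, s < c + r → (j + r + s - j : ZMod q).val = r + s := fun s hs => by
      rw [add_assoc, add_sub_cancel_left, ← Nat.cast_add, ZMod.val_cast_of_lt (by omega)]
    rw [zz, prod_range_add, prod_congr rfl (g := fun _ => lv (l κ) y), prod_congr rfl
      (s₁ := range r) (g := fun _ => lv (l κ) y')]
    · simp [div_pow, pow_add, mul_assoc, mul_div_cancel₀, h3 κ]
    · intro s hs
      rw [mem_range] at hs
      simp only [this (c + s) (by omega), if_neg (show ¬ r + (c + s) < c + r by omega)]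
    · intro s hs
      rw [mem_range] at hs
      simp only [this s (by omega), if_pos (show r + s < c + r by omega)]
  let e := (Fintype.equivFin K).symm
  have := Matrix.eq_zero_of_forall_pow_sum_mul_pow_eq_zero
    (f := fun a => lv (l (e a)) y' / lv (l (e a)) y) (v := fun a => γ (e a) * lv (l (e a)) y ^ m)
    (fun a b hab => e.injective (by_contra fun hne => h4 _ _ hne (by
      rw [div_eq_div_iff (h3 _) (h3 _)] at hab; linear_combination hab))) fun r => by
    rw [← hγ r, ← e.sum_comp]; simp only [hz, mul_assoc]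
  funext κ
  simpa [h3] using congrFun this (e.symm κ)

lemma wit2 (h : NonProp l) (h2 : TwoInd l) {m : ℕ} (h1 : 1 ≤ m) (hm : Fintype.card K * m ≤ q) :
    ∃ x : ZMod q → ι → Ω, ∀ γ : K → Ω,
      (∀ j i, ∑ κ, γ κ * (zz (l κ) x m j * l κ i) = 0) → γ = 0 := by
  obtain ⟨y, hy⟩ := avoid h.1
  let L : (ι → Ω) →ₗ[Ω] K → Ω := Matrix.toLin' (Matrix.of l)
  let b := Module.finBasis Ω (LinearMap.range L)
  have hb : Module.finrank Ω (LinearMap.range L) ≤ Fintype.card K :=
    (Submodule.finrank_le _).trans_eq (by simp)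
  choose z hz using fun r => (b r).2
  obtain ⟨c, rfl⟩ : ∃ c, m = c + 1 := ⟨m - 1, by omega⟩
  let pos : Fin (Module.finrank Ω (LinearMap.range L)) → ZMod q := fun r => (r * (c + 1) : ℕ)
  have lt : ∀ (r : Fin (Module.finrank Ω (LinearMap.range L))) s, s ≤ c → r * (c + 1) + s < q :=
    fun r s hs => by nlinarith [r.2]
  have hp : Function.Injective pos := fun a b h =>
    Fin.ext (mul_right_cancel₀ c.succ_ne_zero (cast_inj_lt (lt a 0 c.zero_le) (lt b 0 c.zero_le) h))
  refine ⟨Function.extend pos z fun _ => y, fun γ hγ => ?_⟩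
  have e : ∀ κ r, zz (l κ) (Function.extend pos z fun _ => y) (c + 1) (pos r) =
      lv (l κ) y ^ c * (b r).1 κ := fun κ r => by
    rw [zz, prod_range_succ', prod_congr rfl (g := fun _ => lv (l κ) y)]
    · simp [hp.extend_apply, ← hz, L, lv, Matrix.mulVec, dotProduct]
    · intro s hs
      rw [mem_range] at hs
      rw [Function.extend_apply' _ _ _ ?_]
      rintro ⟨a, ha⟩
      have := cast_inj_lt (lt a 0 c.zero_le) (lt r (s + 1) hs) (by simpa [pos] using ha)
      have h3 := congrArg (· % (c + 1)) this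
      simp [Nat.mod_eq_of_lt (show s + 1 < c + 1 by omega)] at h3
  have := h2 (fun κ => γ κ * lv (l κ) y ^ c) fun i i' => by
    have h3 := congrArg (fun v : LinearMap.range L => v.1) (b.sum_repr ⟨_, Pi.single i 1, rfl⟩)
    have h4 : ∀ κ, l κ i = ∑ r, b.repr ⟨_, Pi.single i 1, rfl⟩ r * (b r).1 κ := fun κ => by
      simpa [L, -Module.Basis.sum_repr] using (congrFun h3 κ).symm
    simp only [h4, sum_mul, mul_sum]
    rw [sum_comm]
    refine sum_eq_zero fun r _ => ?_
    have := congrArg (b.repr ⟨_, Pi.single i 1, rfl⟩ r * ·) (hγ (pos r) i')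
    simp only [e, mul_sum, mul_zero] at this
    rw [← this]
    exact sum_congr rfl fun κ _ => by ring
  funext κ
  simpa [hy] using congrFun this κ

lemma wit3 (h : NonProp l) {m : ℕ} (h1 : 1 ≤ m) (hq : m < q) (hm : Fintype.card K * m ≤ q) :
    ∃ x : ZMod q → ι → Ω, ∀ γ : K → Ω,
      (∀ j i, ∑ κ, γ κ * (zz (l κ) x (q - m) j * l κ i) = 0) → γ = 0 := by
  obtain ⟨y, y', h3, h4⟩ := pair h
  let e := Fintype.equivFin K
  let pos : K → ZMod q := fun κ => (e κ * m : ℕ)
  have lt : ∀ κ, e κ * m + m ≤ q := fun κ => by nlinarith [(e κ).2]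
  have hp : Function.Injective pos := fun a b h => e.injective (Fin.ext (mul_right_cancel₀
    (by omega) (cast_inj_lt (by have := lt a; omega) (by have := lt b; omega) h)))
  let z : K → ι → Ω := fun κ => lv (l κ) y • y' - lv (l κ) y' • y
  have hz : ∀ κ κ', lv (l κ) (z κ') = lv (l κ') y * lv (l κ) y' - lv (l κ) y * lv (l κ') y' :=
    fun κ κ' => by
      rw [mul_comm (lv (l κ) y)]
      simp only [z, lv, Pi.sub_apply, Pi.smul_apply, smul_eq_mul, mul_sub, sum_sub_distrib,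
        mul_left_comm (l κ _), ← mul_sum]
  refine ⟨Function.extend pos z fun _ => y, fun γ hγ => funext fun κ => ?_⟩
  obtain ⟨i, hi⟩ := Function.ne_iff.1 (h.1 κ)
  have := hγ (pos κ + m) i
  rw [sum_eq_single κ (fun κ' _ hne => ?_) (by simp)] at this
  · refine (mul_eq_zero.1 this).resolve_right (mul_ne_zero (prod_ne_zero_iff.2 fun s hs => ?_) hi)
    rw [mem_range] at hs
    by_cases ha : ∃ a, pos a = pos κ + m + s
    · obtain ⟨a, ha⟩ := ha
      rw [← ha, hp.extend_apply, hz]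
      refine h4 _ _ ?_
      rintro rfl
      rw [add_assoc, left_eq_add, ← Nat.cast_add] at ha
      have := cast_inj_lt (by omega) (NeZero.pos q) (ha.trans Nat.cast_zero.symm)
      omega
    · rw [Function.extend_apply' _ _ _ ha]; exact h3 κ
  · obtain ⟨s, hs, hs'⟩ : ∃ s, s < q - m ∧ pos κ + m + (s : ℕ) = pos κ' := by
      have a1 := lt κ
      have a2 := lt κ'
      rcases lt_or_gt_of_ne (show (e κ : ℕ) ≠ e κ' from fun h => hne (e.injective (Fin.ext h)).symm)
        with h | h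
      · have : e κ * m + m ≤ e κ' * m := by nlinarith
        exact ⟨e κ' * m - (e κ * m + m), by omega, by
          simp only [pos]; rw [← Nat.cast_add, ← Nat.cast_add]; congr 1; omega⟩
      · have : e κ' * m + m ≤ e κ * m := by nlinarith
        exact ⟨q + e κ' * m - (e κ * m + m), by omega, by
          simp only [pos]
          rw [← Nat.cast_add, ← Nat.cast_add, show e κ * m + m + (q + e κ' * m - (e κ * m + m)) =
            q + e κ' * m by omega]
          simp⟩
    rw [zz, prod_eq_zero (mem_range.2 hs) (by rw [hs', hp.extend_apply, hz, sub_self]), zero_mul,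
      mul_zero]

end GV

open GV

theorem jobGenV : JobGenV := by
  intro Ω ι K _ _ _ _ _ _ q _ l h
  have g0 : Gen (G0 (q := q) l) := jobGenB.2.2.1 l h.1
  have hZ : ∀ x : ZMod q → ι → Ω, G0 l x → ∀ κ, ∏ i, lv (l κ) (x i) ≠ 0 := fun x hx κ =>
    prod_ne_zero_iff.2 fun i _ => hx κ i
  refine ⟨?_, fun h2 hq => ?_⟩
  · have wit := fun p : {m : Fin (q + 1) // Fintype.card K ≤ m ∧ m + Fintype.card K ≤ q} × ZMod q =>
      wit1 (q := q) h (m := q - p.1) (by have := p.1.2; omega) (by have := p.1.2; omega)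
        (p.2 + (p.1 : ℕ))
    refine (g0.and (gen_all fun p => gen_inj (A := fun x (r : Fin (Fintype.card K)) κ => _)
      (fun _ _ => isPoly_zz _ _ _) _ (wit p).choose_spec)).mono fun x hx m h1 h2 j t => ?_
    obtain ⟨τ, hτ⟩ := (hx.2 (⟨⟨m, by omega⟩, h1, h2⟩, j)).2 fun κ => (∏ i, lv (l κ) (x i)) * t κ
    refine ⟨τ, fun κ => ?_⟩
    rw [← inv_mul_cancel_left₀ (hZ x hx.1 κ) (t κ), ← hτ, mul_sum]
    exact sum_congr rfl fun r _ => by
      rw [zz_inv (hx.1 κ) (show m ≤ q by omega), add_right_comm]; ring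
  · have wit : ∀ m : {m : Fin q // 1 ≤ (m : ℕ)}, ∃ x : ZMod q → ι → Ω, ∀ γ : K → Ω,
        (∀ j i, ∑ κ, γ κ * (zz (l κ) x (q - m) j * l κ i) = 0) → γ = 0 := by
      rintro ⟨⟨m, h3⟩, h4⟩
      simp only at h4 ⊢
      by_cases a : m < Fintype.card K
      · exact wit3 h h4 h3 (by nlinarith)
      by_cases b : q - m < Fintype.card K
      · exact wit2 h h2 (by omega) (by nlinarith)
      obtain ⟨x, hx⟩ := wit1 (q := q) h (not_lt.1 b) (by omega) 0
      refine ⟨x, fun γ hγ => funext fun κ => ?_⟩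
      obtain ⟨i, hi⟩ := Function.ne_iff.1 (h.1 κ)
      refine (mul_eq_zero.1 (congrFun (hx (fun κ => γ κ * l κ i) fun r => ?_) κ)).resolve_right hi
      rw [← hγ (0 + (r : ℕ)) i]
      exact sum_congr rfl fun κ _ => by ring
    refine (g0.and (gen_all fun m : {m : Fin q // 1 ≤ (m : ℕ)} => gen_inj
      (A := fun x (p : ZMod q × ι) κ => zz (l κ) x (q - m) p.1 * l κ p.2)
      (fun _ _ => (isPoly_zz _ _ _).mul (.const _)) _ fun γ hγ => (wit m).choose_spec γ
        fun j i => hγ (j, i))).mono fun x hx m h1 hm γ hγ => ?_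
    have := (hx.2 ⟨⟨m, hm⟩, h1⟩).1 (fun κ => γ κ * (∏ i, lv (l κ) (x i))⁻¹) fun p => by
      rw [← hγ (p.1 - m) p.2]
      exact sum_congr rfl fun κ _ => by rw [zz_inv (hx.1 κ) hm.le, sub_add_cancel]; ring
    funext κ
    simpa [hZ x hx.1] using congrFun this κ

end Crest.Agent.KU
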