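import Crest.Agent.KU.Spl
import Crest.Agent.KU.GenB

/-! Row 180, job GenX: rational generic points. -/

set_option autoImplicit false
set_option linter.unusedSectionVars false

namespace Crest.Agent.KU

open Finset Module

namespace GenX

lemma cst_algebraMap {k A : Type} [CommRing k] [Ring A] [Algebra k A] {σ : RingAut A} {q : ℕ}
    [h : Per k σ q] (c : k) :
    Sk.cst σ q (algebraMap k A c) = algebraMap (La k) (Sk A σ q) (Sk.cst 1 0 c) := by
  have hq : (q : ℤ) ≠ 0 := by exact_mod_cast h.pos.ne'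
  ext n
  rw [Sk.co_algebraMap, Sk.co_cst, Sk.co_cst]
  by_cases hn : n = 0
  · subst hn; simp
  · rw [if_neg hn]
    split_ifs with h1 h2
    · obtain ⟨a, rfl⟩ := h1
      rw [Int.mul_ediv_cancel_left _ hq] at h2
      simp [h2] at hn
    · simp
    · rfl

lemma mono_eq {A : Type} [Ring A] {σ : RingAut A} {q : ℕ} (r : ℕ) (x : A) :
    Sk.mono σ q r x = Sk.cst σ q x * Sk.mono σ q 1 1 ^ r := by
  have : (Sk.mono σ q 1 1) ^ r = Sk.mono σ q r 1 := by
    induction r with
    | zero => simp [Sk.one_def]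
    | succ r ih => rw [pow_succ, ih, Sk.mono_mul_mono]; simp
  rw [this]
  change _ = Sk.mono σ q 0 x * _
  rw [Sk.mono_mul_mono]; simp

lemma cst_mul_mono {A : Type} [Ring A] {σ : RingAut A} {q : ℕ} (m : ℤ) (x y : A) :
    Sk.cst σ q x * Sk.mono σ q m y = Sk.mono σ q m (x * y) := by
  change Sk.mono σ q 0 x * _ = _
  rw [Sk.mono_mul_mono]; simp

/-- a finite-dimensional subalgebra of a domain contains right inverses -/
lemma exists_inv {K R : Type} [Field K] [Ring R] [NoZeroDivisors R] [Algebra K R]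
    [FiniteDimensional K R] (S : Subalgebra K R) {x : R} (hx : x ∈ S) (h0 : x ≠ 0) :
    ∃ y ∈ S, x * y = 1 := by
  let L : S →ₗ[K] S := LinearMap.mulLeft K ⟨x, hx⟩
  have hL : Function.Injective L := by
    rw [← LinearMap.ker_eq_bot, LinearMap.ker_eq_bot']
    intro y hy
    have : x * (y : R) = 0 := congrArg Subtype.val hy
    exact Subtype.ext ((mul_eq_zero.1 this).resolve_left h0)
  obtain ⟨y, hy⟩ := LinearMap.surjective_of_injective hL 1
  exact ⟨y, y.2, congrArg Subtype.val hy⟩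

variable {F : Type} [Field F] (p : Par F)

/-- an element with `q` distinct conjugates generates `K` -/
lemma adjoin_top (ρ : Lq F p.q) (hρ : Function.Injective fun j : ZMod p.q => (sc F p ^ j.val) ρ) :
    Algebra.adjoin (La F) {ρ} = ⊤ := by
  have li : LinearIndependent (La F) fun r : ZMod p.q => ρ ^ r.val := by
    refine Fintype.linearIndependent_iff.2 fun c hc r => ?_
    have h1 := SplAux.li_vand (K := Lq F p.q) (q := p.q)
      (fun j : ZMod p.q => (sc F p ^ j.val) ρ) hρ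
    have h2 : ∑ r : ZMod p.q, algebraMap (La F) (Lq F p.q) (c r) •
        (fun j : ZMod p.q => (sc F p ^ j.val) ρ ^ r.val) = 0 := by
      funext j
      have := congrArg (sc F p ^ j.val : RingAut (Lq F p.q)) hc
      rw [map_sum, map_zero] at this
      rw [Finset.sum_apply, Pi.zero_apply, ← this]
      refine sum_congr rfl fun r _ => ?_
      rw [Algebra.smul_def (c r), map_mul, SplAux.pow_fix, map_pow]
      rfl
    exact (map_eq_zero _).1 (Fintype.linearIndependent_iff.1 h1 _ h2 r)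
  have sp := li.span_eq_top_of_card_eq_finrank' (by
    rw [EchAux.finrank_sk, finrank_self, ZMod.card, mul_one])
  rw [eq_top_iff]
  intro y _
  have hy : y ∈ Submodule.span (La F) (Set.range fun r : ZMod p.q => ρ ^ r.val) := by
    rw [sp]; trivial
  refine (Submodule.span_le (p := Subalgebra.toSubmodule (Algebra.adjoin (La F) {ρ}))).2 ?_ hy
  rintro _ ⟨r, rfl⟩
  exact pow_mem (Algebra.self_mem_adjoin_singleton _ ρ) _

lemma genQ {ι : Type} (ξ : ι → Lq F p.q) (i₀ i₁ : ι) (h0 : ξ i₀ ≠ 0)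
    (hρ : Function.Injective fun j : ZMod p.q => (sc F p ^ j.val) (ξ i₁ / ξ i₀)) : GenQ p ξ := by
  set S := Algebra.adjoin (La (La F)) (Set.range (XQ p ξ)) with hS
  have hX : ∀ i, XQ p ξ i ∈ S := fun i => Algebra.subset_adjoin ⟨i, rfl⟩
  obtain ⟨y, hy, hy1⟩ := exists_inv S (hX i₀) fun h => h0 (by
    simpa [XQ] using congrArg (fun f : Sh F p => f.co 1) h)
  have h1 : Sk.cst (sc F p) p.q (ξ i₁ / ξ i₀) ∈ S := by
    have : XQ p ξ i₁ = Sk.cst (sc F p) p.q (ξ i₁ / ξ i₀) * XQ p ξ i₀ := by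
      rw [XQ, XQ, cst_mul_mono, div_mul_cancel₀ _ h0]
    have e : Sk.cst (sc F p) p.q (ξ i₁ / ξ i₀) = XQ p ξ i₁ * y := by
      rw [this, mul_assoc, hy1, mul_one]
    rw [e]; exact mul_mem (hX _) hy
  have h2 : ∀ z : Lq F p.q, Sk.cst (sc F p) p.q z ∈ S := fun z => by
    have hz : z ∈ Algebra.adjoin (La F) {ξ i₁ / ξ i₀} := by rw [adjoin_top p _ hρ]; trivial
    induction hz using Algebra.adjoin_induction with
    | mem x hx => rw [Set.mem_singleton_iff.1 hx]; exact h1
    | algebraMap c => rw [cst_algebraMap]; exact Subalgebra.algebraMap_mem _ _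
    | add x y _ _ hx hy => rw [map_add]; exact add_mem hx hy
    | mul x y _ _ hx hy => rw [map_mul]; exact mul_mem hx hy
  have h3 : Sk.mono (sc F p) p.q 1 1 ∈ S := by
    have : Sk.mono (sc F p) p.q 1 1 = Sk.cst (sc F p) p.q (ξ i₀)⁻¹ * XQ p ξ i₀ := by
      rw [XQ, cst_mul_mono, inv_mul_cancel₀ h0]
    rw [this]; exact mul_mem (h2 _) (hX _)
  refine eq_top_iff.2 fun z _ => ?_
  refine (Submodule.span_le (p := Subalgebra.toSubmodule S)).2 ?_
    (SplAux.span_mono (σ := sc F p) (Module.finBasis (La F) (Lq F p.q)) (Submodule.mem_top (x := z)))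
  rintro _ ⟨r, rfl⟩
  change Sk.mono _ _ _ _ ∈ S
  rw [mono_eq]
  exact mul_mem (h2 _) (pow_mem h3 _)

variable {Ω ι : Type} [Field Ω] [Fintype ι] [DecidableEq ι] (θ : Lq F p.q →+* Ω)

/-- the Vandermonde nodes -/
noncomputable def nd (j : ZMod p.q) : Ω :=
  θ (Sk.cst 1 p.q (p.ζ ^ j.val)) * θ (Sk.mono 1 p.q 1 1)

lemma nd_inj : Function.Injective (nd p θ) := fun i j h => by
  have ht : θ (Sk.mono 1 p.q 1 1) ≠ 0 := (map_ne_zero _).2 fun h => by
    simpa using congrArg (fun f : Lq F p.q => f.co 1) h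
  have h1 := (Sk.cst (1 : RingAut F) p.q).injective (θ.injective (mul_right_cancel₀ ht h))
  exact ZMod.val_injective _ (p.prim.pow_inj (ZMod.val_lt i) (ZMod.val_lt j) h1)

/-- the polynomial points -/
noncomputable def xi (c : ZMod p.q × ι → F) (i : ι) : Lq F p.q :=
  ∑ r : ZMod p.q, Sk.mono 1 p.q r.val (c (r, i))

lemma xOf_xi (c : ZMod p.q × ι → F) (j : ZMod p.q) (i : ι) :
    xOf p θ (xi p c) j i = ∑ r : ZMod p.q, θ (Sk.cst 1 p.q (c (r, i))) * nd p θ j ^ r.val := by
  simp only [xOf, xi, map_sum]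
  refine sum_congr rfl fun r _ => ?_
  rw [SplAux.sc_mono, mono_eq, smul_eq_mul, nd]
  simp only [map_mul, map_pow]
  ring

lemma exists_pt [CharZero F] {P : (ZMod p.q → ι → Ω) → Prop} (h : Gen P) :
    ∃ c, P (xOf p θ (xi p c)) := by
  obtain ⟨G, ⟨P₀, hP₀⟩, ⟨x, hx⟩, hG⟩ := h
  by_contra hc
  push Not at hc
  let e : F →+* Ω := θ.comp (Sk.cst 1 p.q)
  let P₁ : MvPolynomial (ZMod p.q × ι) Ω := MvPolynomial.bind₁
    (fun t => ∑ r : ZMod p.q, MvPolynomial.X (r, t.2) * MvPolynomial.C (nd p θ t.1 ^ r.val)) P₀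
  have hP₁ : ∀ y : ZMod p.q × ι → Ω, MvPolynomial.eval y P₁ =
      G fun j i => ∑ r : ZMod p.q, y (r, i) * nd p θ j ^ r.val := fun y => by
    rw [hP₀]
    change MvPolynomial.eval₂Hom (RingHom.id Ω) y _ = _
    rw [MvPolynomial.eval₂Hom_bind₁]
    simp [MvPolynomial.coe_eval₂Hom]
  have h0 : P₁ = 0 := by
    refine MvPolynomial.funext_set (fun _ => Set.range e)
      (fun _ => Set.infinite_range_of_injective e.injective) fun y hy => ?_
    choose c hc' using fun t => hy t (Set.mem_univ t)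
    rw [hP₁, map_zero]
    by_contra hne
    refine hc c (hG _ ?_)
    convert hne using 2
    funext j i
    rw [xOf_xi]
    exact sum_congr rfl fun r _ => by rw [← hc']; rfl
  have sp := (SplAux.li_vand _ (nd_inj p θ)).span_eq_top_of_card_eq_finrank' (by simp)
  have : ∀ i, ∃ y : ZMod p.q → Ω, ∑ r, y r • (fun j => nd p θ j ^ r.val) = fun j => x j i :=
    fun i => (Submodule.mem_span_range_iff_exists_fun Ω).1 (by rw [sp]; trivial)
  choose y hy using this
  apply hx
  have := hP₁ fun t => y t.2 t.1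
  rw [h0, map_zero] at this
  rw [this]
  congr 1
  funext j i
  simpa using (congrFun (hy i) j).symm

end GenX

theorem jobGenX : JobGenX := by
  intro F Ω ι _ _ _ _ _ p θ h2 P hP
  have : CharZero Ω := charZero_of_injective_ringHom (θ.comp (Sk.cst 1 p.q)).injective
  obtain ⟨i₀, i₁, hi⟩ := Fintype.exists_pair_of_one_lt_card (α := ι) (by omega)
  let w : ZMod p.q → ι → Ω := fun j i => if i = i₀ then 1 else j.val
  have g1 : Gen fun x : ZMod p.q → ι → Ω => ∀ j, x j i₀ ≠ 0 :=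
    gen_all fun j => gen_ne (IsPoly.var j i₀) w (by simp [w])
  have g2 : Gen fun x : ZMod p.q → ι → Ω => ∀ t : {t : ZMod p.q × ZMod p.q // t.1 ≠ t.2},
      x t.1.1 i₁ * x t.1.2 i₀ + (-1) * (x t.1.2 i₁ * x t.1.1 i₀) ≠ 0 :=
    gen_all fun t => gen_ne (((IsPoly.var _ _).mul (IsPoly.var _ _)).add
      ((IsPoly.const _).mul ((IsPoly.var _ _).mul (IsPoly.var _ _)))) w (by
        simp only [w, if_neg hi.symm, if_true, mul_one, neg_mul, one_mul, ← sub_eq_add_neg,
          sub_ne_zero]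
        exact fun h => t.2 (ZMod.val_injective _ (Nat.cast_injective h)))
  obtain ⟨c, hc, h1, h2⟩ := GenX.exists_pt p θ (hP.and (g1.and g2))
  refine ⟨GenX.xi p c, GenX.genQ p _ i₀ i₁ (fun h => h1 0 (by simp [xOf, h])) fun j j' h => ?_, hc⟩
  by_contra hne
  apply h2 ⟨(j, j'), hne⟩
  have := congrArg θ h
  simp only [map_div₀] at this
  change xOf p θ (GenX.xi p c) j i₁ / xOf p θ (GenX.xi p c) j i₀ =
    xOf p θ (GenX.xi p c) j' i₁ / xOf p θ (GenX.xi p c) j' i₀ at this
  rw [div_eq_div_iff (h1 j) (h1 j')] at this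
  simp only [this]
  ring

end Crest.Agent.KU
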