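import Crest.Agent.KU.BC

/-! Job Inv: arithmetic of the invariants. -/

set_option autoImplicit false

namespace Crest.Agent.KU

open Finset Module

lemma An.ratio (a : An) (hc : a.Comm) {u₀ : a.D} (h0 : u₀ ∈ a.U) (h1 : u₀ ≠ 0) {u : a.D}
    (hu : u ∈ a.U) : ∃ y ∈ a.L0, u = u₀ * y := by
  obtain ⟨v, rfl⟩ := IsDiv.unit _ h1
  exact ⟨u * ↑v⁻¹, Algebra.subset_adjoin ⟨u, hu, v, h0, h1, by simp⟩, by rw [hc]; simp⟩

theorem jobInv : JobInv := by
  refine ⟨fun a hc ⟨i, hi⟩ => ?_, fun a a' q _ x N b _ => ?_⟩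
  · have h0 : a.B.co [i] ∈ a.U := Submodule.subset_span ⟨i, rfl⟩
    have hm : ∀ u : a.D, u ≠ 0 → finrank a.F (a.L0.toSubmodule.map (LinearMap.mulLeft a.F u)) = a.M :=
      fun u hu => (Submodule.equivMapOfInjective _ (mul_right_injective₀ hu) _).finrank_eq.symm
    have hY : a.Y = a.L0.toSubmodule.map (LinearMap.mulLeft a.F (a.B.co [i])) := by
      refine le_antisymm (Submodule.mul_le.2 fun u hu l hl => ?_) ?_
      · obtain ⟨y, hy, rfl⟩ := a.ratio hc h0 hi hu
        exact ⟨y * l, a.L0.mul_mem hy hl, (mul_assoc _ _ _).symm⟩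
      · rintro _ ⟨l, hl, rfl⟩
        exact Submodule.mul_mem_mul h0 hl
    have hU : a.U ≤ a.Y := fun u hu => mul_one u ▸ Submodule.mul_mem_mul hu a.L0.one_mem
    refine ⟨finrank_pos, Nat.mul_div_cancel' ?_, (Submodule.finrank_mono hU).trans_eq
      (by rw [hY, hm _ hi]), (Submodule.finrank_mono (Submodule.mul_le.2 fun u hu v hv => ?_)).trans_eq
      (hm _ (mul_ne_zero hi hi)), by rw [hY, hm _ hi], hU, ?_⟩
    · letI := divisionRingOfFiniteDimensional a.F a.L0
      exact ⟨_, (finrank_mul_finrank a.F a.L0 a.D).symm⟩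
    · obtain ⟨y, hy, rfl⟩ := a.ratio hc h0 hi hu
      obtain ⟨z, hz, rfl⟩ := a.ratio hc h0 hi hv
      refine ⟨y * z, a.L0.mul_mem hy hz, ?_⟩
      simp only [LinearMap.mulLeft_apply, mul_assoc]
      rw [← mul_assoc y, hc y (a.B.co [i]), mul_assoc]
    · rw [An.U, ← Fintype.range_linearCombination, add_comm, An.V0,
        LinearMap.finrank_range_add_finrank_ker, finrank_fintype_fun_eq_card]
  · have H := fun P => ((jobBC b.φ b.j.toAddMonoidHom b.semi).2 b.ind inferInstance P).1
    have hm : ∀ P Q : Submodule a'.F a'.D, Submodule.span (La (Om a.F)) (b.j '' (P * Q :)) =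
        Submodule.span _ (b.j '' P) * Submodule.span _ (b.j '' Q) := fun P Q => by
      refine le_antisymm (Submodule.span_le.2 ?_) ?_
      · rintro _ ⟨v, hv, rfl⟩
        refine Submodule.mul_induction_on hv (fun u hu v hv => ?_) fun u v hu hv => ?_
        · rw [map_mul]
          exact Submodule.mul_mem_mul (Submodule.subset_span ⟨u, hu, rfl⟩)
            (Submodule.subset_span ⟨v, hv, rfl⟩)
        · rw [map_add]; exact add_mem hu hv
      · rw [Submodule.span_mul_span]
        refine Submodule.span_mono ?_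
        rintro _ ⟨_, ⟨u, hu, rfl⟩, _, ⟨v, hv, rfl⟩, rfl⟩
        exact ⟨u * v, Submodule.mul_mem_mul hu hv, map_mul _ _ _⟩
    obtain ⟨i, hi⟩ := b.b1
    refine ⟨b.spanU ▸ (H _).symm, by rw [← b.spanU, ← hm]; exact (H _).symm,
      (Submodule.span (La (Om a.F)) (b.j '' a'.L0.toSubmodule)).toSubalgebra
        (Submodule.subset_span ⟨1, a'.L0.one_mem, map_one _⟩) fun y z hy hz => ?_,
      b.j (a'.B.co [i]), H _, fun δ => ?_⟩
    · have := Submodule.mul_mem_mul hy hz
      rw [← hm] at this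
      exact Submodule.span_mono (Set.image_mono (Submodule.mul_le.2 fun _ h _ h' =>
        a'.L0.mul_mem h h')) this
    · have : N.lam δ ∈ N.RL := Submodule.subset_span ⟨δ, rfl⟩
      rw [← b.spanU] at this
      generalize N.lam δ = v at this
      induction this using Submodule.span_induction with
      | mem _ h =>
        obtain ⟨u, hu, rfl⟩ := h
        obtain ⟨y, hy, rfl⟩ := a'.ratio b.comm (Submodule.subset_span ⟨i, rfl⟩) hi hu
        exact ⟨_, Submodule.subset_span ⟨y, hy, rfl⟩, map_mul _ _ _⟩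
      | zero => exact ⟨0, zero_mem _, (mul_zero _).symm⟩
      | add _ _ _ _ h h' =>
        obtain ⟨y, hy, rfl⟩ := h
        obtain ⟨z, hz, rfl⟩ := h'
        exact ⟨y + z, add_mem hy hz, (mul_add _ _ _).symm⟩
      | smul c _ _ h =>
        obtain ⟨y, hy, rfl⟩ := h
        exact ⟨c • y, Subalgebra.smul_mem _ hy c, (mul_smul_comm _ _ _).symm⟩

end Crest.Agent.KU
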