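import Crest.Agent.KU.Jobs

/-! Row 180, job JT: transfer of the joint surjectivity from the split picture. -/

set_option autoImplicit false
set_option linter.unusedSectionVars false

namespace Crest.Agent.KU
namespace JTx

open Finset Module

section lin

variable {K Ω : Type} [Field K] [Field Ω] (φ : K →+* Ω)

/-- kernels are compatible with base change -/
lemma kerBC {V VE C Λ : Type} [AddCommGroup V] [Module K V] [FiniteDimensional K V]
    [AddCommGroup VE] [Module Ω VE] [AddCommGroup C] [Module K C] [AddCommGroup Λ] [Module Ω Λ]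
    (jV : V →ₛₗ[φ] VE) (jC : C →ₛₗ[φ] Λ) (f : V →ₗ[K] C) (g : VE →ₗ[Ω] Λ)
    (h : ∀ v, g (jV v) = jC (f v)) (hs : Submodule.span Ω (Set.range jV) = ⊤)
    (hind : ∀ (n : ℕ) (y : Fin n → C), LinearIndependent K y →
      LinearIndependent Ω fun i => jC (y i)) :
    ∃ (n : ℕ) (ε : Fin n → V), (∀ i, f (ε i) = 0) ∧
      ∀ δ, g δ = 0 → ∃ d : Fin n → Ω, δ = ∑ i, d i • jV (ε i) := by
  obtain ⟨W, hW⟩ := Submodule.exists_isCompl (LinearMap.ker f)
  let b := Module.finBasis K W
  let b0 := Module.finBasis K (LinearMap.ker f)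
  refine ⟨_, fun i => b0 i, fun i => (b0 i).2, fun δ hδ => ?_⟩
  have hb : LinearIndependent K fun i => f (b i) := by
    have := b.linearIndependent.map' (f ∘ₗ W.subtype) (by
      rw [LinearMap.ker_comp, Submodule.eq_bot_iff]
      intro x hx
      exact Subtype.ext ((Submodule.disjoint_def.1 hW.disjoint) x hx x.2))
    exact this
  have hb' := hind _ _ hb
  have key : ∀ δ : VE, ∃ (d : _ → Ω) (d' : _ → Ω),
      δ = ∑ i, d i • jV (b0 i) + ∑ i, d' i • jV (b i) := by
    intro δ
    have hδ : δ ∈ Submodule.span Ω (Set.range jV) := hs ▸ Submodule.mem_top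
    induction hδ using Submodule.span_induction with
    | mem x hx =>
      obtain ⟨v, rfl⟩ := hx
      obtain ⟨v0, hv0, w, hw, rfl⟩ := Submodule.mem_sup.1
        (show v ∈ LinearMap.ker f ⊔ W from hW.sup_eq_top ▸ Submodule.mem_top)
      refine ⟨fun i => φ (b0.repr ⟨v0, hv0⟩ i), fun i => φ (b.repr ⟨w, hw⟩ i), ?_⟩
      have e0 := congrArg (fun z : LinearMap.ker f => jV z) (b0.sum_repr ⟨v0, hv0⟩)
      have e1 := congrArg (fun z : W => jV z) (b.sum_repr ⟨w, hw⟩)
      simp only [Submodule.coe_sum, Submodule.coe_smul, map_sum, map_smulₛₗ] at e0 e1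
      rw [map_add, e0, e1]
    | zero => exact ⟨0, 0, by simp⟩
    | add x y _ _ hx hy =>
      obtain ⟨d, d', rfl⟩ := hx
      obtain ⟨e, e', rfl⟩ := hy
      exact ⟨d + e, d' + e', by simp only [Pi.add_apply, add_smul, sum_add_distrib]; abel⟩
    | smul c x _ hx =>
      obtain ⟨d, d', rfl⟩ := hx
      exact ⟨c • d, c • d', by simp only [Pi.smul_apply, smul_eq_mul, mul_smul, smul_add, smul_sum]⟩
  obtain ⟨d, d', rfl⟩ := key δ
  have h0 : ∀ i, g (jV (b0 i)) = 0 := fun i => by
    rw [h, show f (b0 i) = 0 from (b0 i).2, map_zero]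
  simp only [map_add, map_sum, map_smul, h0, smul_zero, sum_const_zero, zero_add, h] at hδ
  have := Fintype.linearIndependent_iff.1 hb' d' hδ
  exact ⟨d, by simp [this]⟩

/-- independence of an affine family at a rational point -/
lemma genInd [Infinite K] {W I : Type} [AddCommGroup W] [Module Ω W] [Fintype I] {n : ℕ}
    (u : Fin n → W) (z : Fin n → I → W) (c₀ : I → Ω)
    (h : LinearIndependent Ω fun k => u k + ∑ i, c₀ i • z k i) :
    ∃ c : I → K, LinearIndependent Ω fun k => u k + ∑ i, φ (c i) • z k i := by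
  classical
  obtain ⟨l, hl⟩ := (Fintype.linearCombination Ω
    fun k => u k + ∑ i, c₀ i • z k i).exists_leftInverse_of_injective
    (LinearMap.ker_eq_bot.2 h.fintypeLinearCombination_injective)
  let P : MvPolynomial I Ω := Matrix.det (Matrix.of fun k m : Fin n =>
    MvPolynomial.C (l (u k) m) + ∑ i, MvPolynomial.X i * MvPolynomial.C (l (z k i) m))
  have hP : ∀ c : I → Ω, MvPolynomial.eval c P =
      Matrix.det (Matrix.of fun k m : Fin n => l (u k + ∑ i, c i • z k i) m) := fun c => by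
    rw [RingHom.map_det]
    congr 1
    ext k m
    simp [Finset.sum_apply]
  have h1 : MvPolynomial.eval c₀ P = 1 := by
    rw [hP, ← Matrix.det_one (n := Fin n)]
    congr 1
    ext k m
    have := LinearMap.congr_fun hl (Pi.single k 1)
    rw [LinearMap.comp_apply, Fintype.linearCombination_apply_single, one_smul] at this
    rw [Matrix.of_apply, this, LinearMap.id_apply, Matrix.one_apply, Pi.single_apply]
    simp only [eq_comm]
  have h2 : ∃ c ∈ Set.pi Set.univ fun _ : I => Set.range φ, MvPolynomial.eval c P ≠ 0 := by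
    by_contra hc
    push Not at hc
    have := MvPolynomial.funext_set (p := P) (q := 0) (fun _ : I => Set.range φ)
      (fun _ => Set.infinite_range_of_injective φ.injective) fun x hx => by rw [hc x hx, map_zero]
    rw [this, map_zero] at h1
    exact zero_ne_one h1
  obtain ⟨c, hc, hne⟩ := h2
  choose c' hc' using fun i => hc i (Set.mem_univ i)
  refine ⟨c', LinearIndependent.of_comp l ?_⟩
  rw [hP] at hne
  have := Matrix.linearIndependent_rows_of_det_ne_zero hne
  simp only [hc']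
  exact this

/-- an independent family in the span of the image of `P` has at most `dim P` elements -/
lemma card_le {V W : Type} [AddCommGroup V] [Module K V] [FiniteDimensional K V]
    [AddCommGroup W] [Module Ω W] (j : V →ₛₗ[φ] W) (P : Submodule K V) {n : ℕ} (y : Fin n → W)
    (h : LinearIndependent Ω y) (hy : ∀ k, y k ∈ Submodule.span Ω (j '' P)) :
    n ≤ finrank K P := by
  let b := Module.finBasis K P
  have h1 : Submodule.span Ω (j '' P) ≤ Submodule.span Ω (Set.range fun i => j (b i)) := by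
    rw [Submodule.span_le]
    rintro _ ⟨v, hv, rfl⟩
    have e := congrArg (fun z : P => j z) (b.sum_repr ⟨v, hv⟩)
    simp only [Submodule.coe_sum, Submodule.coe_smul, map_sum, map_smulₛₗ] at e
    rw [← e]
    exact Submodule.sum_mem _ fun i _ =>
      Submodule.smul_mem _ _ (Submodule.subset_span ⟨i, rfl⟩)
  have h2 : Submodule.span Ω (Set.range y) ≤ Submodule.span Ω (Set.range fun i => j (b i)) := by
    rw [Submodule.span_le]
    rintro _ ⟨k, rfl⟩
    exact h1 (hy k)
  have : FiniteDimensional Ω (Submodule.span Ω (Set.range fun i => j (b i))) :=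
    FiniteDimensional.span_of_finite _ (Set.finite_range _)
  have h3 := Submodule.finrank_mono h2
  rw [finrank_span_eq_card h, Fintype.card_fin] at h3
  have h4 := finrank_range_le_card (R := Ω) fun i => j (b i)
  rw [Fintype.card_fin] at h4
  exact h3.trans h4

end lin

section abs

variable {K Ω V VE S SE Λ κ : Type} [Field K] [Infinite K] [Field Ω] [AddCommGroup V] [Module K V]
  [FiniteDimensional K V] [AddCommGroup VE] [Module Ω VE] [Ring S] [Algebra K S]
  [FiniteDimensional K S] [Ring SE] [Algebra Ω SE] [AddCommGroup Λ] [Module Ω Λ] [Fintype κ]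

theorem abs (φ : K →+* Ω) (jV : V →ₛₗ[φ] VE) (jS : S →+* SE)
    (hjS : ∀ (c : K) y, jS (c • y) = φ c • jS y) (hs : Submodule.span Ω (Set.range jV) = ⊤)
    (av : SE →ₗ[Ω] Λ) (A : S) (AE : SE) (hAE : jS A = AE) (C : Subalgebra K S)
    (hC : ∀ y, y ∈ C ↔ Commute y A) (π ς : S →ₗ[K] S)
    (hπ1 : ∀ y, y = π y + (ς y * A - A * ς y)) (hπ2 : ∀ y, Commute (π y) A)
    (hπ3 : ∀ ω, π (ω * A - A * ω) = 0) (hπ4 : ∀ y, Commute y A → π y = y)
    (D1 : V →ₗ[K] S) (D2 : V →ₗ[K] V →ₗ[K] S) (E1 : VE →ₗ[Ω] SE) (E2 : VE →ₗ[Ω] VE →ₗ[Ω] SE)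
    (h1 : ∀ δ, jS (D1 δ) = E1 (jV δ)) (h2 : ∀ δ δ', jS (D2 δ δ') = E2 (jV δ) (jV δ'))
    (hav0 : ∀ ω, av (ω * AE - AE * ω) = 0)
    (havc : ∀ y z, av y = 0 → Commute z AE → av (y * z) = 0)
    (hind : ∀ (n : ℕ) (y : Fin n → C), LinearIndependent K y →
      LinearIndependent Ω fun i => av (jS (y i)))
    (E : κ → V) (w1 : κ → S) (w2 : κ → κ → S) (B1 : κ → C) (B2 : κ → κ → C)
    (hE1 : ∀ α, D1 (E α) = (B1 α : S) + (w1 α * A - A * w1 α))
    (hE2 : ∀ α β, (B2 α β : S) = D2 (E α) (E β) + D1 (E α) * w1 β - w1 α * (B1 β : S) -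
      (w2 α β * A - A * w2 α β))
    (hsl : ∀ δ : V, ∃ (v : κ → K) (ω : S) (δi : V), δ = ∑ α, v α • E α + δi ∧
      D1 δi = ω * A - A * ω ∧ (∀ δ', ∃ δ'', D2 δi δ' = ω * D1 δ' - D1 δ'') ∧
      ∀ δ', ∃ δ'', D2 δ' δi = D1 δ'' - D1 δ' * ω)
    (r : ℕ) (e : Fin r → VE) (he : ∀ t, av (E1 (e t)) = 0) :
    ∃ e' : Fin r → κ → K, (∀ t, ∑ α, e' t α • B1 α = 0) ∧
      finrank Ω (Submodule.span Ω {v : Fin r → Λ | ∃ (δ : VE) (ω : SE) (δ'' : Fin r → VE),
        E1 δ = ω * AE - AE * ω ∧ ∀ t, v t = av (E2 (e t) δ + E1 (e t) * ω) + av (E1 (δ'' t))}) ≤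
      finrank K (Submodule.span K {v : Fin r → C | ∃ δ : κ → K, ∑ α, δ α • B1 α = 0 ∧
        ∃ u : Fin r → C, (∀ t, u t ∈ Submodule.span K (Set.range B1)) ∧
          ∀ t, v t = ∑ i, ∑ j, (e' t i * δ j) • B2 i j + u t}) := by
  classical
  subst hAE
  set G := {v : Fin r → Λ | ∃ (δ : VE) (ω : SE) (δ'' : Fin r → VE),
    E1 δ = ω * jS A - jS A * ω ∧ ∀ t, v t = av (E2 (e t) δ + E1 (e t) * ω) + av (E1 (δ'' t))}
  by_cases hfin : Module.Finite Ω (Submodule.span Ω G)
  swap
  · exact ⟨0, fun t => by simp, by rw [Module.finrank_of_not_finite hfin]; exact Nat.zero_le _⟩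
  let πc : S →ₗ[K] C := LinearMap.codRestrict (Subalgebra.toSubmodule C) π
    fun y => (hC _).2 (hπ2 y)
  have hπc : ∀ y, (πc y : S) = π y := fun _ => rfl
  have hπC : ∀ y : C, πc y = y := fun y => Subtype.ext (hπ4 _ ((hC _).1 y.2))
  have hπ0 : ∀ ω, πc (ω * A - A * ω) = 0 := fun ω => Subtype.ext (hπ3 ω)
  let jC : C →ₛₗ[φ] Λ :=
    { toFun := fun y => av (jS y)
      map_add' := fun y z => by simp
      map_smul' := fun c y => by simp [hjS] }
  have hj : ∀ y, jC (πc y) = av (jS y) := fun y => by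
    change av (jS (π y)) = _
    conv_rhs => rw [hπ1 y]
    simp only [map_add, map_sub jS, map_mul, hav0, add_zero]
  obtain ⟨n, ε, hε, hker⟩ := kerBC φ jV jC (πc ∘ₗ D1) (av ∘ₗ E1)
    (fun v => by simp only [LinearMap.comp_apply, hj, h1]) hs hind
  have hεA : ∀ δ, πc (D1 δ) = 0 → D1 δ = ς (D1 δ) * A - A * ς (D1 δ) := fun δ hδ => by
    have := hπ1 (D1 δ)
    rwa [← hπc, hδ, ZeroMemClass.coe_zero, zero_add] at this
  -- the structure of directions
  set U := Submodule.span K (Set.range B1)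
  have hE1' : ∀ v : κ → K, D1 (∑ α, v α • E α) = ((∑ α, v α • B1 α : C) : S) +
      ((∑ α, v α • w1 α) * A - A * ∑ α, v α • w1 α) := fun v => by
    simp only [map_sum, map_smul, hE1, smul_add, smul_sub, sum_add_distrib, sum_sub_distrib,
      sum_mul, mul_sum, smul_mul_assoc, mul_smul_comm, AddSubmonoidClass.coe_finsetSum,
      SetLike.val_smul]
  have hpi : ∀ (v : κ → K) (ω : S) (δi : V), D1 δi = ω * A - A * ω →
      πc (D1 (∑ α, v α • E α + δi)) = ∑ α, v α • B1 α := fun v ω δi h => by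
    rw [map_add, h, hE1', map_add, map_add, hπ0, hπ0, hπC, add_zero, add_zero]
  have hU : ∀ δ, πc (D1 δ) ∈ U := fun δ => by
    obtain ⟨v, ω, δi, rfl, h, -⟩ := hsl δ
    rw [hpi v ω δi h]
    exact Submodule.sum_mem _ fun α _ => Submodule.smul_mem _ _ (Submodule.subset_span ⟨α, rfl⟩)
  let Θ : V → V → C := fun x δ => πc (D2 x δ + D1 x * ς (D1 δ))
  have bil : ∀ (v v' : κ → K) (f g : κ → S), (∑ i, v i • f i) * (∑ j, v' j • g j) =
      ∑ i, ∑ j, (v i * v' j) • (f i * g j) := fun v v' f g => by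
    rw [sum_mul_sum]; simp only [smul_mul_smul_comm]
  have hB : ∀ v v' : κ → K, D2 (∑ i, v i • E i) (∑ j, v' j • E j) +
      D1 (∑ i, v i • E i) * ∑ j, v' j • w1 j = ((∑ i, ∑ j, (v i * v' j) • B2 i j : C) : S) +
      (∑ i, v i • w1 i) * ((∑ j, v' j • B1 j : C) : S) +
      ((∑ i, ∑ j, (v i * v' j) • w2 i j) * A - A * ∑ i, ∑ j, (v i * v' j) • w2 i j) := by
    intro v v'
    have e1 : D2 (∑ i, v i • E i) (∑ j, v' j • E j) =
        ∑ i, ∑ j, (v i * v' j) • D2 (E i) (E j) := by
      rw [LinearMap.map_sum₂]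
      refine sum_congr rfl fun i _ => ?_
      rw [LinearMap.map_smul₂, map_sum, smul_sum]
      refine sum_congr rfl fun j _ => ?_
      rw [map_smul, smul_smul]
    rw [e1, map_sum]
    simp only [map_smul, AddSubmonoidClass.coe_finsetSum, SetLike.val_smul]
    rw [bil, bil]
    simp only [hE2, sum_mul, mul_sum, smul_mul_assoc, mul_smul_comm, ← sum_add_distrib,
      ← sum_sub_distrib, smul_add, smul_sub]
    refine sum_congr rfl fun i _ => sum_congr rfl fun j _ => ?_
    abel
  have hΘ : ∀ δ, πc (D1 δ) = 0 → ∃ v' : κ → K, ∑ α, v' α • B1 α = 0 ∧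
      ∀ (v : κ → K) (ω : S) (δi : V), πc (D1 (∑ α, v α • E α + δi)) = 0 →
      D1 δi = ω * A - A * ω → (∀ δ', ∃ δ'', D2 δi δ' = ω * D1 δ' - D1 δ'') →
      ∃ u ∈ U, Θ (∑ α, v α • E α + δi) δ = ∑ i, ∑ j, (v i * v' j) • B2 i j + u := by
    intro δ hδ
    have hδ' := hεA δ hδ
    obtain ⟨v', ω₂, δj, hδe, hj1, -, hj3⟩ := hsl δ
    have hv' : ∑ α, v' α • B1 α = 0 := by rw [← hpi v' ω₂ δj hj1, ← hδe, hδ]
    refine ⟨v', hv', fun v ω δi hx hi1 hi2 => ?_⟩
    have hx' := hεA _ hx
    obtain ⟨δa, ha⟩ := hj3 (∑ α, v α • E α + δi)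
    obtain ⟨δb, hb⟩ := hi2 (∑ α, v' α • E α)
    have hEv := hE1' v'
    have hBv := hB v v'
    rw [hv', ZeroMemClass.coe_zero] at hEv hBv
    rw [zero_add] at hEv
    rw [mul_zero, add_zero] at hBv
    refine ⟨πc (D1 δa) - πc (D1 δb), sub_mem (hU _) (hU _), ?_⟩
    set x := ∑ α, v α • E α + δi with hxe
    set W' := ∑ α, v' α • w1 α
    set W2 := ∑ i, ∑ j, (v i * v' j) • w2 i j
    set z := W' + ω₂ - ς (D1 δ) with hz
    have hzA : z * A = A * z := by
      have e1 : D1 δ = W' * A - A * W' + (ω₂ * A - A * ω₂) := by rw [hδe, map_add, hEv, hj1]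
      rw [← sub_eq_zero]
      calc z * A - A * z = W' * A - A * W' + (ω₂ * A - A * ω₂) -
            (ς (D1 δ) * A - A * ς (D1 δ)) := by rw [hz]; noncomm_ring
        _ = 0 := by rw [← e1, ← hδ', sub_self]
    have hxz : D1 x * z = ς (D1 x) * z * A - A * (ς (D1 x) * z) := by
      conv_lhs => rw [hx']
      rw [mul_assoc (ς (D1 x)) z A, hzA]; noncomm_ring
    have e2 : D2 x δ = D2 (∑ α, v α • E α) (∑ α, v' α • E α) + D2 δi (∑ α, v' α • E α) +
        D2 x δj := by
      conv_lhs => rw [hδe, map_add]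
      rw [hxe, LinearMap.map_add₂]
    have e3 : D1 x = D1 (∑ α, v α • E α) + (ω * A - A * ω) := by rw [hxe, map_add, hi1]
    have e4 : D2 x δ + D1 x * ς (D1 δ) = ((∑ i, ∑ j, (v i * v' j) • B2 i j : C) : S) +
        (D1 δa - D1 δb) + ((W2 + ω * W' - ς (D1 x) * z) * A -
          A * (W2 + ω * W' - ς (D1 x) * z)) := by
      have e5 : ς (D1 δ) = W' + ω₂ - z := by rw [hz]; abel
      have e6 : D1 x * W' = D1 (∑ α, v α • E α) * W' + (ω * A - A * ω) * W' := by
        rw [e3, add_mul]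
      rw [e2, ha, hb, hEv, e5, mul_sub (D1 x), mul_add (D1 x), hxz, e6, ← sub_eq_zero]
      rw [← sub_eq_zero] at hBv
      rw [← hBv]
      noncomm_ring
    change πc _ = _
    rw [e4, map_add, hπ0, add_zero, map_add, hπC, map_sub]
  obtain ⟨y, hyG, -, hy⟩ := Submodule.exists_fun_fin_finrank_span_eq Ω G
  choose δ ω δ'' hδ hyv using hyG
  choose c₀ hc₀ using fun t => hker (e t) (he t)
  choose d hd using fun k => hker (δ k) (by rw [LinearMap.comp_apply, hδ k, hav0])
  let θ : Fin n → Fin n → Λ := fun i i' => jC (Θ (ε i) (ε i'))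
  have hθ : ∀ i i', θ i i' =
      av (E2 (jV (ε i)) (jV (ε i')) + E1 (jV (ε i)) * jS (ς (D1 (ε i')))) := fun i i' => by
    change jC (πc _) = _
    rw [hj, map_add jS, map_mul, h1, h2]
  let u : _ → Fin r → Λ := fun k t => av (E1 (δ'' k t))
  let z : _ → Fin r × Fin n → Fin r → Λ := fun k p => Pi.single p.1 (∑ i', d k i' • θ p.2 i')
  have hz : ∀ (c : Fin r × Fin n → Ω) k t, (∑ p, c p • z k p) t =
      ∑ i, ∑ i', (c (t, i) * d k i') • θ i i' := fun c k t => by
    rw [Finset.sum_apply, Fintype.sum_prod_type, sum_eq_single t]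
    · refine sum_congr rfl fun i _ => ?_
      simp only [z, Pi.smul_apply, Pi.single_eq_same, smul_sum, smul_smul]
    · intro t' _ ht
      refine sum_eq_zero fun i _ => ?_
      simp only [z, Pi.smul_apply, Pi.single_eq_of_ne (Ne.symm ht), smul_zero]
    · simp
  have hyz : ∀ k, y k = u k + ∑ p : Fin r × Fin n, c₀ p.1 p.2 • z k p := fun k => by
    funext t
    rw [Pi.add_apply, hz, hyv, add_comm]
    congr 1
    set ω₀ := ∑ i', d k i' • jS (ς (D1 (ε i'))) with hω₀
    have e1 : E1 (δ k) = ω₀ * jS A - jS A * ω₀ := by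
      rw [hd k, map_sum, hω₀, sum_mul, mul_sum, ← sum_sub_distrib]
      refine sum_congr rfl fun i _ => ?_
      rw [map_smul, ← h1, smul_mul_assoc, mul_smul_comm, ← smul_sub, ← map_mul, ← map_mul,
        ← map_sub, ← hεA _ (hε i)]
    have e2 : Commute (ω k - ω₀) (jS A) := by
      rw [Commute, SemiconjBy, ← sub_eq_zero]
      calc (ω k - ω₀) * jS A - jS A * (ω k - ω₀) =
            ω k * jS A - jS A * ω k - (ω₀ * jS A - jS A * ω₀) := by noncomm_ring
        _ = 0 := by rw [← hδ, ← e1, sub_self]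
    have e3 := havc _ _ (he t) e2
    rw [mul_sub, map_sub, sub_eq_zero] at e3
    rw [map_add, e3, ← map_add, hc₀ t, hd k, hω₀, LinearMap.map_sum₂, map_sum E1, sum_mul,
      ← sum_add_distrib, map_sum]
    refine sum_congr rfl fun i _ => ?_
    rw [LinearMap.map_smul₂, map_smul, smul_mul_assoc, ← smul_add, map_smul, map_sum, mul_sum,
      ← sum_add_distrib, map_sum, smul_sum]
    refine sum_congr rfl fun i' _ => ?_
    rw [map_smul, mul_smul_comm, ← smul_add, map_smul, hθ, smul_smul]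
  obtain ⟨c, hc⟩ := genInd φ u z (fun p => c₀ p.1 p.2) (by simpa only [← hyz] using hy)
  let x : Fin r → V := fun t => ∑ i, c (t, i) • ε i
  have hx0 : ∀ t, πc (D1 (x t)) = 0 := fun t => by
    simp only [x, map_sum, map_smul]
    exact sum_eq_zero fun i _ => by rw [show πc (D1 (ε i)) = 0 from hε i, smul_zero]
  choose v ω₁ δi hx hi1 hi2 _ using fun t => hsl (x t)
  refine ⟨v, fun t => by rw [← hpi _ _ _ (hi1 t), ← hx, hx0], ?_⟩
  let jr : (Fin r → C) →ₛₗ[φ] (Fin r → Λ) :=
    { toFun := fun y t => jC (y t)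
      map_add' := fun y z => by funext t; simp
      map_smul' := fun c y => by funext t; simp [map_smulₛₗ] }
  refine card_le φ jr _ _ hc fun k => add_mem ?_ ?_
  · rw [← Finset.univ_sum_single (u k)]
    refine Submodule.sum_mem _ fun t _ => ?_
    have hm : δ'' k t ∈ Submodule.span Ω (Set.range jV) := hs ▸ Submodule.mem_top
    simp only [u]
    generalize δ'' k t = w at hm
    induction hm using Submodule.span_induction with
    | mem w hw =>
      obtain ⟨w, rfl⟩ := hw
      refine Submodule.subset_span ⟨Pi.single t (πc (D1 w)), Submodule.subset_span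
        ⟨0, by simp, Pi.single t (πc (D1 w)), fun t' => ?_, fun t' => by simp⟩, ?_⟩
      · by_cases ht : t' = t
        · rw [ht, Pi.single_eq_same]; exact hU w
        · rw [Pi.single_eq_of_ne ht]; exact zero_mem _
      · funext t'
        change jC _ = _
        by_cases ht : t' = t
        · rw [ht, Pi.single_eq_same, Pi.single_eq_same, hj, h1]
        · rw [Pi.single_eq_of_ne ht, Pi.single_eq_of_ne ht, map_zero]
    | zero => simp
    | add w w' _ _ hw hw' => rw [map_add, map_add, Pi.single_add]; exact add_mem hw hw'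
    | smul a w _ hw => rw [map_smul, map_smul, Pi.single_smul]; exact Submodule.smul_mem _ _ hw
  · have : ∑ p, φ (c p) • z k p = ∑ i', d k i' • jr fun t => Θ (x t) (ε i') := by
      funext t
      rw [hz, sum_comm, Finset.sum_apply]
      refine sum_congr rfl fun i' _ => ?_
      have : Θ (x t) (ε i') = ∑ i, c (t, i) • Θ (ε i) (ε i') := by
        simp only [Θ, x]
        rw [LinearMap.map_sum₂, map_sum D1, sum_mul, ← sum_add_distrib, map_sum]
        refine sum_congr rfl fun i _ => ?_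
        rw [LinearMap.map_smul₂, map_smul, smul_mul_assoc, ← smul_add, map_smul]
      change _ = d k i' • jC (Θ (x t) (ε i'))
      rw [this, map_sum, smul_sum]
      refine sum_congr rfl fun i _ => ?_
      rw [map_smulₛₗ, smul_smul, mul_comm]
    rw [this]
    refine Submodule.sum_mem _ fun i' _ => Submodule.smul_mem _ _
      (Submodule.subset_span ⟨_, Submodule.subset_span ?_, rfl⟩)
    obtain ⟨v', hv', hv⟩ := hΘ (ε i') (hε i')
    choose uu huu huu' using fun t => hv (v t) (ω₁ t) (δi t) (by rw [← hx, hx0]) (hi1 t) (hi2 t)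
    exact ⟨v', hv', uu, huu, fun t => by rw [← huu', ← hx]⟩

end abs

section jets

variable {A R ι K V : Type} [Ring A] [Ring R] [Fintype ι] [DecidableEq ι] [CommRing K]
  [Algebra K R] [AddCommGroup V] [Module K V] {J : Filt R} {ρ : A →+* R} {X : ι → R}

lemma smul_eq (c : K) (δ : ι → R) : c • δ = fun i => algebraMap K R c * δ i := by
  funext i; rw [Pi.smul_apply, Algebra.smul_def]

/-- the first derivative as a linear map -/
noncomputable def d1L (jet : JetAPI J ρ X) (f : NC A ι) (u : V →ₗ[K] ι → R)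
    (hu : ∀ v, Dir ρ (u v)) : V →ₗ[K] R where
  toFun v := D1 J ρ X f (u v)
  map_add' v v' := by rw [map_add, jet.d1_add' f _ _ (hu v) (hu v')]
  map_smul' c v := by
    rw [map_smul, smul_eq, jet.d1_smul f _ _ (hu v) (Algebra.commutes c), RingHom.id_apply,
      Algebra.smul_def]

/-- the second derivative as a bilinear map -/
noncomputable def d2L (jet : JetAPI J ρ X) (f : NC A ι) (u : V →ₗ[K] ι → R)
    (hu : ∀ v, Dir ρ (u v)) : V →ₗ[K] V →ₗ[K] R :=
  LinearMap.mk₂ K (fun v v' => D2 J ρ X f (u v) (u v'))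
    (fun v₁ v₂ v' => by rw [map_add, jet.d2_add_left f _ _ _ (hu _) (hu _) (hu _)])
    (fun c v v' => by
      rw [map_smul, smul_eq, jet.d2_smul_left f _ _ _ (hu _) (hu _) (Algebra.commutes c),
        Algebra.smul_def])
    (fun v v₁ v₂ => by rw [map_add, jet.d2_add_right f _ _ _ (hu _) (hu _) (hu _)])
    (fun c v v' => by
      rw [map_smul, smul_eq, jet.d2_smul_right f _ _ _ (hu _) (hu _) (Algebra.commutes c),
        Algebra.smul_def])

end jets

end JTx

open JTx Finset Module in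
theorem jobJT (hSS : JobSS) (hJet : JobJet) (hM : JobMorB) (hE : JobExtK) (hA : JobAvg)
    (hS : JobSpl) : JobJT := by
  intro a p ξ sl nf N hc api r e he
  obtain ⟨hpt, hcm, hqs, -⟩ := hM.2.2.2.2.2.2.2 p ξ a.D
  obtain ⟨-, -, hjS, hjQ, hind, hsp, hξ⟩ := hS a p hc
  obtain ⟨hAE, h1, h2⟩ := hξ ξ
  obtain ⟨-, hE1, hE2⟩ := (hE a p ξ sl).2 nf
  obtain ⟨a1, a2, a3, -, -, a6, a7⟩ := @hA (Om a.F) (a.Emb → Om a.F) _ _ _ _ p.q _
  obtain ⟨π, ς, hπ1, hπ2, hπ3, hπ4⟩ := (@hSS (La (La a.F)) (Sh a.D p) _ _ _ _ _ _).1 (AA p ξ a.B)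
  have jet := hJet _ _ _ hpt
  have jetE := hJet _ _ _ api.pt
  let uS : (a.ι → Sh a.F p) →ₗ[La (La a.F)] a.ι → Sh a.D p :=
    { toFun := fun δ i => qMap a.D p (δ i)
      map_add' := fun δ δ' => by funext i; exact map_add _ _ _
      map_smul' := fun c δ => by funext i; exact hqs c _ }
  have huS : ∀ δ, Dir (shC a.D p) (uS δ) := fun δ x i => hcm _ x
  let uE : (a.ι → EE (Om a.F) p.q) →ₗ[La (Om a.F)] a.ι → EE (a.Emb → Om a.F) p.q :=
    { toFun := up a.Emb
      map_add' := fun δ δ' => by funext i; exact map_add _ _ _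
      map_smul' := fun c δ => by funext i; exact a7 c _ }
  let jV : (a.ι → Sh a.F p) →ₛₗ[a.phi1 p] a.ι → EE (Om a.F) p.q :=
    { toFun := fun δ i => a.jQ p (δ i)
      map_add' := fun δ δ' => by funext i; exact map_add _ _ _
      map_smul' := fun c δ => by funext i; exact hjQ c _ }
  let av : EE (a.Emb → Om a.F) p.q →ₗ[La (Om a.F)] Lq (a.Emb → Om a.F) p.q :=
    { toFun := fun y => avg (Om a.F) (N.w' * y * N.w)
      map_add' := fun y z => by rw [mul_add, add_mul, a1]
      map_smul' := fun c y => by rw [mul_smul_comm, smul_mul_assoc, a2, RingHom.id_apply] }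
  have hav : ∀ y, av y = avg (Om a.F) (N.w' * y * N.w) := fun _ => rfl
  have hmul : ∀ y z, N.w' * (y * z) * N.w = N.w' * y * N.w * (N.w' * z * N.w) := fun y z => by
    calc N.w' * (y * z) * N.w = N.w' * y * (N.w * N.w') * z * N.w := by
          rw [N.mul1]; simp only [mul_one, mul_assoc]
      _ = _ := by simp only [mul_assoc]
  have hC : ∀ y, y ∈ Cent p ξ a.B ↔ Commute y (AA p ξ a.B) := fun y => by
    rw [Subalgebra.mem_centralizer_iff]
    simp only [Set.mem_singleton_iff, forall_eq]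
    exact eq_comm
  have hinf : Infinite (La (La a.F)) := Infinite.of_injective _ Nat.cast_injective
  refine abs (a.phi1 p) jV (a.jSh p) hjS ?_ av (AA p ξ a.B) _ hAE (Cent p ξ a.B) hC π ς hπ1 hπ2 hπ3
    hπ4 (d1L jet a.B uS huS) (d2L jet a.B uS huS) (d1L jetE a.bb uE api.dir)
    (d2L jetE a.bb uE api.dir) h1 h2 (fun ω => ?_) (fun y z hy hz => ?_) (fun n y hy => ?_) sl.E
    (fun α => nf.w.co [α]) (fun α β => nf.w.co [α, β]) (fun α => nf.B'.co [α])
    (fun α β => nf.B'.co [α, β]) hE1 hE2 (fun δ => ?_) r e he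
  · rw [eq_top_iff]
    intro δ _
    rw [← Finset.univ_sum_single δ]
    refine Submodule.sum_mem _ fun i _ => ?_
    have hm : δ i ∈ Submodule.span (La (Om a.F)) (Set.range (a.jQ p)) := hsp ▸ Submodule.mem_top
    generalize δ i = w at hm
    induction hm using Submodule.span_induction with
    | mem w hw =>
      obtain ⟨w, rfl⟩ := hw
      refine Submodule.subset_span ⟨Pi.single i w, funext fun i' => ?_⟩
      change a.jQ p _ = _
      by_cases hi : i' = i
      · rw [hi, Pi.single_eq_same, Pi.single_eq_same]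
      · rw [Pi.single_eq_of_ne hi, Pi.single_eq_of_ne hi, map_zero]
    | zero => simp
    | add w w' _ _ hw hw' => rw [Pi.single_add]; exact add_mem hw hw'
    | smul c w _ hw => rw [Pi.single_smul]; exact Submodule.smul_mem _ _ hw
  · rw [map_sub, hav, hav, hmul, hmul, N.eq, (a3 _ _).1, (a3 _ _).2, mul_comm, sub_self]
  · rw [hav, hmul, api.cent z hz, (a3 _ _).2, ← hav y, hy, zero_mul]
  · let cE : Lq (a.Emb → Om a.F) p.q →ₗ[La (Om a.F)] EE (a.Emb → Om a.F) p.q :=
      { toFun := fun c => N.w * cstE _ _ c * N.w'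
        map_add' := fun y z => by rw [map_add, mul_add, add_mul]
        map_smul' := fun c y => by rw [a6, mul_smul_comm, smul_mul_assoc, RingHom.id_apply] }
    refine LinearIndependent.of_comp cE ?_
    have := hind n _ (hy.map' (Cent p ξ a.B).val.toLinearMap
      (LinearMap.ker_eq_bot.2 Subtype.val_injective))
    convert this using 1
    funext i
    have hcom : Commute (a.jSh p (y i)) (AE a.bb (xOf p (a.th p.q) ξ)) :=
      hAE ▸ ((hC _).1 (y i).2).map (a.jSh p)
    change N.w * cstE _ _ (avg (Om a.F) (N.w' * a.jSh p (y i) * N.w)) * N.w' = a.jSh p (y i)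
    rw [← api.cent _ hcom]
    calc N.w * (N.w' * a.jSh p (y i) * N.w) * N.w' =
          N.w * N.w' * a.jSh p (y i) * (N.w * N.w') := by simp only [mul_assoc]
      _ = _ := by rw [N.mul1, one_mul, mul_one]
  · obtain ⟨v, ω, hv⟩ := sl.span δ
    have hu : uS (fun i => ω * XQ p ξ i - XQ p ξ i * ω) =
        fun i => qMap a.D p ω * XA p ξ a.D i - XA p ξ a.D i * qMap a.D p ω := by
      funext i
      change qMap a.D p _ = _
      rw [map_sub, map_mul, map_mul]; rfl
    refine ⟨v, qMap a.D p ω, fun i => ω * XQ p ξ i - XQ p ξ i * ω, funext fun i => ?_, ?_,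
      fun δ' => ⟨fun i => ω * δ' i, ?_⟩, fun δ' => ⟨fun i => δ' i * ω, ?_⟩⟩
    · rw [hv i, Pi.add_apply, Finset.sum_apply]; rfl
    · change D1 _ _ _ _ (uS _) = _
      rw [hu, jet.inn1 _ _ fun x => hcm ω x]; rfl
    · change D2 _ _ _ _ (uS _) (uS _) = _ * D1 _ _ _ _ (uS _) - D1 _ _ _ _ (uS _)
      rw [hu, jet.inn2_left _ _ _ (fun x => hcm ω x) (huS _)]
      congr 2
      funext i
      exact (map_mul (qMap a.D p) _ _).symm
    · change D2 _ _ _ _ (uS _) (uS _) = D1 _ _ _ _ (uS _) - D1 _ _ _ _ (uS _) * _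
      rw [hu, jet.inn2_right _ _ _ (fun x => hcm ω x) (huS _)]
      congr 2
      funext i
      exact (map_mul (qMap a.D p) _ _).symm

end Crest.Agent.KU
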