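import Crest.Agent.KU.Ev

/-! Job Jet: the calculus of jets. -/

set_option autoImplicit false

namespace Crest.Agent.KU

open Finset NC Evl

namespace Jt

variable {A R ι : Type} [Ring A] [Ring R] [Fintype ι] {J : Filt R} {ρ : A →+* R} {Y : ι → R}

variable (J) in
/-- additive and continuous -/
structure Gd (T : NC A ι → R) : Prop where
  add : ∀ f g, T (f + g) = T f + T g
  cont : ∀ n : ℤ, ∃ d : ℕ, ∀ f ∈ ordGe A ι d, T f ∈ J.I n

omit [Fintype ι] in
lemma Gd.plus {S T : NC A ι → R} (hS : Gd J S) (hT : Gd J T) : Gd J fun f => S f + T f :=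
  ⟨fun f g => by rw [hS.add, hT.add]; abel, fun n => by
    obtain ⟨d, hd⟩ := hS.cont n
    obtain ⟨e, he⟩ := hT.cont n
    exact ⟨max d e, fun f hf => add_mem (hd f (ordGe_anti (le_max_left _ _) hf))
      (he f (ordGe_anti (le_max_right _ _) hf))⟩⟩

omit [Fintype ι] in
lemma Gd.left {T : NC A ι → R} (h : Pt J ρ Y) (hT : Gd J T) (r : R) : Gd J fun f => r * T f :=
  ⟨fun f g => by rw [hT.add, mul_add], fun n => by
    obtain ⟨m, hm⟩ := h.exh r
    exact (hT.cont (n - m)).imp fun d hd f hf => by simpa using J.mul_mem hm (hd f hf)⟩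

omit [Fintype ι] in
lemma Gd.right {T : NC A ι → R} (h : Pt J ρ Y) (hT : Gd J T) (r : R) : Gd J fun f => T f * r :=
  ⟨fun f g => by rw [hT.add, add_mul], fun n => by
    obtain ⟨m, hm⟩ := h.exh r
    exact (hT.cont (n - m)).imp fun d hd f hf => by simpa using J.mul_mem (hd f hf) hm⟩

omit [Fintype ι] in
lemma Gd.minus {S T : NC A ι → R} (h : Pt J ρ Y) (hS : Gd J S) (hT : Gd J T) :
    Gd J fun f => S f - T f := by
  simpa [sub_eq_add_neg] using hS.plus (hT.left h (-1))

lemma ind {S T : NC A ι → R} (h : Pt J ρ Y) (hS : Gd J S) (hT : Gd J T) (hC : ∀ a, S (C a) = T (C a))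
    (hX : ∀ i f, S f = T f → S (X i * f) = T (X i * f)) (f : NC A ι) : S f = T f := by
  refine sub_eq_zero.1 (dens J (.mk' _ (hS.minus h hT).add) (hS.minus h hT).cont (fun w a => ?_) f)
  refine sub_eq_zero.2 ?_
  induction w with
  | nil => simpa using hC a
  | cons i w ih =>
    rw [List.map_cons, List.prod_cons, ← mul_assoc, (C_comm_X a i).eq, mul_assoc]
    exact hX i _ ih

lemma gd {κ : Type} {y : ι → NC R κ} (e : IsEv J ρ y (ev J ρ y)) (w : List κ) :
    Gd J fun f => (ev J ρ y f).co w := ⟨fun f g => by simp, e.cont w⟩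

lemma isEv (h : Pt J ρ Y) {κ : Type} {E : κ → ι → R} (hE : ∀ α, Dir ρ (E α)) :
    IsEv J ρ (linSub Y E) (ev J ρ (linSub Y E)) :=
  ((jobEv J ρ).1 _ _ (adm_lin h hE (exists_m h E).choose_spec)).1

lemma lead {d : ℕ} {f : NC A ι} (hf : f ∈ ordGe A ι d) : f - ∑ u : Fin d → ι,
    C (f.co (List.ofFn u)) * ((List.ofFn u).map X).prod ∈ ordGe A ι (d + 1) := fun w hw => by
  simp only [co_sub, co_sum, C_mul_prod, mon, sub_eq_zero]
  rcases (Nat.lt_succ_iff.1 hw).eq_or_lt with rfl | h
  · rw [sum_eq_single w.get (fun v _ hv => if_neg fun e => hv (List.ofFn_injective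
      (e.symm.trans (List.ofFn_get w).symm))) (by simp)]
    simp
  · rw [hf w h, sum_eq_zero fun u _ => if_neg fun e => by simp [e] at h]

section
variable (h : Pt J ρ Y) {κ : Type} {E : κ → ι → R} (hE : ∀ α, Dir ρ (E α))
include h

lemma e_C (a : A) : evX J ρ Y (C a) = ρ a := by
  simp [evX, ((jobEv J ρ).1 _ _ (adm_C h)).1.const]

lemma e_X (i : ι) : evX J ρ Y (X i) = Y i := by
  simp [evX, ((jobEv J ρ).1 _ _ (adm_C h)).1.var]

lemma e_gd : Gd J (evX J ρ Y) := gd ((jobEv J ρ).1 _ _ (adm_C h)).1 []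

include hE

lemma co_nil (f : NC A ι) : (ev J ρ (linSub Y E) f).co [] = evX J ρ Y f :=
  ind h (gd (isEv h hE) []) (e_gd h) (fun a => by simp [(isEv h hE).const, e_C h])
    (fun i f hf => by simp [(isEv h hE).var, e_X h, hf, linSub]) f

lemma one_X (α : κ) (i : ι) (f : NC A ι) : (ev J ρ (linSub Y E) (X i * f)).co [α] =
    E α i * evX J ρ Y f + Y i * (ev J ρ (linSub Y E) f).co [α] := by
  simp [(isEv h hE).var, mul_single, co_nil h hE, linSub, add_comm]

lemma two_X (α β : κ) (i : ι) (f : NC A ι) : (ev J ρ (linSub Y E) (X i * f)).co [α, β] =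
    E α i * (ev J ρ (linSub Y E) f).co [β] + Y i * (ev J ρ (linSub Y E) f).co [α, β] := by
  rw [map_mul, mul_pair, (isEv h hE).var]
  simp [linSub, add_comm]

end

section
variable (h : Pt J ρ Y) {δ δ' : ι → R} (hδ : Dir ρ δ)
include h hδ

lemma d1_gd : Gd J fun f => D1 J ρ Y f δ := gd (isEv h fun _ => hδ) _

lemma d1_C (a : A) : D1 J ρ Y (C a) δ = 0 := by simp [D1, (isEv h fun _ : Unit => hδ).const]

lemma d1_X (i : ι) (f : NC A ι) : D1 J ρ Y (X i * f) δ = δ i * evX J ρ Y f + Y i * D1 J ρ Y f δ :=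
  one_X h (fun _ => hδ) () i f

lemma co_one {κ : Type} {E : κ → ι → R} (hE : ∀ α, Dir ρ (E α)) {α : κ} (e : E α = δ) (f : NC A ι) :
    (ev J ρ (linSub Y E) f).co [α] = D1 J ρ Y f δ :=
  ind h (gd (isEv h hE) _) (d1_gd h hδ) (fun a => by simp [(isEv h hE).const, d1_C h hδ])
    (fun i f hf => by rw [one_X h hE, d1_X h hδ, hf, e]) f

lemma d1_mem {d : ℕ} {m : ℤ} (hm : ∀ i, δ i ∈ J.I m) {f : NC A ι} (hf : f ∈ ordGe A ι d) :
    D1 J ρ Y f δ ∈ J.I (d - 1 + m) := by
  have := ((jobEv J ρ).1 _ _ (adm_lin h (fun _ : Unit => hδ) (m := fun _ => m) fun _ => hm)).2 d f hf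
    [()]
  exact J.anti (by simp; omega) this

variable (hδ' : Dir ρ δ')
include hδ'

omit h [Fintype ι] in
lemma dir2 (b : Bool) : Dir ρ (cond b δ' δ) := by cases b <;> assumption

lemma d2_gd : Gd J fun f => D2 J ρ Y f δ δ' := gd (isEv h (dir2 hδ hδ')) _

lemma d2_C (a : A) : D2 J ρ Y (C a) δ δ' = 0 := by simp [D2, (isEv h (dir2 hδ hδ')).const]

lemma d2_X (i : ι) (f : NC A ι) :
    D2 J ρ Y (X i * f) δ δ' = δ i * D1 J ρ Y f δ' + Y i * D2 J ρ Y f δ δ' := by
  rw [D2, two_X h (dir2 hδ hδ'), co_one h hδ' (dir2 hδ hδ') rfl]; rfl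

end

lemma d1_mon (h : Pt J ρ Y) {δ : ι → R} (hδ : Dir ρ δ) (a : A) {d : ℕ} (u : Fin d → ι) :
    D1 J ρ Y (C a * ((List.ofFn u).map X).prod) δ =
      ∑ p : Fin d, ρ a * (List.ofFn fun r => if r = p then δ (u r) else Y (u r)).prod := by
  induction d with
  | zero => simp [d1_C h hδ]
  | succ d ih =>
    rw [List.ofFn_succ, List.map_cons, List.prod_cons, ← mul_assoc, (C_comm_X a _).eq, mul_assoc,
      d1_X h hδ, ih, Fin.sum_univ_succ, mul_sum]
    simp [map_list_prod, List.map_ofFn, Function.comp_def, e_C h, e_X h, ← mul_assoc,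
      (hδ a _).eq, (h.comm a _).eq, (Fin.succ_ne_zero _).symm]

end Jt

open Jt

theorem jobJet : JobJet := by
  intro A R ι _ _ _ _ J ρ Y h
  have da : ∀ {δ δ' : ι → R}, Dir ρ δ → Dir ρ δ' → Dir ρ (δ + δ') := fun a b c i =>
    (a c i).add_right (b c i)
  have dl : ∀ {δ : ι → R} {z : R}, Dir ρ δ → (∀ a, Commute (ρ a) z) → Dir ρ fun i => z * δ i :=
    fun a b c i => (b c).mul_right (a c i)
  have dr : ∀ {δ : ι → R} {z : R}, Dir ρ δ → (∀ a, Commute (ρ a) z) → Dir ρ fun i => δ i * z :=
    fun a b c i => (a c i).mul_right (b c)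
  have di : ∀ {z : R}, (∀ a, Commute (ρ a) z) → Dir ρ fun i => z * Y i - Y i * z :=
    fun b c i => ((b c).mul_right (h.comm c i)).sub_right ((h.comm c i).mul_right (b c))
  have em : ∀ d : ℕ, ∀ f ∈ ordGe A ι d, evX J ρ Y f ∈ J.I d := fun d f hf => by
    simpa [evX] using ((jobEv J ρ).1 _ _ (adm_C h)).2 d f hf []
  have sub : ∀ {T : NC A ι → R}, Gd J T → ∀ {κ : Type} [Fintype κ] f (g : κ → NC A ι),
      T (f - ∑ u, g u) = T f - ∑ u, T (g u) := fun {T} hT κ _ f g => by
    exact (map_sub (AddMonoidHom.mk' T hT.add) f _).trans (by rw [map_sum]; rfl)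
  refine
    { adm := fun E hE => ⟨_, adm_lin h hE (exists_m h E).choose_spec⟩
      co_nil := fun E hE => co_nil h hE
      co_one := fun E hE f α => co_one h (hE α) hE rfl f
      co_two := fun E hE f α β => ind h (gd (isEv h hE) _) (d2_gd h (hE α) (hE β))
        (fun a => by simp [(isEv h hE).const, d2_C h (hE α) (hE β)])
        (fun i f hf => by rw [two_X h hE, d2_X h (hE α) (hE β), hf, co_one h (hE β) hE rfl]) f
      ev_C := e_C h
      ev_X := e_X h
      d1_C := fun a δ hδ => d1_C h hδ a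
      d1_X := fun i δ hδ => by
        have := d1_X h hδ i (C 1)
        rw [d1_C h hδ] at this
        simpa using this
      d1_add := fun f g δ => by simp [D1]
      d1_mul := fun f g δ hδ => by
        simp only [D1, map_mul, mul_single, co_nil h fun _ : Unit => hδ, add_comm]
      d1_add' := fun f δ δ' a b => ind h (d1_gd h (da a b)) ((d1_gd h a).plus (d1_gd h b))
        (fun c => by simp [d1_C h, a, b, da]) (fun i f hf => by
          simp only [d1_X h, a, b, da, hf, Pi.add_apply]; noncomm_ring) f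
      d1_smul := fun f δ z a b => ind h (d1_gd h (dl a fun c => (b _).symm)) ((d1_gd h a).left h z)
        (fun c => by simp [d1_C h a, d1_C h (dl a fun c => (b _).symm)]) (fun i f hf => by
          rw [d1_X h a, d1_X h (dl a fun c => (b _).symm), hf, ← mul_assoc (Y i), ← (b _).eq]
          noncomm_ring) f
      d2_add_left := fun f δ₁ δ₂ δ' a b c => ind h (d2_gd h (da a b) c)
        ((d2_gd h a c).plus (d2_gd h b c)) (fun c => by simp [d2_C h, *]) (fun i f hf => by
          simp only [d2_X h, a, b, c, da, hf, Pi.add_apply]; noncomm_ring) f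
      d2_add_right := fun f δ δ₁ δ₂ c a b => ?_
      d2_smul_left := fun f δ δ' z a c b => ind h (d2_gd h (dl a fun c => (b _).symm) c)
        ((d2_gd h a c).left h z)
        (fun _ => by simp [d2_C h a c, d2_C h (dl a fun c => (b _).symm) c]) (fun i f hf => by
          rw [d2_X h a c, d2_X h (dl a fun c => (b _).symm) c, hf, ← mul_assoc (Y i), ← (b _).eq]
          noncomm_ring) f
      d2_smul_right := fun f δ δ' z c a b => ?_
      ev_mem := em
      d1_mem := fun d m δ hδ hm f hf => d1_mem h hδ hm hf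
      d1_mem' := fun m δ hδ hm f => ?_
      d2_mem := fun m m' δ δ' a b hm hm' f => ?_
      ev_lead := fun d f hf => ?_
      d1_lead := fun d m δ hδ hm f hf => ?_
      inn1 := fun f ω b => ?_
      inn2_left := fun f ω δ' b a => ?_
      inn2_right := fun f ω δ b a => ?_ }
  · refine ind h (d2_gd h c (da a b)) ((d2_gd h c a).plus (d2_gd h c b))
      (fun c => by simp [d2_C h, *]) (fun i f hf => ?_) f
    rw [d2_X h c (da a b), d2_X h c a, d2_X h c b, hf, ind h (d1_gd h (da a b))
      ((d1_gd h a).plus (d1_gd h b)) (fun c => by simp [d1_C h, a, b, da]) (fun i f hf => by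
          simp only [d1_X h, a, b, da, hf, Pi.add_apply]; noncomm_ring) f]
    noncomm_ring
  · refine ind h (d2_gd h c (dl a fun c => (b _).symm)) ((d2_gd h c a).left h z)
      (fun _ => by simp [d2_C h c a, d2_C h c (dl a fun c => (b _).symm)]) (fun i f hf => ?_) f
    rw [d2_X h c a, d2_X h c (dl a fun c => (b _).symm), hf, ind h
      (d1_gd h (dl a fun c => (b _).symm)) ((d1_gd h a).left h z)
        (fun c => by simp [d1_C h a, d1_C h (dl a fun c => (b _).symm)]) (fun i f hf => by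
          rw [d1_X h a, d1_X h (dl a fun c => (b _).symm), hf, ← mul_assoc (Y i), ← (b _).eq]
          noncomm_ring) f, ← mul_assoc (Y i), ← (b _).eq, ← mul_assoc (δ i), ← (b _).eq]
    noncomm_ring
  · have := d1_mem h hδ hm (lead (mem_ordGe_zero f))
    rw [sub (d1_gd h hδ)] at this
    simpa [d1_C h hδ] using this
  · have := ((jobEv J ρ).1 _ _ (adm_lin h (dir2 a b) (m := fun t => cond t m' m)
      fun t => by cases t <;> assumption)).2 _ _ (lead (lead (mem_ordGe_zero f))) [false, true]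
    change D2 J ρ Y _ δ δ' ∈ _ at this
    rw [sub (d2_gd h a b), sub (d2_gd h a b)] at this
    simp only [List.ofFn_succ, List.ofFn_zero, List.map_cons, List.map_nil, List.prod_cons,
      List.prod_nil, mul_one, (C_comm_X _ _).eq, d2_X h a b, d2_C h a b, d1_C h b] at this
    refine J.anti ?_ (by simpa using this)
    omega
  · have := em _ _ (lead hf)
    simpa [map_list_prod, List.map_ofFn, Function.comp_def, e_C h, e_X h] using this
  · have := d1_mem h hδ hm (lead hf)
    rw [sub (d1_gd h hδ)] at this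
    simp only [d1_mon h hδ] at this
    exact J.anti (by push_cast; omega) this
  · refine ind h (d1_gd h (di b)) (((e_gd h).left h ω).minus h ((e_gd h).right h ω))
      (fun c => by simp [d1_C h (di b), e_C h, (b c).eq]) (fun i f hf => ?_) f
    rw [d1_X h (di b), hf, map_mul, e_X h]
    noncomm_ring
  · refine ind h (d2_gd h (di b) a) (((d1_gd h a).left h ω).minus h (d1_gd h (dl a b)))
      (fun c => by simp [d1_C h a, d1_C h (dl a b), d2_C h (di b) a]) (fun i f hf => ?_) f
    rw [d2_X h (di b) a, hf, d1_X h a, d1_X h (dl a b)]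
    noncomm_ring
  · refine ind h (d2_gd h a (di b)) ((d1_gd h (dr a b)).minus h ((d1_gd h a).right h ω))
      (fun c => by simp [d1_C h a, d1_C h (dr a b), d2_C h a (di b)]) (fun i f hf => ?_) f
    rw [d2_X h a (di b), hf, d1_X h a, d1_X h (dr a b), ind h (d1_gd h (di b))
      (((e_gd h).left h ω).minus h ((e_gd h).right h ω))
      (fun c => by simp [d1_C h (di b), e_C h, (b c).eq]) (fun i f hf => by
        rw [d1_X h (di b), hf, map_mul, e_X h]
        noncomm_ring) f]
    noncomm_ring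

end Crest.Agent.KU
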