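import Crest.Agent.KU.Defs

/-! # Row 180 (S0270): job statements

Overall proof.  A state is `S = D⟨⟨t⟩⟩` (`D/F` finite-dimensional division algebra).  `JobKey`:
every `a ∈ S` becomes algebraic after a morphism of states (`IsMor`: keeps generation mod `𝔪²`).
The tower of states has as colimit of the subalgebras generated by `x, y` an algebraic domain that
is not PI (`JobFinal`).  To make `a = w (a₀ + B) w⁻¹` algebraic one kills `B`: *extensions*
`tᵢ ↦ ξᵢ s + ∑ E t'` into `D♯ = D((s₁))((s;σ))` at a generic `ξ` never increase the invariants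
`m0` (Phase 1), `nu`, `h` (Phase 2); when they are stable, `B` has enough formal identities
(`R1`) and a nondegenerate quadratic part (`Jr`) to be killed by a substitution into two free
variables (`JobSolve`).

Each job is a `Prop`; prove `theorem jobX (h₁ : JobA) … : JobX` taking the jobs you use as
hypotheses (or import the file that proves them once it has landed). -/

set_option autoImplicit false
set_option linter.unusedSectionVars false

namespace Crest.Agent.KU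

open Finset Module Polynomial

/-! ## Level 0: series -/

/-- **Ev** (file Ev.lean).  Existence: in the complete filtration `J.nc ι' c` put
`xₙ = ∑_{|w|=n} C(ρ(f w)) * (w.map y).prod ∈ I n` (sum over `Fin n → ι`, `List.ofFn`) and let `Φ f` be the sum given by
`complete`; it is characterised by `Φ f - ∑_{i<n} xᵢ ∈ I n` (`Filt.eq_of_forall`); multiplicativity: Cauchy product of
truncations mod `I n`.  `dens`: `f - ∑_{|w|<d} mon w (f w) ∈ ordGe d`. -/
def JobEv : Prop := ∀ {A R ι ι' : Type} [Ring A] [Ring R] [Fintype ι] (J : Filt R) (ρ : A →+* R),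
  (∀ (y : ι → NC R ι') (c : ι' → ℤ), Adm J ρ y c → IsEv J ρ y (ev J ρ y) ∧
    ∀ (d : ℕ), ∀ f ∈ NC.ordGe A ι d, ∀ w, (ev J ρ y f).co w ∈ J.I (d - (w.map c).sum)) ∧
  (∀ (y : ι → NC R ι') (Φ Ψ : NC A ι →+* NC R ι'), IsEv J ρ y Φ → IsEv J ρ y Ψ → Φ = Ψ) ∧
  (∀ T : NC A ι →+ R, (∀ n : ℤ, ∃ d : ℕ, ∀ f ∈ NC.ordGe A ι d, T f ∈ J.I n) →
    (∀ (w : List ι) (a : A), T (NC.C a * (w.map NC.X).prod) = 0) → ∀ f, T f = 0)

/-- **NCB** (file NCB.lean): units, domain, limits, monomials in `NC`.  Units: `Filt.exists_inv` for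
`(trivFilt A).nc ι 1`.  Domain: take shortest words `w, v` with nonzero coefficients, look at `w ++ v`. -/
def JobNCB : Prop := ∀ {A ι : Type} [Ring A],
  (∀ f : NC A ι, IsUnit (f.co []) → IsUnit f) ∧
  (∀ f : NC A ι, f.co [] = 1 → ∃ g : NC A ι, g.co [] = 1 ∧ f * g = 1 ∧ g * f = 1) ∧
  (NoZeroDivisors A → NoZeroDivisors (NC A ι)) ∧
  (∀ f : NC A ι, (∀ d, f ∈ NC.ordGe A ι d) → f = 0) ∧
  (∀ u : ℕ → NC A ι, (∀ n, u (n + 1) - u n ∈ NC.ordGe A ι n) →
    ∃ v, ∀ n, v - u n ∈ NC.ordGe A ι n) ∧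
  (∀ (w : List ι) (a : A), NC.C a * (w.map NC.X).prod = NC.mon w a) ∧
  (∀ f : NC A ι, f ≠ 0 → ∃ (d : ℕ) (w : List ι), f ∈ NC.ordGe A ι d ∧ w.length = d ∧ f.co w ≠ 0)

/-- the calculus of jets at an admissible point -/
structure JetAPI {A R ι : Type} [Ring A] [Ring R] [Fintype ι] [DecidableEq ι] (J : Filt R)
    (ρ : A →+* R) (X : ι → R) : Prop where
  adm : ∀ {κ : Type} [Fintype κ] (E : κ → ι → R), (∀ α, Dir ρ (E α)) →
    ∃ c, Adm J ρ (linSub X E) c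
  co_nil : ∀ {κ : Type} [Fintype κ] (E : κ → ι → R), (∀ α, Dir ρ (E α)) → ∀ f,
    (ev J ρ (linSub X E) f).co [] = evX J ρ X f
  co_one : ∀ {κ : Type} [Fintype κ] (E : κ → ι → R), (∀ α, Dir ρ (E α)) → ∀ f α,
    (ev J ρ (linSub X E) f).co [α] = D1 J ρ X f (E α)
  co_two : ∀ {κ : Type} [Fintype κ] (E : κ → ι → R), (∀ α, Dir ρ (E α)) → ∀ f α β,
    (ev J ρ (linSub X E) f).co [α, β] = D2 J ρ X f (E α) (E β)
  ev_C : ∀ a, evX J ρ X (NC.C a) = ρ a
  ev_X : ∀ i, evX J ρ X (NC.X i) = X i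
  d1_C : ∀ a δ, Dir ρ δ → D1 J ρ X (NC.C a) δ = 0
  d1_X : ∀ i δ, Dir ρ δ → D1 J ρ X (NC.X i) δ = δ i
  d1_add : ∀ f g δ, D1 J ρ X (f + g) δ = D1 J ρ X f δ + D1 J ρ X g δ
  d1_mul : ∀ f g δ, Dir ρ δ →
    D1 J ρ X (f * g) δ = D1 J ρ X f δ * evX J ρ X g + evX J ρ X f * D1 J ρ X g δ
  d1_add' : ∀ f δ δ', Dir ρ δ → Dir ρ δ' →
    D1 J ρ X f (δ + δ') = D1 J ρ X f δ + D1 J ρ X f δ'
  d1_smul : ∀ f δ (z : R), Dir ρ δ → (∀ r, Commute z r) →
    D1 J ρ X f (fun i => z * δ i) = z * D1 J ρ X f δ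
  d2_add_left : ∀ f δ₁ δ₂ δ', Dir ρ δ₁ → Dir ρ δ₂ → Dir ρ δ' →
    D2 J ρ X f (δ₁ + δ₂) δ' = D2 J ρ X f δ₁ δ' + D2 J ρ X f δ₂ δ'
  d2_add_right : ∀ f δ δ₁ δ₂, Dir ρ δ → Dir ρ δ₁ → Dir ρ δ₂ →
    D2 J ρ X f δ (δ₁ + δ₂) = D2 J ρ X f δ δ₁ + D2 J ρ X f δ δ₂
  d2_smul_left : ∀ f δ δ' (z : R), Dir ρ δ → Dir ρ δ' → (∀ r, Commute z r) →
    D2 J ρ X f (fun i => z * δ i) δ' = z * D2 J ρ X f δ δ'
  d2_smul_right : ∀ f δ δ' (z : R), Dir ρ δ → Dir ρ δ' → (∀ r, Commute z r) →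
    D2 J ρ X f δ (fun i => z * δ' i) = z * D2 J ρ X f δ δ'
  ev_mem : ∀ d : ℕ, ∀ f ∈ NC.ordGe A ι d, evX J ρ X f ∈ J.I d
  d1_mem : ∀ (d : ℕ) (m : ℤ) δ, Dir ρ δ → (∀ i, δ i ∈ J.I m) → ∀ f ∈ NC.ordGe A ι d,
    D1 J ρ X f δ ∈ J.I (d - 1 + m)
  d1_mem' : ∀ (m : ℤ) δ, Dir ρ δ → (∀ i, δ i ∈ J.I m) → ∀ f, D1 J ρ X f δ ∈ J.I m
  d2_mem : ∀ (m m' : ℤ) δ δ', Dir ρ δ → Dir ρ δ' → (∀ i, δ i ∈ J.I m) → (∀ i, δ' i ∈ J.I m') →
    ∀ f, D2 J ρ X f δ δ' ∈ J.I (m + m')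
  ev_lead : ∀ d : ℕ, ∀ f ∈ NC.ordGe A ι d, evX J ρ X f -
    ∑ u : Fin d → ι, ρ (f.co (List.ofFn u)) * (List.ofFn fun r => X (u r)).prod ∈ J.I (d + 1)
  d1_lead : ∀ (d : ℕ) (m : ℤ) δ, Dir ρ δ → (∀ i, δ i ∈ J.I m) → ∀ f ∈ NC.ordGe A ι d,
    D1 J ρ X f δ - ∑ u : Fin d → ι, ∑ p : Fin d, ρ (f.co (List.ofFn u)) *
      (List.ofFn fun r => if r = p then δ (u r) else X (u r)).prod ∈ J.I (d + m)
  inn1 : ∀ f (ω : R), (∀ a, Commute (ρ a) ω) →
    D1 J ρ X f (fun i => ω * X i - X i * ω) = ω * evX J ρ X f - evX J ρ X f * ω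
  inn2_left : ∀ f (ω : R) δ', (∀ a, Commute (ρ a) ω) → Dir ρ δ' →
    D2 J ρ X f (fun i => ω * X i - X i * ω) δ' =
      ω * D1 J ρ X f δ' - D1 J ρ X f fun i => ω * δ' i
  inn2_right : ∀ f (ω : R) δ, (∀ a, Commute (ρ a) ω) → Dir ρ δ →
    D2 J ρ X f δ (fun i => ω * X i - X i * ω) =
      (D1 J ρ X f fun i => δ i * ω) - D1 J ρ X f δ * ω

/-- **Jet** (file Jet.lean, from `JobEv`).  Every identity: both sides are additive and continuous in `f`
(bounds of `JobEv` with weights `c α = 1 - m`), so use `dens` and check on `C a * (w.map X).prod` by induction on `w`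
with the Leibniz rules (`NC.mul_single`, `NC.mul_pair` applied to the ring hom `ev`; you also need the `D2` Leibniz rule
`D2(fg) = D2 f · g + D1 f δ · D1 g δ' + f · D2 g`). -/
def JobJet : Prop := ∀ {A R ι : Type} [Ring A] [Ring R] [Fintype ι] [DecidableEq ι] (J : Filt R)
  (ρ : A →+* R) (X : ι → R), Pt J ρ X → JetAPI J ρ X

/-- **Nat** (file Nat.lean, from `JobEv`): naturality of evaluation and jets (uniqueness-type argument:
both sides are continuous ring homs `NC A ι → NC R' κ` agreeing on constants and variables). -/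
def JobNat : Prop := ∀ {A A' R R' ι : Type} [Ring A] [Ring A'] [Ring R] [Ring R'] [Fintype ι]
  (J : Filt R) (J' : Filt R') (ρ : A →+* R) (ρ' : A' →+* R') (α : A →+* A') (ψ : R →+* R'),
  (∀ n, ∀ r ∈ J.I n, ψ r ∈ J'.I n) → (∀ a, ψ (ρ a) = ρ' (α a)) →
  (∀ {κ : Type} (y : ι → NC R κ) (c : κ → ℤ), Adm J ρ y c →
    Adm J' ρ' (fun i => NC.map ψ (y i)) c → ∀ f,
    NC.map ψ (ev J ρ y f) = ev J' ρ' (fun i => NC.map ψ (y i)) (NC.map α f)) ∧
  (∀ X : ι → R, Pt J ρ X → Pt J' ρ' (fun i => ψ (X i)) → ∀ f,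
    ψ (evX J ρ X f) = evX J' ρ' (fun i => ψ (X i)) (NC.map α f) ∧
    (∀ δ, Dir ρ δ → Dir ρ' (fun i => ψ (δ i)) →
      ψ (D1 J ρ X f δ) = D1 J' ρ' (fun i => ψ (X i)) (NC.map α f) fun i => ψ (δ i)) ∧
    ∀ δ δ', Dir ρ δ → Dir ρ δ' → Dir ρ' (fun i => ψ (δ i)) → Dir ρ' (fun i => ψ (δ' i)) →
      ψ (D2 J ρ X f δ δ') =
        D2 J' ρ' (fun i => ψ (X i)) (NC.map α f) (fun i => ψ (δ i)) fun i => ψ (δ' i))

/-- **Ech** (file Ech.lean): valuation lemmas in `Sk A σ q` over `La k`.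
(1) order and leading term of `f • y`; (2) echelon families: if the leading coefficients are independent residue by residue
then the family is independent and a combination of order `≥ n` has all terms of order `≥ n` (look at the minimal
`q * ord fᵢ + mᵢ`); (3) dimension (`mono m (b i)`, `0 ≤ m < q`); (4) upper bound: complete bases of complements of the `P r` to an
echelon family meeting `Y` trivially; (5) subspaces are closed: use a functional killing `Y`, expand in the monomial basis. -/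
def JobEch : Prop := ∀ {k A : Type} [Field k] [Ring A] [Algebra k A] {σ : RingAut A} {q : ℕ}
  [Per k σ q],
  (∀ (e m : ℤ) (f : La k) (y : Sk A σ q), f ∈ Sk.ord 1 0 e → y ∈ Sk.ord σ q m →
    f • y ∈ Sk.ord σ q (q * e + m) ∧ (f • y).co (q * e + m) = f.co e • y.co m) ∧
  (∀ {I : Type} [Fintype I] (y : I → Sk A σ q) (m : I → ℤ), (∀ i, y i ∈ Sk.ord σ q (m i)) →
    (∀ r : ZMod q, LinearIndependent k fun i : {i // (m i : ZMod q) = r} => (y i).co (m i)) →
    LinearIndependent (La k) y ∧ ∀ (f : I → La k) (n : ℤ), ∑ i, f i • y i ∈ Sk.ord σ q n →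
      ∀ (i : I) (e : ℤ), q * e + m i < n → (f i).co e = 0) ∧
  (Module.Finite k A → finrank (La k) (Sk A σ q) = q * finrank k A) ∧
  (Module.Finite k A → ∀ (Y : Submodule (La k) (Sk A σ q)) (P : ZMod q → Submodule k A) (n : ℕ),
    (∀ y ∈ Y, ∀ m : ℤ, y ∈ Sk.ord σ q m → y.co m ∈ P m) → (∀ r, finrank k (P r) ≤ n) →
    finrank (La k) Y ≤ q * n) ∧
  (Module.Finite k A → ∀ {I : Type} [Fintype I] (Y : Submodule (La k) (I → Sk A σ q))
    (y : I → Sk A σ q), (∀ n : ℤ, ∃ z ∈ Y, ∀ i, y i - z i ∈ Sk.ord σ q n) → y ∈ Y)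

/-- **SS** (file SS.lean): `ad a` is semisimple on a finite-dimensional division algebra in characteristic `0`, and the
normal form `a ~ a₀ + B`.  With `f = minpoly a` (irreducible, separable), `P(x,y) = (f x - f y)/(x - y)` gives an operator
`P(L_a, R_a)` killing the range of `ad a`, with range in the centralizer, acting there as the unit `f'(a)`.
Normal form: solve `a w = w (C a₀ + B)` word by word (strong recursion on the length): `[a₀, w v] + B v = known`. -/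
def JobSS : Prop := ∀ {F R : Type} [Field F] [CharZero F] [Ring R] [IsDiv R] [Algebra F R]
  [FiniteDimensional F R],
  (∀ a : R, ∃ π ς : R →ₗ[F] R, (∀ y, y = π y + (ς y * a - a * ς y)) ∧ (∀ y, Commute (π y) a) ∧
    (∀ ω, π (ω * a - a * ω) = 0) ∧ ∀ y, Commute y a → π y = y) ∧
  ∀ {ι : Type} (a : NC R ι), ∃ w B : NC R ι, w.co [] = 1 ∧ B ∈ NC.ordGe R ι 1 ∧
    (∀ v, Commute (B.co v) (a.co [])) ∧ a * w = w * (NC.C (a.co []) + B)

/-! ## Level 0: generic points -/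

/-- **GenB** (file GenB.lean): closure properties of `Gen`/`IsPoly` (also prove reusable `IsPoly.add/mul/sum/prod/det`,
`isPoly_lv`, `isPoly_hat`), and the easy generic properties.  `G2`: `(card ι)^d` disjoint windows filled with basis vectors make the
evaluation matrix a unit matrix. -/
def JobGenB : Prop := ∀ {Ω ι : Type} [Field Ω] [CharZero Ω] [Fintype ι] [DecidableEq ι] {q : ℕ}
  [NeZero q],
  (∀ P Q : (ZMod q → ι → Ω) → Prop, Gen P → Gen Q → Gen fun x => P x ∧ Q x) ∧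
  (∀ {K : Type} [Fintype K] (P : K → (ZMod q → ι → Ω) → Prop), (∀ κ, Gen (P κ)) →
    Gen fun x => ∀ κ, P κ x) ∧
  (∀ {K : Type} [Fintype K] (l : K → ι → Ω), (∀ κ, l κ ≠ 0) → Gen (G0 (q := q) l)) ∧
  (∀ (d : ℕ) (R : NC Ω ι) (w : List ι), w.length = d → R.co w ≠ 0 → d ≤ q →
    Gen fun x : ZMod q → ι → Ω => hat d R (win x 0 d) ≠ 0) ∧
  (∀ d : ℕ, d * Fintype.card ι ^ d ≤ q → Gen (G2 (Ω := Ω) (ι := ι) (q := q) d))

/-- **GenV** (file GenV.lean).  `VanI`: for fixed `m, j₀` clear denominators; witness: positions `j₀ … j₀+M-2` carry `y`,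
positions `j₀+m … j₀+m+M-2` carry `y'`, all others a point where no form vanishes; the matrix is a scaled Vandermonde matrix in
the ratios `l κ y' / l κ y`, distinct for suitable `y, y'`.  `Fm`, `m < M`: `M` disjoint windows, window `r` containing one point of
`ker (l r)` outside the other kernels: `det (∏_{κ' ≠ κ} zz (l κ') x m j_r)` is diagonal.  `Fm`, `m > q - M`:
`(zz m j)⁻¹ = zz (q-m) (j+m) / zz q 0`; use `TwoInd` and disjoint windows.  Middle `m`: from `VanI`. -/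
def JobGenV : Prop := ∀ {Ω ι K : Type} [Field Ω] [CharZero Ω] [Fintype ι] [DecidableEq ι]
  [Fintype K] [DecidableEq K] {q : ℕ} [NeZero q] (l : K → ι → Ω), NonProp l →
  Gen (VanI (q := q) l) ∧
  (TwoInd l → (Fintype.card K + 1) ^ 2 ≤ q →
    Gen fun x : ZMod q → ι → Ω => ∀ m, 1 ≤ m → m < q → Fm l x m)

/-- **CB** (file CB.lean): coboundary lemma.  Let `e` be a point with `l e = 1`, `F(x) = ∑_j hat d R (win x j d)` on configurations in the
affine plane `l = 1`.  Put `d` free points `y₁..y_d` on consecutive positions and `e` elsewhere: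
`F = P(y₁..y_{d-1}) + R̂(y) + P'(y₂..y_d) + (q-2d+1) R̂(e^d)`, `P(z) = ∑_{a=1}^{d-1} R̂(e^a, z₁..z_{d-a})`; with `d-1` free points
`F = P(z) + P'(z) + const`.  So if `F` is constant, `R̂ = c + P(y₂..y_d) - P(y₁..y_{d-1})`; homogenise with `l` (the plane spans).
If `F ≡ 0` then `c = R̂(e^d) = F(e,…,e)/q = 0`.  The witnesses give the polynomials (multiply by the missing `lv l (x i)`);
for (2) change one position at a time by a vector of `ker l` (`hat` is affine in each position since `d ≤ q`). -/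
def JobCB : Prop := ∀ {k Ω ι : Type} [Field k] [CharZero k] [Field Ω] [Fintype ι] [DecidableEq ι]
  {q : ℕ} [NeZero q] (e : k →+* Ω) (l : ι → k) (d : ℕ) (R : NC k ι), l ≠ 0 → 1 ≤ d → 2 * d ≤ q →
  R ∈ NC.ordGe k ι d →
  ((¬ ∃ ψ ∈ NC.ordGe k ι (d - 1), R - (NC.lin l * ψ - ψ * NC.lin l) ∈ NC.ordGe k ι (d + 1)) →
    Gen fun x : ZMod q → ι → Ω =>
      ∑ j, hat d (NC.map e R) (win x j d) * (zz (fun i => e (l i)) x d j)⁻¹ ≠ 0) ∧
  ((¬ ∃ c : k, ∃ ψ ∈ NC.ordGe k ι (d - 1),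
      R - c • NC.lin l ^ d - (NC.lin l * ψ - ψ * NC.lin l) ∈ NC.ordGe k ι (d + 1)) →
    Gen fun x : ZMod q → ι → Ω => ∃ η : ZMod q → ι → Ω, (∀ j, lv (fun i => e (l i)) (η j) = 0) ∧
      ∑ j, (∑ p : Fin d, hat d (NC.map e R)
        (Function.update (win x j d) p (η (j + (p : ℕ))))) * (zz (fun i => e (l i)) x d j)⁻¹ ≠ 0)

/-- **GenX** (file GenX.lean): rational generic points.  `ξ i = ∑_{r<q} c r i s₁^r` with `c ∈ F`; `c ↦ x` is an invertible
`Ω`-linear change of variables (Vandermonde in the distinct `ζ^j θ(s₁)`), so a nonzero polynomial in `x` has a non-root with `c ∈ F`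
(`MvPolynomial.funext_set`).  Add the generic conditions `x j i₀ ≠ 0`, `x j i₁ / x j i₀` distinct: then `ρ = ξ i₁ / ξ i₀` has `q` distinct
conjugates so `1, ρ, …, ρ^{q-1}` is a basis of `K` over `La F` (Vandermonde + `JobEch` dimension), and `XQ` generates `K`, `s`, hence `Q`
(a finite-dimensional subalgebra of a division ring contains inverses). -/
def JobGenX : Prop := ∀ {F Ω ι : Type} [Field F] [CharZero F] [Field Ω] [Fintype ι]
  [DecidableEq ι] (p : Par F) (θ : Lq F p.q →+* Ω), 2 ≤ Fintype.card ι →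
  ∀ P : (ZMod p.q → ι → Ω) → Prop, Gen P → ∃ ξ : ι → Lq F p.q, GenQ p ξ ∧ P (xOf p θ ξ)

/-! ## Level 1: morphisms -/

/-- **MorB** (file MorB.lean): formal properties of `IsMor`, `Good`, `Kill`; slices; base points.
Slice: complement of the range of `ω ↦ [ω, X]` (kernel `∋ 1`, `dim Q = q²`). -/
def JobMorB : Prop :=
  (∀ {F D ι F' D' ι' F'' D'' ι'' : Type} [Field F] [Ring D] [Algebra F D] [Field F'] [Ring D']
    [Algebra F' D'] [Field F''] [Ring D''] [Algebra F'' D''] (φ : F →+* F') (φ' : F' →+* F'')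
    (Φ : NC D ι →+* NC D' ι') (Φ' : NC D' ι' →+* NC D'' ι''), IsMor φ Φ → IsMor φ' Φ' →
    IsMor (φ'.comp φ) (Φ'.comp Φ)) ∧
  (∀ {F D ι F' D' ι' : Type} [Field F] [Ring D] [Algebra F D] [Field F'] [Ring D']
    [Algebra F' D'] (φ : F →+* F') (Φ : NC D ι →+* NC D' ι') (a : NC D ι), IsMor φ Φ →
    Good F' (Φ a) → Good F a) ∧
  (∀ {F D ι : Type} [Field F] [Ring D] [Algebra F D] (a b u : NC D ι), IsUnit u →
    a * u = u * b → Good F b → Good F a) ∧
  (∀ {F D ι : Type} [Field F] [Ring D] [Algebra F D] (B B' u : NC D ι), IsUnit u →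
    B * u = u * B' → Kill F B' → Kill F B) ∧
  (∀ σ : St, Kill σ.F (0 : NC σ.D σ.ι)) ∧
  (∀ {F C Z ι : Type} [Field F] [Ring C] [Algebra F C] [Ring Z] [Algebra F Z] (e : Z →ₐ[F] C)
    (b : NC Z ι), (∀ c : C, (∀ c', Commute c c') → c ∈ Set.range e) → (∀ x y : Z, x * y = y * x) →
    Kill F b → Kill F (NC.map e.toRingHom b)) ∧
  (∀ {F ι : Type} [Field F] [Fintype ι] (p : Par F) (ξ : ι → Lq F p.q), 2 ≤ Fintype.card ι →
    Nonempty (Slice p ξ)) ∧
  (∀ {F ι : Type} [Field F] (p : Par F) (ξ : ι → Lq F p.q) (A : Type) [Ring A] [Algebra F A],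
    Pt (Sk.filt _ _) (shC A p) (XA p ξ A) ∧
    (∀ (y : Sh F p) (a : A), Commute (shC A p a) (qMap A p y)) ∧
    (∀ (c : La (La F)) (y : Sh F p), qMap A p (c • y) = c • qMap A p y) ∧
    ∀ c : F, shC A p (algebraMap F A c) = algebraMap (La (La F)) (Sh A p) (toLa2 F c))

/-- **Mor** (file Mor.lean): an extension at a generating point along a slice is a morphism.
(a) `Dense2 B` gives density mod every `ordGe k`.  (b) `T = adjoin F' (Φ B) + 𝔪'²` is a subalgebra, closed for the `s`-adic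
topology on the coefficients of length `≤ 1` (`JobEch` (5)), so it contains `Φ(S)`, i.e. the constants `shC d` and the `yᵢ`.
(c) In `NC Q κ`: `T_Q = adjoin {yᵢ} + 𝔪²` maps onto `Q` (`GenQ`); the linear parts `M` of its elements without constant term form a
`Q`-subbimodule of `κ → Q`.  Averaging over conjugation by the monomials `s₁^a s^b` (`a,b<q`) shows `M = Q · (M ∩ F'^κ)`; if `M ≠ ⊤`
some `v ≠ 0` in `F'^κ` kills `M`, and `ε t ↦ ∑ v α t[α]` is a well defined `F'`-derivation `∂` of `Q` with `∂ Xᵢ = ∑ v α E α i`;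
it is inner (`n = q⁻² ∑ ∂(g) g⁻¹` over the monomials), contradicting `Slice.inj`.  (d) `Sh D p` is spanned by `shC d * qMap y`. -/
def JobMor : Prop := ∀ {F D ι : Type} [Field F] [CharZero F] [Ring D] [Algebra F D]
  [FiniteDimensional F D] [Fintype ι] [DecidableEq ι] (p : Par F) (ξ : ι → Lq F p.q)
  (sl : Slice p ξ), GenQ p ξ → IsMor (toLa2 F) (extPhi p ξ D sl.E)

/-- **ExtK** (file ExtK.lean; uses SS, Jet, Nat, MorB, Mor): normal forms exist, `Kill` descends (for `i : C → D` use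
`NC.map (shMap p i) ∘ extPhi C = extPhi D ∘ NC.map i`, new constant `shC a₀ + AA`), and the jets of the normal form. -/
def JobExtK : Prop := ∀ (a : An) (p : Par a.F) (ξ : a.ι → Lq a.F p.q) (sl : Slice p ξ),
  Nonempty (ExtNF p ξ a.B sl) ∧ ∀ nf : ExtNF p ξ a.B sl,
    (GenQ p ξ → (a.ext p nf).Kill → a.Kill) ∧
    (∀ α, DA1 p ξ a.B (sl.E α) = (nf.B'.co [α] : Sh a.D p) +
      (nf.w.co [α] * AA p ξ a.B - AA p ξ a.B * nf.w.co [α])) ∧
    ∀ α β, (nf.B'.co [α, β] : Sh a.D p) = DA2 p ξ a.B (sl.E α) (sl.E β) +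
      DA1 p ξ a.B (sl.E α) * nf.w.co [β] - nf.w.co [α] * (nf.B'.co [β] : Sh a.D p) -
      (nf.w.co [α, β] * AA p ξ a.B - AA p ξ a.B * nf.w.co [α, β])

/-- **NT** (file NT.lean; uses Jet, MorB, ExtK, GenB, GenX).  (1) If all `B'[α] = 0` then every `DA1 δ` is a commutator `[ω, A]`
(`Slice.span`, `inn1`); for the radial direction `δ = X`, `A⁻¹ DA1 X = d + (order ≥ 1)` (`d1_lead`, `ev_lead`), whose trace over `F'` (left
multiplication in the basis `bᵢ s^m`) is `d · dim + (order ≥ 1) ≠ 0`, while `tr (A⁻¹ [ω, A]) = 0`.  (2), (3): take the order `d` of the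
series, an `F`-linear `χ : D → F` with `χ (B w) ≠ 0`, `q = d + 1`, `Ω = Lq F q`, `θ = id`; the coefficient of `s^d` in the value is
`∑_u B(u) ∏_r σ^r ξ_{u r}`. -/
def JobNT : Prop :=
  (∀ (a : An) (p : Par a.F) (ξ : a.ι → Lq a.F p.q) (sl : Slice p ξ) (nf : ExtNF p ξ a.B sl)
    (d : ℕ), a.B ∈ NC.ordGe _ _ d → 1 ≤ d → (AA p ξ a.B).co d ≠ 0 → (a.ext p nf).B1) ∧
  (∀ a : An, a.B ≠ 0 → ∃ a' : An, (a'.Kill → a.Kill) ∧ a'.B1) ∧
  ∀ (σ : St) (f : NC σ.D σ.ι), f ≠ 0 → ∃ (σ' : St) (φ : σ.F →+* σ'.F)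
    (Φ : NC σ.D σ.ι →+* NC σ'.D σ'.ι), IsMor φ Φ ∧ (Φ f).co [] ≠ 0

/-! ## Phase 1: reduction to a commutative coefficient field -/

/-- **P1a** (file P1a.lean): `m0` bookkeeping.  (1) `finrank D = finrank Z * m0` (the centre is a field).  (2) If `A` has order `1`
with nonzero leading coefficient then the `shC zᵢ * A^m` (`zᵢ` basis of the centre, `m<q`) are independent (`JobEch` (2)) and central in
`Cent`.  (3) non-central linear part: take `q = 1`, `ξ` generic with `χ [c, ∑ B[i] ξᵢ] ≠ 0`; then `shC c ∉ Cent`, so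
`dim Cent < dim D`. -/
def JobP1a : Prop :=
  (∀ a : An, finrank a.F a.D = finrank a.F (Subalgebra.center a.F a.D) * a.m0) ∧
  (∀ (a : An) (p : Par a.F) (ξ : a.ι → Lq a.F p.q) (sl : Slice p ξ) (nf : ExtNF p ξ a.B sl),
    (AA p ξ a.B).co 1 ≠ 0 →
    finrank (La (La a.F)) (Cent p ξ a.B) < p.q * finrank a.F a.D → (a.ext p nf).m0 < a.m0) ∧
  ∀ a : An, a.B1 → ¬ a.Sc → ∃ a' : An, (a'.Kill → a.Kill) ∧ a'.B1 ∧ a'.m0 < a.m0

/-- **P1b** (file P1b.lean; uses CB, GenB, GenX, Ech, Jet, Nat, P1a, NT, ExtK).  `Z` = centre (a field), `l = B₁ ∈ Z^ι`,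
`R = B - b`.  If for all `c ∈ D` and `Z`-linear `χ : D → Z` the series `χ [c, R]` is `≡ lψ - ψl`, then (project along the span `W` of the
degree-`d` parts of the `lψ - ψl`) `R_d ∈ Z ⊗ T + D ⊗ W`: first alternative.  Otherwise use `JobCB` (1) with `k = Z`, `Ω = Lq Z q`,
`q = 2d`, `θ = mapL`.  If `shC c` were the leading term of some `y ∈ Cent ∩ ord 0`, write `y = c + y'`; all leading coefficients of
`Cent ∩ ord m` are `ℓ^{(m)} ·`(σ-fixed), `ℓ = ∑ lᵢ ξᵢ`, `ℓ^{(m)} = ∏_{r<m} σ^r ℓ`; if every σ-fixed element lifts, subtract (lift)`· A^m` until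
`ord y' ≥ d-1` (`b(X)` commutes with constants); order `d` of `[y, A] = 0` gives `y'' - σ y'' = ∓[c, R̂]/ℓ^{(d)}`, sum over `σ^j`, apply `χ`: contradiction.  So
`lead₀(Cent)` is a proper subspace of the σ-fixed part (dimension `dim D` over `La F`), and `JobEch` (4) gives `dim Cent < q dim D`. -/
def JobP1b : Prop := ∀ (a : An) (b : NC a.D a.ι) (d : ℕ), a.B1 → a.Sc →
  (∀ w c, Commute (b.co w) c) → 2 ≤ d → a.B - b ∈ NC.ordGe _ _ d →
  (∃ ψ ∈ NC.ordGe a.D a.ι (d - 1), ∃ ρ ∈ NC.ordGe a.D a.ι d, (∀ w c, Commute (ρ.co w) c) ∧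
    a.B * (1 + ψ) - (1 + ψ) * (b + ρ) ∈ NC.ordGe _ _ (d + 1)) ∨
  ∃ a' : An, (a'.Kill → a.Kill) ∧ a'.B1 ∧ a'.m0 < a.m0

/-- Phase 2 -/
def Phase2 : Prop := ∀ a : An, a.Comm → a.B1 → a.Kill

/-- **P1** (file P1.lean; uses NCB, MorB, NT, P1a, P1b, SS).  Induction on `m0` for states with `B1`; if `Sc` and the second
alternative of `P1b` never occurs for the conjugated states, build `uₙ, bₙ` with `B uₙ ≡ uₙ bₙ` mod `ordGe n`, pass to the limit, and replace `D` by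
its centre.  Second part: `JobSS` normal form with the centralizer of `a₀`. -/
def JobP1 : Prop := Phase2 → (∀ a : An, a.Kill) ∧ ∀ (σ : St) (f : NC σ.D σ.ι), Good σ.F f

/-! ## Phase 2: the split picture -/

section

variable {Ω E ι : Type} [Field Ω] [Fintype ι] [DecidableEq ι] {q : ℕ} [NeZero q]
  {b : NC (E → Ω) ι} {x : ZMod q → ι → Ω}

/-- the basic facts about normal form data -/
structure NFAPI (N : NFD b x) : Prop where
  pt : Pt (Sk.filt _ _) (eC (E → Ω) q) (up E (XE x))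
  dir : ∀ δ : ι → EE Ω q, Dir (eC (E → Ω) q) (up E δ)
  lam_add : ∀ δ δ', N.lam (δ + δ') = N.lam δ + N.lam δ'
  lam_smul : ∀ (f : La Ω) δ, N.lam (f • δ) = f • N.lam δ
  lead_w : ∀ j k, N.w'.co 0 j k * N.w.co 0 j k = 1 ∧
    N.w'.co 0 j k * lv (lOf b k) (x j) * N.w.co 0 (j + 1) k = N.α.co 1 k
  lead_w_pow : ∀ (m : ℕ) j k, N.w'.co 0 j k * N.w.co 0 (j + m) k =
    N.α.co 1 k ^ m * (zz (lOf b k) x m j)⁻¹
  α_ne : ∀ k, N.α.co 1 k ≠ 0
  α_pow : ∀ k j, N.α.co 1 k ^ q = zz (lOf b k) x q j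
  de1_lead : ∀ (m : ℤ) (δ : ι → EE Ω q), (∀ i, δ i ∈ Sk.ord _ _ m) →
    DE1 b x δ ∈ Sk.ord _ _ m ∧ ∀ j k, (DE1 b x δ).co m j k = lv (lOf b k) fun i => (δ i).co m j
  ae_lead : AE b x ∈ Sk.ord _ _ 1 ∧ ∀ j k, (AE b x).co 1 j k = lv (lOf b k) (x j)
  lam_lead : ∀ (m : ℕ) (δ : ι → EE Ω q), (∀ i, δ i ∈ Sk.ord _ _ m) →
    N.lam δ ∈ Sk.ord _ _ m ∧ ∀ k, (N.lam δ).co m k = (q : Ω)⁻¹ *
      ∑ j, lv (lOf b k) (fun i => (δ i).co m j) * (N.α.co 1 k ^ m * (zz (lOf b k) x m j)⁻¹)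
  ad : ∀ (n : ℤ) (y : EE (E → Ω) q), y ∈ Sk.ord _ _ n → avg Ω (N.w' * y * N.w) = 0 →
    ∃ ω ∈ Sk.ord (shift (E → Ω) q) q (n - 1), y = ω * AE b x - AE b x * ω
  cent : ∀ y : EE (E → Ω) q, Commute y (AE b x) →
    N.w' * y * N.w = cstE (E → Ω) q (avg Ω (N.w' * y * N.w))

end

/-- **Avg** (file Avg.lean): the averaging map. -/
def JobAvg : Prop := ∀ {Ω Λ : Type} [Field Ω] [CharZero Ω] [CommRing Λ] [Algebra Ω Λ] {q : ℕ}
  [NeZero q],
  (∀ y z : EE Λ q, avg Ω (y + z) = avg Ω y + avg Ω z) ∧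
  (∀ (f : La Ω) (y : EE Λ q), avg Ω (f • y) = f • avg Ω y) ∧
  (∀ (c : Lq Λ q) (y : EE Λ q), avg Ω (cstE Λ q c * y) = c * avg Ω y ∧
    avg Ω (y * cstE Λ q c) = avg Ω y * c) ∧
  (∀ c : Lq Λ q, avg Ω (cstE Λ q c) = c) ∧
  (∀ (y z : EE Λ q) (e : ℤ), (avg Ω (y * z)).co (q * e) = (avg Ω (z * y)).co (q * e)) ∧
  (∀ (f : La Ω) (c : Lq Λ q), cstE Λ q (f • c) = f • cstE Λ q c) ∧
  ∀ (f : La Ω) (y : EE Ω q), mapE q (algebraMap Ω Λ) (f • y) = f • mapE q (algebraMap Ω Λ) y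

/-- **NF** (file NF.lean; uses Jet, Avg).  Conjugate by the diagonal `g` (`g_{j+1} = g_j z̄ / z_j`, consistent since `z̄^q = ∏ z_j`), then by
`1 + ω s^{m-1}` to replace the coefficient of `s^m` by its average (`[ω s^{m-1}, z̄ s] = z̄(ω - σω) s^m`, every mean-zero function is
`ω - σ ω`); converge with `Filt.complete`.  `ad`: same recursion.  `cent`: `y - cstE (avg y)` commutes with `cstE α`, has mean zero, look at its leading term. -/
def JobNF : Prop := ∀ {Ω E ι : Type} [Field Ω] [CharZero Ω] [Fintype ι] [DecidableEq ι] {q : ℕ}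
  [NeZero q] (b : NC (E → Ω) ι) (x : ZMod q → ι → Ω), b ∈ NC.ordGe _ _ 1 →
  (∀ k j, lv (lOf b k) (x j) ≠ 0) →
  (∀ z : E → Ω, (∀ k, z k ^ q = zz (lOf b k) x q 0) → ∃ N : NFD b x, N.α.co 1 = z) ∧
  ∀ N : NFD b x, NFAPI N

/-- projection to a system of components -/
noncomputable def prj {Ω E K : Type} [Field Ω] (q : ℕ) (s : K → E) :
    Lq (E → Ω) q →+* Lq (K → Ω) q :=
  mapL q (RingHom.pi fun κ => Pi.evalRingHom (fun _ : E => Ω) (s κ))

/-- **A12** (file A12.lean; uses Ech).  (1) For `M ≤ m ≤ q - M` the leading coefficients of the `lam (η s^m)` fill `K → Ω` (`VanI`,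
`lam_lead`); every residue is `m + m'`, so products give an echelon family of size `q M` (`JobEch` (2),(3) in `Lq (K → Ω) q`).
(2) Echelon family `lam (η s^m)`, `1 ≤ m ≤ q`: full leading space for `m < q` (annihilator trivial by `Fm`), of codimension `dim Γ` for `m = q`.
(3) If the dimension is not larger the family is a basis of `RL`; expand `lam δ₀` and use the order control of `JobEch` (2),(1). -/
def JobA12 : Prop := ∀ {Ω E ι : Type} [Field Ω] [CharZero Ω] [Fintype E] [Fintype ι]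
  [DecidableEq ι] {q : ℕ} [NeZero q] {b : NC (E → Ω) ι} {x : ZMod q → ι → Ω} (N : NFD b x)
  (c : Cls (lOf b)), NFAPI N → G0 c.lr x →
  (VanI c.lr x → (Fintype.card c.K + 1) ^ 2 ≤ q →
    (∀ s : c.K → E, (∀ κ, c.cls (s κ) = κ) → ∀ y : Lq (c.K → Ω) q,
      ∃ u ∈ N.RL * N.RL, prj q s u = y) ∧
    q * Fintype.card c.K ≤ finrank (La Ω) (N.RL * N.RL : Submodule _ _)) ∧
  ((∀ m, 1 ≤ m → m < q → Fm c.lr x m) →
    q * Fintype.card c.K ≤ finrank (La Ω) N.RL + finrank Ω (Gam c.lr) ∧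
    (finrank (La Ω) N.RL + finrank Ω (Gam c.lr) ≤ q * Fintype.card c.K →
      ∀ (δ₀ : ι → EE Ω q) (n : ℤ), prj q c.rep (N.lam δ₀) ∈ Sk.ord _ _ n →
        ∃ δ₁ : ι → EE Ω q, (∀ i, δ₁ i ∈ Sk.ord _ _ n) ∧ N.lam δ₁ = N.lam δ₀))

/-- **A3** (file A3.lean; uses Jet, Nat, Avg, A12).  Step 1: `𝒜 → Lq (K → Ω)` is bijective for every section `s` (A12 (1)); take the idempotent
`e` and the element `σ` over `e_κ`, `s e_κ`; `e_k = 1` (else use the section through `k`), `σ_k^q = s^q` so `σ_k = ζ' s`, hence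
`a_k(s) = a_κ(ζ' s)` on `𝒜`; comparing leading terms of `lam δ₀` (order 1) and `lam δ₁` (order 2) gives `ζ' = 1`, so
`λ_k^δ λ_κ^{δ₀} = λ_κ^δ λ_k^{δ₀}`.  Step 2 (components in `EE Ω q` via `mapE (evalRingHom)`): with `G = w'_k u(X) w_κ`,
`α_k G = G (φ(α_κ) + R̃)`; `G₀` is a constant unit, so `α_k - φ(α_κ) ∈ ord d` (average).  Differentiate along `δ` of order 1, write
`w' D1 b w = λ + [ω, α]` (`ad`), `G'' = G' - ω_k G + G ω_κ`, average: `E^δ = λ_k - φ'(α_κ) λ_κ ∈ ord d`, and if `l_κ(η) = 0` (so `ω, G'` have order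
`≥ 1`, `λ_κ^δ` order `≥ 2`) its coefficient of `s^d` is that of `avg (w'_κ D1 R w_κ)`.  Step 3: `E^δ λ_κ^{δ₀} = λ_κ^δ E^{δ₀}`, coefficient of `s^{d+1}`. -/
def JobA3 : Prop := ∀ {Ω E ι : Type} [Field Ω] [CharZero Ω] [Fintype E] [Fintype ι]
  [DecidableEq ι] {q : ℕ} [NeZero q] {b : NC (E → Ω) ι} {x : ZMod q → ι → Ω} (N : NFD b x)
  (c : Cls (lOf b)), b ∈ NC.ordGe _ _ 1 → NFAPI N → G0 c.lr x → VanI c.lr x →
  (Fintype.card c.K + 1) ^ 2 ≤ q → (∀ k, N.α.co 1 k = c.cf k * N.α.co 1 (c.rep (c.cls k))) →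
  ∀ (𝒜 : Subalgebra (La Ω) (Lq (E → Ω) q)) (u₀ : Lq (E → Ω) q),
  finrank (La Ω) 𝒜 ≤ q * Fintype.card c.K → (∀ δ, ∃ a ∈ 𝒜, N.lam δ = u₀ * a) →
  ∀ (k : E) (d : ℕ) (u R : NC Ω ι) (φ : Polynomial Ω), 2 ≤ d → u.co [] = 1 → φ.coeff 0 = 0 →
  φ.coeff 1 = c.cf k → R ∈ NC.ordGe Ω ι d →
  cmp b k * u = u * (aeval (cmp b (c.rep (c.cls k))) φ + R) →
  ∀ η : ZMod q → ι → Ω, (∀ j, lv (c.lr (c.cls k)) (η j) = 0) →
  ∑ j, (∑ p : Fin d, hat d R (Function.update (win x j d) p (η (j + (p : ℕ))))) *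
    (zz (c.lr (c.cls k)) x d j)⁻¹ = 0

/-- **A4** (file A4.lean; uses Jet, Nat, Avg, A12).  `tr y = (avg y).co q` kills commutators.  Let `m = q - d + 1`, `η` with
`∑_j l_κ(η_j)/zz m j = 0` for all `κ`; by A12 (3) there is `δ = η s^m + (order > m)` with `lam δ = 0`.  Then
`tr D1(H(b_κ)) δ = tr (H'(A_κ) D1 b_κ δ) = (H'(α_κ) λ_κ).co q = 0`, `tr D1 z = 0`, so `tr D1 ρ δ = q⁻¹ ∑_j ∑_a η_{j,a} (∂_a ρ)^(window of length d-1 at j+m) = 0`
(cyclic derivative `(∂_a ρ) w = ∑_p ρ (w.drop.. ++ a :: w.take..)`).  Hence `(∂_a ρ)^(win (j+m)) = ∑_κ γ'_κ zz (d-1) (j+m) l_κ a` for all `j`;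
`G2 (d-1)` gives `∂_a ρ = ∑ γ'_κ l_κ a · l_κ^{d-1}` in degree `d-1`, and `∑_a X a * ∂_a ρ ≡ d ρ` modulo commutators. -/
def JobA4 : Prop := ∀ {Ω E ι : Type} [Field Ω] [CharZero Ω] [Fintype E] [Fintype ι]
  [DecidableEq ι] {q : ℕ} [NeZero q] {b : NC (E → Ω) ι} {x : ZMod q → ι → Ω} (N : NFD b x)
  (c : Cls (lOf b)), b ∈ NC.ordGe _ _ 1 → NFAPI N → G0 c.lr x →
  (∀ m, 1 ≤ m → m < q → Fm c.lr x m) →
  finrank (La Ω) N.RL + finrank Ω (Gam c.lr) ≤ q * Fintype.card c.K →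
  ∀ (d : ℕ) (H : c.K → Polynomial Ω) (z : NC Ω ι), 2 ≤ d → d < q → G2 (d - 1) x →
  z ∈ commSpan (NC Ω ι) → ∑ κ, aeval (cmp b (c.rep κ)) (H κ) - z ∈ NC.ordGe Ω ι d →
  ∃ (γ : c.K → Ω) (z' : NC Ω ι), z' ∈ commSpan (NC Ω ι) ∧
    ∑ κ, aeval (cmp b (c.rep κ)) (H κ) - z - ∑ κ, γ κ • NC.lin (c.lr κ) ^ d - z' ∈
      NC.ordGe Ω ι (d + 1)

/-- **A5** (file A5.lean; uses Jet, Avg, Ech, A12).  `M = card K`, `mₜ = M + t`.  Fix `v` with all `l_κ v ≠ 0`.  `eₜ ∈ ker lam` has leading term `η s^{mₜ+1}`,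
`η₀ = v`, `η_{M+r} = τ_r v` (`r<M`) chosen by `VanI` so that `∑_j l_κ(η_j)/zz (mₜ+1) j = 0`, and A12 (3) makes `lam eₜ = 0` exactly.  For a target
`t₀` and any vector of jumps take `δ ∈ ker lam` of order `m'+1 = q - m_{t₀}` with leading term supported on `[T, T+M) ∪ [T+2M, T+3M)`, `T = m_{t₀}+1`,
first cluster with prescribed sums, second compensating; `ad` gives `ω` of order `m'` with `ω_j z_{j+m'} - z_j ω_{j+1} = l(η'_j)`, so
`ψ_j = ω_j / zz m' j` is constant off the clusters; the coefficient of `s^q` of component `t₀` is `q⁻¹ zz q · l(v)/zz T 0 · jump` (the `D2` term has order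
`> q`), components `t > t₀` have order `> q`, and components `t < t₀` are raised to order `≥ q` with the `lam δ''` (`Fm`).  With the `lam (η s^m)`
(`1 ≤ m < q`) in each component this is an echelon family of size `r q M` after `prj c.rep` (view `Fin r → Lq (K → Ω)` as `Lq (Fin r → K → Ω)`). -/
def JobA5 : Prop := ∀ {Ω E ι : Type} [Field Ω] [CharZero Ω] [Fintype E] [Fintype ι]
  [DecidableEq ι] {q : ℕ} [NeZero q] {b : NC (E → Ω) ι} {x : ZMod q → ι → Ω} (N : NFD b x)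
  (c : Cls (lOf b)), b ∈ NC.ordGe _ _ 1 → NFAPI N → G0 c.lr x → VanI c.lr x →
  (∀ m, 1 ≤ m → m < q → Fm c.lr x m) →
  finrank (La Ω) N.RL + finrank Ω (Gam c.lr) ≤ q * Fintype.card c.K →
  ∀ r : ℕ, 3 * Fintype.card c.K + r + 1 ≤ q →
  ∃ e : Fin r → ι → EE Ω q, (∀ t, N.lam (e t) = 0) ∧
    r * (q * Fintype.card c.K) ≤ finrank (La Ω) (N.JS e)

/-! ## Phase 2: the bridge -/

/-- **BC** (file BC.lean): base change along a semilinear map. -/
def JobBC : Prop := ∀ {k Ω V W : Type} [Field k] [Field Ω] [AddCommGroup V] [Module k V]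
  [AddCommGroup W] [Module Ω W] (φ : k →+* Ω) (j : V →+ W),
  (∀ (c : k) v, j (c • v) = φ c • j v) →
  (∀ {I : Type} [Fintype I] (y : I → V), Submodule.span k (Set.range y) = ⊤ →
    LinearIndependent Ω (fun i => j (y i)) → ∀ (n : ℕ) (z : Fin n → V), LinearIndependent k z →
    LinearIndependent Ω fun i => j (z i)) ∧
  ((∀ (n : ℕ) (z : Fin n → V), LinearIndependent k z → LinearIndependent Ω fun i => j (z i)) →
    FiniteDimensional k V → ∀ P : Submodule k V,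
      finrank Ω (Submodule.span Ω (j '' P)) = finrank k P ∧
      ∀ v, j v ∈ Submodule.span Ω (j '' P) → v ∈ P)

/-- **Spl** (file Spl.lean; uses Ech, BC, Nat, MorB): the splitting homs.  Independence: the family `mono m (mono r lᵢ)` (`m, r < q`, `lᵢ` a basis)
spans `Sh`, and its image is an echelon family: in each residue the leading coefficients `(j,k) ↦ k(lᵢ) (ζ^j θ(s₁))^r` are independent
(Dedekind `linearIndependent_monoidHom`/`AlgHom.card` for the separable field extension, and Vandermonde). -/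
def JobSpl : Prop := ∀ (a : An) (p : Par a.F), a.Comm →
  Fintype.card a.Emb = finrank a.F a.D ∧
  (∀ (n : ℕ) (y : Fin n → a.D), LinearIndependent a.F y →
    LinearIndependent (Om a.F) fun i => a.jL (y i)) ∧
  (∀ (c : La (La a.F)) y, a.jSh p (c • y) = a.phi1 p c • a.jSh p y) ∧
  (∀ (c : La (La a.F)) y, a.jQ p (c • y) = a.phi1 p c • a.jQ p y) ∧
  (∀ (n : ℕ) (y : Fin n → Sh a.D p), LinearIndependent (La (La a.F)) y →
    LinearIndependent (La (Om a.F)) fun i => a.jSh p (y i)) ∧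
  Submodule.span (La (Om a.F)) (Set.range (a.jQ p)) = ⊤ ∧
  ∀ ξ : a.ι → Lq a.F p.q, a.jSh p (AA p ξ a.B) = AE a.bb (xOf p (a.th p.q) ξ) ∧
    (∀ δ, a.jSh p (DA1 p ξ a.B δ) = DE1 a.bb (xOf p (a.th p.q) ξ) fun i => a.jQ p (δ i)) ∧
    ∀ δ δ', a.jSh p (DA2 p ξ a.B δ δ') =
      DE2 a.bb (xOf p (a.th p.q) ξ) (fun i => a.jQ p (δ i)) fun i => a.jQ p (δ' i)

/-- **JT** (file JT.lean; uses SS, Jet, MorB, ExtK, Avg, BC, Spl): transfer of the joint surjectivity.  With `π, ς` of `JobSS` for `A = AA`,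
`jSh (π y) ↦ avg (w' jSh y w)`.  `V0f = {δ ∈ Q^ι | π (DA1 δ) = 0}`; `ker lam` is the `Ω₁`-span of `jQ V0f` (dimension count, BC).
`Θ(e,δ) = π (DA2 e δ + DA1 e * ς (DA1 δ))`; its split version does not depend on the choice of `ω` when `lam e = 0`, and is bilinear on `ker lam`.
Expand `e` in vectors `jQ e_p`; a nonzero minor is a nonzero polynomial in the coefficients, so it is nonzero at a point of `φ(F')`
(`MvPolynomial.funext_set`); independence descends.  Finally write `δ = E v + [ω, X]` (`Slice.span`): `inn1`, `inn2_left/right` give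
`Θ([ω,X], δ') = -π DA1(ωδ')`, `Θ(e,[ω,X]) = π DA1(eω)`, both in `U'`, and `Θ(E v, E v') = B'₂(v,v')` for `v,v' ∈ V0'` (`JobExtK`). -/
def JobJT : Prop := ∀ (a : An) (p : Par a.F) (ξ : a.ι → Lq a.F p.q) (sl : Slice p ξ)
  (nf : ExtNF p ξ a.B sl) (N : NFD a.bb (xOf p (a.th p.q) ξ)), a.Comm → NFAPI N →
  ∀ (r : ℕ) (e : Fin r → a.ι → EE (Om a.F) p.q), (∀ t, N.lam (e t) = 0) →
  ∃ e' : Fin r → sl.κ → La (La a.F), (∀ t, e' t ∈ (a.ext p nf).V0) ∧
    finrank (La (Om a.F)) (N.JS e) ≤ finrank (La (La a.F)) ((a.ext p nf).JS e')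

/-- **Br** (file Br.lean; uses MorB, ExtK, NT, P1a-type independence, Avg, Spl, JT): `a' = a.ext p nf`,
`j y = avg (w' jSh y w)` (a ring hom on `Cent` by `NFAPI.cent`, injective, so `Cent` is commutative); `dim ≤` by independence and `JobEch` (3),
`dim ≥` by the elements `shC lᵢ * A^m`; `j (B'[α]) = lam (jQ (E α))`, and `lam` kills inner directions. -/
def JobBr : Prop := ∀ (a : An) (p : Par a.F) (ξ : a.ι → Lq a.F p.q)
  (N : NFD a.bb (xOf p (a.th p.q) ξ)), a.Comm → GenQ p ξ → NFAPI N →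
  ∃ a' : An, Nonempty (a.Bridge N a')

/-- **Inv** (file Inv.lean; uses BC): arithmetic of the invariants (`L0` is a field, `U ⊆ u₀ L0 = Y`, `U U ⊆ u₀² L0`), and their transfer through a
bridge (`span (j '' (U' U')) = RL RL`, `𝒜 = span (j '' L0')`). -/
def JobInv : Prop :=
  (∀ a : An, a.Comm → a.B1 → 0 < a.M ∧ a.M * a.nu = finrank a.F a.D ∧
    finrank a.F a.U ≤ a.M ∧ finrank a.F (a.U * a.U : Submodule a.F a.D) ≤ a.M ∧
    finrank a.F a.Y = a.M ∧ a.U ≤ a.Y ∧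
    finrank a.F a.V0 + finrank a.F a.U = Fintype.card a.ι) ∧
  ∀ (a a' : An) {q : ℕ} [NeZero q] {x : ZMod q → a.ι → Om a.F} (N : NFD a.bb x)
    (_ : a.Bridge N a'), (∀ δ δ', N.lam (δ + δ') = N.lam δ + N.lam δ') →
    finrank a'.F a'.U = finrank (La (Om a.F)) N.RL ∧
    finrank a'.F (a'.U * a'.U : Submodule a'.F a'.D) =
      finrank (La (Om a.F)) (N.RL * N.RL : Submodule _ _) ∧
    ∃ (𝒜 : Subalgebra (La (Om a.F)) (Lq (a.Emb → Om a.F) q)) (u₀ : Lq (a.Emb → Om a.F) q),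
      finrank (La (Om a.F)) 𝒜 = a'.M ∧ ∀ δ, ∃ y ∈ 𝒜, N.lam δ = u₀ * y

/-- **Cls** (file Cls.lean; uses BC, Spl, Inv): `k ~ k'` iff they agree on `L0`; `K` = embeddings of `L0` (each extends), `cf k = k u₀ / (rep) u₀`;
the span of `jL Y` is `{(cf k · y (cls k))}` by dimension, the span of `jL U` is the annihilator of `Γ` in it. -/
def JobCls : Prop := ∀ a : An, a.Comm → a.B1 → ∃ c : Cls (lOf a.bb), a.ClsOK c

/-- **R1** (file R1.lean; uses Ev, Nat, NCB).  Apply the substitution over `Om F` (naturality) to the identities `P2`, `P3` at level `d`; it maps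
`ordGe n` to `ordGe n`; if `b_κ(ψ) ∈ ordGe d` then `φ(b_κ(ψ)) ≡ φ'(0) b_κ(ψ)` mod `ordGe (d+1)` (`d ≥ 1`); cyclic sums `∑_{i<d} z (w.rotate i)` of
commutators vanish. -/
def JobR1 : Prop := ∀ (a : An) (c : Cls (lOf a.bb)), a.ClsOK c → a.P2 c → a.P3 c → a.R1

/-- **Solve** (file Solve.lean; uses Ev, NCB, Inv).  `β = B₂ mod U : V0 × V0 → Y/U` (values in `Y` and antisymmetry from `R1` with `d = 2` and linear `ψ`).
`Jr` + `dim Y^r = r M` gives joint surjectivity for `r = h+2` vectors; choose `e₂ ≠ 0` in the span of the last `h+1` with `β(e₁,e₂) = 0`; then `(e₁,e₂)` is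
jointly surjective and independent (if `h = 0` take any independent pair in `V0`).  Solve order by order: residual `r : words d → Y` with cyclic sums in `U`;
`r - cyc/d = ∑ₐ [uₐ, ρₐ]`; correct `ψ` in degree `d-1` by `δ(w') ∈ V0` with `β(eₐ, δ w') = -ρₐ w'`, and in degree `d` by preimages under `B₁`.
Perturbation formula: for `ε ∈ ordGe e`, `e ≥ 2`: `B(ψ+ε) - B(ψ) ≡ B₁ ε + B₂(ψ₁, ε) + B₂(ε, ψ₁)` mod `ordGe (e+2)` (`dens`). -/
def JobSolve : Prop := ∀ a : An, a.Comm → a.B1 → a.R1 → a.Jr (a.h + 2) →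
  2 ≤ finrank a.F a.V0 → ∃ ψ : a.ι → NC a.F (Fin 2), (∀ i, ψ i ∈ NC.ordGe a.F (Fin 2) 1) ∧
    LinearIndependent a.F (fun t : Fin 2 => fun i => (ψ i).co [t]) ∧ subPhi a.D ψ a.B = 0

/-- **SubK** (file SubK.lean; uses Ev, Nat, MorB): such a substitution is a morphism to `(F, D', Fin 2)` (it is onto mod `𝔪²` and maps `𝔪²` to `𝔪²`), and
constants are algebraic. -/
def JobSubK : Prop := ∀ (a : An) (ψ : a.ι → NC a.F (Fin 2)),
  (∀ i, ψ i ∈ NC.ordGe a.F (Fin 2) 1) →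
  LinearIndependent a.F (fun t : Fin 2 => fun i => (ψ i).co [t]) → subPhi a.D ψ a.B = 0 → a.Kill

/-- the extension step with an extra generic condition, packaged -/
def JobStep : Prop := ∀ (a : An) (c : Cls (lOf a.bb)) (q : ℕ) [NeZero q], a.Comm → a.B1 →
  ∀ P : (ZMod q → a.ι → Om a.F) → Prop, Gen P →
  ∃ (x : ZMod q → a.ι → Om a.F) (N : NFD a.bb x) (a' : An), P x ∧ G0 c.lr x ∧ NFAPI N ∧
    (∀ k, N.α.co 1 k = c.cf k * N.α.co 1 (c.rep (c.cls k))) ∧ Nonempty (a.Bridge N a')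

/-- **P2** (file P2.lean): `JobStep` (from GenB, GenX, NF, Br; roots `z̄` in the algebraically closed `Om F`, `z̄_k = cf k z̄_rep`) and
`Phase2` by strong induction on `nu`, then on `h` for `Two` states:
extend once to get `Two` (A12(1), Inv); for a `Two` state extend with `q` large to `a'` with `Jr (h+2)` (A5, `jt`; `dim V0' ≥ 2` by counting); if `P2` or `P3` fails
for `a'` at a minimal order, `JobCB` (2)+A3 resp. `G2`+A4 give an extension with smaller `nu` or `h`; otherwise R1, Solve, SubK.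
(P2 step: `u' = u (1 + ψ/cf)`, `φ' = φ + c T^d`; P3 step: `H' = H - γ' T^d`, using `b_κ^d ≡ l_κ^d`.) -/
def JobP2 : Prop := Phase2

/-! ## The colimit -/

/-- the standard polynomial -/
noncomputable def stdPoly {R : Type} [Ring R] (n : ℕ) (y : Fin n → R) : R :=
  ∑ g : Equiv.Perm (Fin n), (Equiv.Perm.sign g : ℤ) • (List.ofFn fun r => y (g r)).prod

/-- **PI** (file PI.lean): two generators mod `𝔪²` satisfy no standard identity on monomials.  Take `P₀, P₁` in the subalgebra with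
`Pₐ ≡ X iₐ` mod `𝔪²` (`i₀ ≠ i₁`); `stdPoly n (P₀^r P₁)` has coefficient `1` at the word `∏_r i₀^r i₁`; `stdPoly` is multilinear and the subalgebra is
spanned by monomials in `x, y`. -/
def JobPI : Prop := ∀ (σ : St) (x y : NC σ.D σ.ι), Dense2 (Algebra.adjoin σ.F {x, y}) →
  ∀ n : ℕ, ∃ m : Fin n → List Bool,
    stdPoly n (fun r => ((m r).map fun t => cond t y x).prod) ≠ 0

/-- **Final** (files Final.lean, S0270.lean; uses NCB, MorB, NT (3), PI).  `𝒯 = FreeAlgebra (MvPolynomial (ℕ × ℕ) ℚ) Bool` is countable.  Stages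
`(σₙ, valₙ : ℕ × ℕ → Fₙ, xₙ, yₙ)` give `ψₙ : 𝒯 →+* Sₙ`; start with `F = D = AlgebraicClosure ℚ`, `ι = Fin 2`.  Step `n`: make `stdPoly n (monomials)` a unit (PI, NT(3),
NCB), make `ψₙ(tₙ)` algebraic (`tₙ` runs infinitely often through `𝒯`), assign to the variables `(n, i+1)` the coefficients of a monic polynomial killing it and to
`(n, 0)` the inverse of the scalar `pₙ` (`pₙ` runs infinitely often through the polynomial ring); older variables are transported by `φ`.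
`I = {t | ψₙ t = 0 eventually}`, `D = 𝒯/I` is a domain, the image of the polynomial ring is a central field, every element is integral over it, so `D` is a division ring;
a finite dimension `n` over the centre would force `stdPoly (n+1) = 0` (alternating multilinear). -/
def JobFinal : Prop := (∀ (σ : St) (f : NC σ.D σ.ι), Good σ.F f) →
  ∃ (D : Type) (_ : DivisionRing D), Countable D ∧ CharZero D ∧
    Algebra.IsAlgebraic (Subring.center D) D ∧
    (∃ x y : D, Algebra.adjoin (Subring.center D) ({x, y} : Set D) = ⊤) ∧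
    ¬ FiniteDimensional (Subring.center D) D

end Crest.Agent.KU
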