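import Crest.Agent.KU.Jobs

/-! Row 180, job Mor: an extension at a generating point along a slice is a morphism. -/

set_option autoImplicit false
set_option linter.unusedSectionVars false

namespace Crest.Agent.KU
namespace MorAux

open Finset Module

/-! ### abstract algebra -/

theorem ann {Q κ : Type} [Ring Q] [IsDiv Q] [Fintype κ] [DecidableEq κ] (M : Submodule Q (κ → Q))
    (hr : ∀ m ∈ M, ∀ g : Q, (fun α => m α * g) ∈ M) (hM : M ≠ ⊤) :
    ∃ v : κ → Q, v ≠ 0 ∧ (∀ α g, Commute (v α) g) ∧ ∀ m ∈ M, ∑ α, m α * v α = 0 := by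
  classical
  have h0 : ∃ v : κ → Q, v ≠ 0 ∧ ∀ m ∈ M, ∑ α, m α * v α = 0 := by
    letI := IsDiv.divisionRing Q
    obtain ⟨φ, hφ, hle⟩ := Submodule.exists_le_ker_of_lt_top M (lt_top_iff_ne_top.2 hM)
    have e : ∀ m : κ → Q, φ m = ∑ α, m α * φ (Pi.single α 1) := fun m => by
      conv_lhs => rw [pi_eq_sum_univ' m]
      rw [map_sum]
      refine sum_congr rfl fun α _ => ?_
      rw [map_smul, smul_eq_mul]
    refine ⟨fun α => φ (Pi.single α 1), fun h => hφ ?_, fun m hm => ?_⟩
    · refine LinearMap.ext fun m => ?_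
      rw [e]
      refine sum_eq_zero fun α _ => ?_
      rw [show φ (Pi.single α 1) = 0 from congrFun h α, mul_zero]
    · rw [← e]; exact hle hm
  have key : ∀ n : ℕ, ∀ v : κ → Q, v ≠ 0 → (∀ m ∈ M, ∑ α, m α * v α = 0) →
      (univ.filter fun α => v α ≠ 0).card ≤ n →
      ∃ v : κ → Q, v ≠ 0 ∧ (∀ α g, Commute (v α) g) ∧ ∀ m ∈ M, ∑ α, m α * v α = 0 := by
    intro n
    induction n with
    | zero =>
      intro v hv _ hc
      exfalso
      apply hv
      funext α
      by_contra h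
      have : α ∈ univ.filter fun α => v α ≠ 0 := by simpa using h
      rw [Nat.le_zero, card_eq_zero] at hc
      simp [hc] at this
    | succ n ih =>
      intro v hv ha hc
      obtain ⟨β, hβ⟩ : ∃ β, v β ≠ 0 := by
        by_contra h; push Not at h; exact hv (funext h)
      obtain ⟨u, hu⟩ := IsDiv.unit _ hβ
      set w : κ → Q := fun α => v α * (↑u⁻¹ : Q) with hw
      have hwβ : w β = 1 := by simp [hw, ← hu]
      have hwa : ∀ m ∈ M, ∑ α, m α * w α = 0 := fun m hm => by
        simp only [hw, ← mul_assoc, ← sum_mul, ha m hm, zero_mul]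
      by_cases hcen : ∀ α g, Commute (w α) g
      · exact ⟨w, fun h => by simpa [hwβ] using congrFun h β, hcen, hwa⟩
      · push Not at hcen
        obtain ⟨α, g, hg⟩ := hcen
        refine ih (fun γ => g * w γ - w γ * g) (fun h => hg ?_) (fun m hm => ?_) ?_
        · exact (sub_eq_zero.1 (congrFun h α)).symm
        · have h1 := hwa _ (hr m hm g)
          have h2 := hwa m hm
          simp only [mul_sub, ← mul_assoc, sum_sub_distrib, ← sum_mul, h1, h2, zero_mul, sub_zero]
        · have hsub : (univ.filter fun γ => g * w γ - w γ * g ≠ 0) ⊆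
              (univ.filter fun α => v α ≠ 0).erase β := by
            intro γ hγ
            simp only [mem_filter, mem_univ, true_and, mem_erase] at hγ ⊢
            refine ⟨fun h => hγ (by simp [h, hwβ]), fun h => hγ (by simp [hw, h])⟩
          have := card_le_card hsub
          rw [card_erase_of_mem (by simpa using hβ)] at this
          omega
  obtain ⟨v, hv, ha⟩ := h0
  exact key _ v hv ha le_rfl

section Der
variable {K R : Type} [Field K] [CharZero K] [Ring R] [Algebra K R]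

theorem der_one (d : R →ₗ[K] R) (hd : ∀ x y, d (x * y) = d x * y + x * d y) : d 1 = 0 := by
  have := hd 1 1
  simpa using this

theorem inner1 (d : R →ₗ[K] R) (hd : ∀ x y, d (x * y) = d x * y + x * d y) {q : ℕ} (hq : 0 < q)
    (u u' : R) (h1 : u * u' = 1) (h2 : u' * u = 1) (hu : d (u ^ q) = 0) :
    d u = ((q : K)⁻¹ • ∑ a ∈ range q, d (u ^ a) * u' ^ a) * u -
      u * ((q : K)⁻¹ • ∑ a ∈ range q, d (u ^ a) * u' ^ a) := by
  have hp : ∀ a : ℕ, u ^ a * u' ^ a = 1 := fun a => by
    rw [← (show Commute u u' from h1.trans h2.symm).mul_pow, h1, one_pow]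
  have e1 : ∀ a : ℕ, u * (d (u ^ a) * u' ^ a) = d (u ^ (a + 1)) * u' ^ (a + 1) * u - d u := by
    intro a
    rw [pow_succ u', mul_assoc, mul_assoc (u' ^ a), h2, mul_one, pow_succ', hd, add_mul,
      mul_assoc (d u), hp, mul_one, mul_assoc]
    abel
  have e2 : ∑ a ∈ range q, d (u ^ (a + 1)) * u' ^ (a + 1) = ∑ a ∈ range q, d (u ^ a) * u' ^ a := by
    have h := sum_range_succ' (fun a => d (u ^ a) * u' ^ a) q
    rw [sum_range_succ, hu] at h
    simpa [der_one d hd] using h.symm
  have e3 : u * ∑ a ∈ range q, d (u ^ a) * u' ^ a =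
      (∑ a ∈ range q, d (u ^ a) * u' ^ a) * u - (q : K) • d u := by
    rw [mul_sum, sum_congr rfl fun a _ => e1 a, sum_sub_distrib, ← sum_mul, e2]
    simp [Nat.cast_smul_eq_nsmul]
  have hq' : (q : K) ≠ 0 := by exact_mod_cast hq.ne'
  rw [smul_mul_assoc, mul_smul_comm, e3, ← smul_sub, sub_sub_cancel, smul_smul,
    inv_mul_cancel₀ hq', one_smul]

theorem pow_comm {u v : R} {ζ : K} (h : v * u = ζ • (u * v)) (b : ℕ) :
    v ^ b * u = ζ ^ b • (u * v ^ b) := by
  induction b with
  | zero => simp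
  | succ b ih =>
    rw [pow_succ', mul_assoc, ih, mul_smul_comm, ← mul_assoc, h, smul_mul_assoc, smul_smul,
      mul_assoc, ← pow_succ', ← pow_succ]

theorem pow_comm' {u v : R} {ζ : K} (h : v * u = ζ • (u * v)) (b : ℕ) :
    v * u ^ b = ζ ^ b • (u ^ b * v) := by
  induction b with
  | zero => simp
  | succ b ih =>
    rw [pow_succ, ← mul_assoc, ih, smul_mul_assoc, mul_assoc, h, mul_smul_comm, smul_smul,
      ← mul_assoc, ← pow_succ]

theorem inner2 (d : R →ₗ[K] R) (hd : ∀ x y, d (x * y) = d x * y + x * d y) {q : ℕ} (hq : 0 < q)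
    (u u' v v' : R) (h1 : u * u' = 1) (h2 : u' * u = 1) (h3 : v * v' = 1) (h4 : v' * v = 1)
    (hu : ∃ c : K, u ^ q = algebraMap K R c) (hv : ∃ c : K, v ^ q = algebraMap K R c)
    (ζ : K) (hζ : ζ ≠ 0) (h : v * u = ζ • (u * v)) :
    ∃ n : R, ∀ r ∈ Algebra.adjoin K {u, v}, d r = n * r - r * n := by
  have hc : ∀ c : K, d (algebraMap K R c) = 0 := fun c => by
    rw [Algebra.algebraMap_eq_smul_one, map_smul, der_one d hd, smul_zero]
  obtain ⟨a, ha⟩ := hu
  obtain ⟨b, hb⟩ := hv
  set n₁ : R := (q : K)⁻¹ • ∑ a ∈ range q, d (u ^ a) * u' ^ a with hn₁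
  have e1 : d u = n₁ * u - u * n₁ := inner1 d hd hq u u' h1 h2 (by rw [ha, hc])
  set d' : R →ₗ[K] R := d - (LinearMap.mulLeft K n₁ - LinearMap.mulRight K n₁) with hd'
  have d'a : ∀ x, d' x = d x - (n₁ * x - x * n₁) := fun x => rfl
  have hd'm : ∀ x y, d' (x * y) = d' x * y + x * d' y := fun x y => by
    simp only [d'a, hd]; noncomm_ring
  have d'u : d' u = 0 := by rw [d'a, e1, sub_self]
  set n₂ : R := (q : K)⁻¹ • ∑ a ∈ range q, d' (v ^ a) * v' ^ a with hn₂
  have e2 : d' v = n₂ * v - v * n₂ := inner1 d' hd'm hq v v' h3 h4 (by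
    rw [d'a, hb, hc, Algebra.commutes]; simp)
  have hp : ∀ a : ℕ, v ^ a * v' ^ a = 1 := fun a => by
    rw [← (show Commute v v' from h3.trans h4.symm).mul_pow, h3, one_pow]
  have hp' : ∀ a : ℕ, v' ^ a * v ^ a = 1 := fun a => by
    rw [← (show Commute v' v from h4.trans h3.symm).mul_pow, h4, one_pow]
  have e3 : n₂ * u = u * n₂ := by
    rw [hn₂, smul_mul_assoc, mul_smul_comm, sum_mul, mul_sum]
    congr 1
    refine sum_congr rfl fun k _ => ?_
    have f1 := pow_comm h k
    have f2 : d' (v ^ k) * u = ζ ^ k • (u * d' (v ^ k)) := by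
      have := congrArg d' f1
      rwa [map_smul, hd'm, hd'm, d'u, mul_zero, add_zero, zero_mul, zero_add] at this
    have f3 : u * v' ^ k = ζ ^ k • (v' ^ k * u) := by
      calc u * v' ^ k = v' ^ k * (v ^ k * u) * v' ^ k := by rw [← mul_assoc, hp', one_mul]
        _ = ζ ^ k • (v' ^ k * u) := by
          rw [f1, mul_smul_comm, smul_mul_assoc, mul_assoc, mul_assoc, hp, mul_one]
    refine smul_right_injective R (pow_ne_zero k hζ) ?_
    change ζ ^ k • _ = ζ ^ k • _
    rw [mul_assoc, ← mul_smul_comm, ← f3, ← mul_assoc, f2, smul_mul_assoc, mul_assoc]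
  refine ⟨n₁ + n₂, fun r hr => ?_⟩
  induction hr using Algebra.adjoin_induction with
  | mem x hx =>
    rcases hx with rfl | rfl
    · rw [e1, add_mul, mul_add, e3]; abel
    · have := d'a x
      rw [e2] at this
      rw [add_mul, mul_add, eq_sub_iff_add_eq.1 this |>.symm]; abel
  | algebraMap c => rw [hc, Algebra.commutes, sub_self]
  | add x y _ _ hx hy => rw [map_add, hx, hy]; noncomm_ring
  | mul x y _ _ hx hy => rw [hd, hx, hy]; noncomm_ring

end Der

/-! ### `NC` modulo `𝔪²` -/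

section NCs
variable {K R κ : Type} [Field K] [Ring R] [Algebra K R]

theorem ord_zero (f : NC R κ) : f ∈ NC.ordGe R κ 0 := fun _ h => absurd h (Nat.not_lt_zero _)

theorem ord_mono {d e : ℕ} (h : d ≤ e) {f : NC R κ} (hf : f ∈ NC.ordGe R κ e) :
    f ∈ NC.ordGe R κ d := fun w hw => hf w (lt_of_lt_of_le hw h)

theorem mem_ord2 {f : NC R κ} (h0 : f.co [] = 0) (h1 : ∀ α, f.co [α] = 0) :
    f ∈ NC.ordGe R κ 2 := by
  intro w hw
  match w, hw with
  | [], _ => exact h0
  | [α], _ => exact h1 α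
  | _ :: _ :: _, h => simp at h

theorem algebraMap_nc (c : K) : algebraMap K (NC R κ) c = NC.C (algebraMap K R c) := by
  ext w
  rw [Algebra.algebraMap_eq_smul_one, NC.co_smul]
  cases w <;> simp [Algebra.algebraMap_eq_smul_one]

theorem X_nil (i : κ) : (NC.X i : NC R κ).co [] = 0 := by simp [NC.X, NC.mon]

theorem X_single [DecidableEq κ] (i j : κ) :
    (NC.X i : NC R κ).co [j] = if j = i then 1 else 0 := by simp [NC.X, NC.mon]

theorem X_mul_cons [DecidableEq κ] (i j : κ) (g : NC R κ) (w : List κ) :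
    (NC.X i * g).co (j :: w) = if j = i then g.co w else 0 := by
  rw [NC.mul_cons, X_nil, zero_mul, zero_add]
  split_ifs with h
  · have : NC.der j (NC.X i : NC R κ) = 1 := by
      ext v; cases v <;> simp [NC.X, NC.mon, h]
    rw [this, one_mul]
  · have : NC.der j (NC.X i : NC R κ) = 0 := by
      ext v; simp [NC.X, NC.mon, h]
    rw [this, zero_mul, NC.co_zero]

/-- `B + 𝔪²` -/
def plus2 (B : Subalgebra K (NC R κ)) : Subalgebra K (NC R κ) where
  carrier := {f | ∃ b ∈ B, f - b ∈ NC.ordGe R κ 2}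
  mul_mem' := by
    rintro f g ⟨b, hb, h⟩ ⟨b', hb', h'⟩
    refine ⟨b * b', mul_mem hb hb', ?_⟩
    have e : f * g - b * b' = (f - b) * g + b * (g - b') := by noncomm_ring
    rw [e]
    exact add_mem (by simpa using NC.mul_mem_ordGe h (ord_zero g))
      (by simpa using NC.mul_mem_ordGe (ord_zero b) h')
  add_mem' := by
    rintro f g ⟨b, hb, h⟩ ⟨b', hb', h'⟩
    refine ⟨b + b', add_mem hb hb', ?_⟩
    have e : f + g - (b + b') = (f - b) + (g - b') := by abel
    rw [e]; exact add_mem h h'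
  algebraMap_mem' c := ⟨_, B.algebraMap_mem c, by simp⟩

theorem mem_plus2 {B : Subalgebra K (NC R κ)} {f : NC R κ} :
    f ∈ plus2 B ↔ ∃ b ∈ B, f - b ∈ NC.ordGe R κ 2 := Iff.rfl

theorem le_plus2 {B : Subalgebra K (NC R κ)} {f : NC R κ} (hf : f ∈ B) : f ∈ plus2 B :=
  ⟨f, hf, by simp⟩

theorem plus2_congr {B : Subalgebra K (NC R κ)} {f g : NC R κ} (hg : g ∈ plus2 B)
    (h0 : f.co [] = g.co []) (h1 : ∀ α, f.co [α] = g.co [α]) : f ∈ plus2 B := by
  obtain ⟨b, hb, h⟩ := hg
  refine ⟨b, hb, ?_⟩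
  have e : f - b = (f - g) + (g - b) := by abel
  rw [e]
  exact add_mem (mem_ord2 (by simp [h0]) fun α => by simp [h1]) h

theorem dense_all [Fintype κ] [DecidableEq κ] {B : Subalgebra K (NC R κ)} (hB : Dense2 B) (k : ℕ)
    (f : NC R κ) : ∃ b ∈ B, f - b ∈ NC.ordGe R κ k := by
  have step : ∀ k : ℕ, ∀ f ∈ NC.ordGe R κ k, ∃ b ∈ B, f - b ∈ NC.ordGe R κ (k + 1) := by
    intro k
    induction k with
    | zero =>
      intro f _
      obtain ⟨b, hb, h⟩ := hB f
      exact ⟨b, hb, ord_mono (by omega) h⟩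
    | succ k ih =>
      intro f hf
      have hd : ∀ i, NC.der i f ∈ NC.ordGe R κ k := fun i w hw => hf _ (by simpa using hw)
      choose b' hb' h' using fun i => ih _ (hd i)
      choose b hb h using fun i => hB (NC.X i)
      have hX : ∀ i, (NC.X i : NC R κ) ∈ NC.ordGe R κ 1 := fun i w hw => by
        rw [List.length_eq_zero_iff.1 (by omega : w.length = 0)]; exact X_nil i
      have hb1 : ∀ i, b i ∈ NC.ordGe R κ 1 := fun i => by
        have := sub_mem (hX i) (ord_mono (by omega) (h i))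
        rwa [sub_sub_cancel] at this
      have e : f = ∑ i, NC.X i * NC.der i f := by
        ext w
        rw [NC.co_sum]
        cases w with
        | nil => rw [hf [] (by simp)]; simp [X_nil]
        | cons j w => simp [X_mul_cons]
      refine ⟨∑ i, b i * b' i, sum_mem fun i _ => mul_mem (hb i) (hb' i), ?_⟩
      rw [e, ← sum_sub_distrib]
      refine sum_mem fun i _ => ?_
      have e2 : NC.X i * NC.der i f - b i * b' i =
          (NC.X i - b i) * NC.der i f + b i * (NC.der i f - b' i) := by noncomm_ring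
      rw [e2]
      exact add_mem (ord_mono (by omega) (NC.mul_mem_ordGe (h i) (hd i)))
        (ord_mono (by omega) (NC.mul_mem_ordGe (hb1 i) (h' i)))
  induction k with
  | zero => exact ⟨0, zero_mem _, ord_zero _⟩
  | succ k ih =>
    obtain ⟨b, hb, h⟩ := ih
    obtain ⟨b', hb', h'⟩ := step k _ h
    exact ⟨b + b', add_mem hb hb', by rwa [← sub_sub]⟩

/-- the jet of order one -/
def jet (K R κ : Type) [Field K] [Ring R] [Algebra K R] : NC R κ →ₗ[K] (Option κ → R) where
  toFun f o := f.co o.toList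
  map_add' _ _ := rfl
  map_smul' _ _ := rfl

end NCs

/-! ### the symbol algebra `Q` -/

section Qs
variable {F : Type} [Field F] (p : Par F)

theorem co_sc_zpow (A : Type) [Ring A] [Algebra F A] (i : ℤ) (f : Lq A p.q) (n : ℤ) :
    ((sc A p ^ i) f).co n = (p.ζ ^ n) ^ i • f.co n := by
  have hζ : p.ζ ≠ 0 := p.prim.ne_zero (NeZero.ne p.q)
  have hn : p.ζ ^ n ≠ 0 := zpow_ne_zero n hζ
  have hinv : ∀ f : Lq A p.q, ((sc A p)⁻¹ f).co n = (p.ζ ^ n)⁻¹ • f.co n := fun f => by
    have h : sc A p ((sc A p)⁻¹ f) = f := (sc A p).apply_symm_apply f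
    have h2 := co_sc A p ((sc A p)⁻¹ f) n
    rw [h] at h2
    rw [h2, smul_smul, inv_mul_cancel₀ hn, one_smul]
  induction i using Int.induction_on generalizing f with
  | zero => simp
  | succ i ih =>
    rw [zpow_add_one, zpow_add_one₀ hn]
    change ((sc A p ^ (i : ℤ)) (sc A p f)).co n = _
    rw [ih, co_sc, smul_smul]
  | pred i ih =>
    rw [zpow_sub_one, zpow_sub_one₀ hn]
    change ((sc A p ^ (-i : ℤ)) ((sc A p)⁻¹ f)).co n = _
    rw [ih, hinv, smul_smul]

/-- `s₁` -/
noncomputable def uQ : Sh F p := Sk.mono _ _ 0 (Sk.mono 1 p.q 1 1)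
/-- `s` -/
noncomputable def vQ : Sh F p := Sk.mono _ _ 1 1

theorem bdd_mul {q : ℕ} (hq : 0 < q) {M : Type} [Zero M] {g : ℤ → M} (r : ℤ) (hr : r < q)
    (h : ∃ N : ℤ, ∀ n < N, g n = 0) : ∃ N : ℤ, ∀ a < N, g (q * a + r) = 0 := by
  obtain ⟨N, hN⟩ := h
  have hq' : (0 : ℤ) < q := by exact_mod_cast hq
  refine ⟨-(N.natAbs : ℤ) - 1, fun a ha => hN _ ?_⟩
  have h2 : -(N.natAbs : ℤ) ≤ N := by omega
  have h3 : (0 : ℤ) ≤ N.natAbs := by omega
  nlinarith

theorem center (z : Sh F p) (hu : Commute z (uQ p)) (hv : Commute z (vQ p)) :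
    ∃ c : La (La F), z = algebraMap _ _ c := by
  have hq : 0 < p.q := NeZero.pos _
  have hq' : (0 : ℤ) < p.q := by exact_mod_cast hq
  have h1 : ∀ n m : ℤ, ¬ (p.q : ℤ) ∣ n → (z.co n).co m = 0 := fun n m hn => by
    have h := congrArg (fun f : Sh F p => (f.co n).co (m + 1)) hu.eq
    simp only [uQ, Sk.mul_mono_co, Sk.mono_mul_co, sub_zero, zpow_zero] at h
    have e : (sc F p ^ n) (Sk.mono 1 p.q 1 1) = Sk.mono 1 p.q 1 (p.ζ ^ n) := by
      ext k
      rw [co_sc_zpow]
      by_cases hk : k = 1 <;> simp [hk]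
    rw [e, Sk.mul_mono_co] at h
    simp only [add_sub_cancel_right, one_zpow, RingAut.one_apply, one_mul] at h
    have hne : p.ζ ^ n ≠ 1 := fun h => hn ((p.prim.zpow_eq_one_iff_dvd n).1 h)
    by_contra h0
    exact hne (mul_left_cancel₀ h0 (h.trans (mul_one _).symm))
  have h2 : ∀ n m : ℤ, ¬ (p.q : ℤ) ∣ m → (z.co n).co m = 0 := fun n m hm => by
    have h := congrArg (fun f : Sh F p => (f.co (n + 1)).co m) hv.eq
    simp only [vQ, Sk.mul_mono_co, Sk.mono_mul_co, add_sub_cancel_right, map_one, mul_one,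
      one_mul, zpow_one, co_sc, smul_eq_mul] at h
    have hne : p.ζ ^ m ≠ 1 := fun h => hm ((p.prim.zpow_eq_one_iff_dvd m).1 h)
    by_contra h0
    exact hne (mul_right_cancel₀ h0 (h.symm.trans (one_mul _).symm))
  refine ⟨⟨fun a => ⟨fun b => (z.co (p.q * a + 0)).co (p.q * b + 0),
    bdd_mul hq 0 hq' (z.co (p.q * a + 0)).bdd⟩, ?_⟩, ?_⟩
  · obtain ⟨N, hN⟩ := bdd_mul hq 0 hq' z.bdd
    exact ⟨N, fun a ha => by ext b; simp only [hN a ha]; rfl⟩
  · ext n m
    rw [Sk.co_algebraMap]
    split_ifs with hn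
    · rw [Sk.co_algebraMap]
      split_ifs with hm
      · simp [Int.mul_ediv_cancel' hn, Int.mul_ediv_cancel' hm]
      · exact h2 n m hm
    · exact h1 n m hn

theorem lq_decomp {q : ℕ} [NeZero q] (ξ : Lq F q) :
    ∃ f : Fin q → La F, ξ = ∑ r, f r • Sk.mono 1 q (r : ℕ) 1 := by
  have hq : 0 < q := NeZero.pos _
  have hq' : (0 : ℤ) < q := by exact_mod_cast hq
  refine ⟨fun r => ⟨fun a => ξ.co (q * a + (r : ℕ)),
    bdd_mul hq _ (by exact_mod_cast r.2) ξ.bdd⟩, ?_⟩
  ext n
  have hr : (n % q).toNat < q := by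
    have := Int.emod_lt_of_pos n hq'; have := Int.emod_nonneg n hq'.ne'; omega
  have hr' : (((n % q).toNat : ℕ) : ℤ) = n % q := by
    have := Int.emod_nonneg n hq'.ne'; omega
  rw [Sk.co_sum, Finset.sum_eq_single (⟨(n % q).toNat, hr⟩ : Fin q)]
  · rw [Sk.co_smul, finsum_eq_single _ (n / q)]
    · simp only [Sk.co_mono, hr']
      rw [if_pos (by rw [Int.emod_def]), Int.mul_ediv_add_emod, smul_eq_mul, mul_one]
    · intro a ha
      rw [Sk.co_mono, if_neg, smul_zero]
      intro hc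
      apply ha
      simp only [hr'] at hc
      have := Int.mul_ediv_add_emod n q
      have h2 : (q : ℤ) * a = q * (n / q) := by omega
      exact mul_left_cancel₀ hq'.ne' h2
  · intro m _ hm
    rw [Sk.co_smul]
    refine finsum_eq_zero_of_forall_eq_zero fun a => ?_
    rw [Sk.co_mono, if_neg, smul_zero]
    intro hc
    apply hm
    ext
    have h1 : ((m : ℕ) : ℤ) < q := by exact_mod_cast m.2
    have : n % q = (m : ℕ) := by
      rw [show n = (m : ℕ) + q * a by omega, Int.add_mul_emod_self_left]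
      exact Int.emod_eq_of_lt (by omega) h1
    simp [this]
  · simp

theorem cst_algebraMap (f : La F) :
    (Sk.cst (sc F p) p.q (algebraMap (La F) (Lq F p.q) f) : Sh F p) =
      algebraMap (La (La F)) (Sh F p) (Sk.cst 1 0 f) := by
  have hq : (p.q : ℤ) ≠ 0 := by exact_mod_cast NeZero.ne p.q
  refine Sk.ext (funext fun n => ?_)
  rw [Sk.co_algebraMap, Sk.co_cst, Sk.co_cst]
  by_cases h0 : n = 0
  · simp [h0]
  · rw [if_neg h0]
    split_ifs with h1 h2
    · obtain ⟨a, rfl⟩ := h1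
      rw [Int.mul_ediv_cancel_left _ hq] at h2
      simp [h2] at h0
    · simp
    · rfl

theorem mono_pow {q : ℕ} (r : ℕ) : (Sk.mono 1 q 1 1 : Lq F q) ^ r = Sk.mono 1 q r 1 := by
  induction r with
  | zero => simp [Sk.one_def]
  | succ r ih => rw [pow_succ, ih, Sk.mono_mul_mono]; simp

theorem XQ_mem {ι : Type} (ξ : ι → Lq F p.q) (i : ι) :
    XQ p ξ i ∈ Algebra.adjoin (La (La F)) {uQ p, vQ p} := by
  have e : XQ p ξ i = Sk.cst (sc F p) p.q (ξ i) * vQ p := by
    change _ = Sk.mono _ _ 0 _ * Sk.mono _ _ 1 1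
    rw [Sk.mono_mul_mono]; simp [XQ]
  rw [e]
  refine mul_mem ?_ (Algebra.subset_adjoin (by simp))
  obtain ⟨f, hf⟩ := lq_decomp (ξ i)
  rw [hf, map_sum]
  refine sum_mem fun r _ => ?_
  rw [Algebra.smul_def, map_mul, cst_algebraMap, ← mono_pow, map_pow]
  exact mul_mem (Subalgebra.algebraMap_mem _ _) (pow_mem (Algebra.subset_adjoin (by
    left; rfl)) _)

theorem vu (hc : ∀ c : F, shC F p (algebraMap F F c) =
      algebraMap (La (La F)) (Sh F p) (toLa2 F c)) :
    vQ p * uQ p = toLa2 F p.ζ • (uQ p * vQ p) := by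
  rw [Algebra.smul_def, ← hc]
  change _ = Sk.mono _ _ 0 (Sk.mono 1 p.q 0 p.ζ) * _
  simp only [uQ, vQ, Sk.mono_mul_mono]
  congr 1
  ext k
  simp only [zpow_one, one_mul, co_sc, map_one, mul_one, zpow_zero, RingAut.one_apply,
    Sk.mono_mul_mono]
  by_cases hk : k = 1 <;> simp [hk]

theorem inner [CharZero F] (hc : ∀ c : F, shC F p (algebraMap F F c) =
      algebraMap (La (La F)) (Sh F p) (toLa2 F c))
    (d : Sh F p →ₗ[La (La F)] Sh F p) (hd : ∀ x y, d (x * y) = d x * y + x * d y) :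
    ∃ n, ∀ r ∈ Algebra.adjoin (La (La F)) {uQ p, vQ p}, d r = n * r - r * n := by
  have hu : uQ p ≠ 0 := fun h => by
    simpa [uQ] using congrArg (fun f : Sh F p => (f.co 0).co 1) h
  have hv : vQ p ≠ 0 := fun h => by
    simpa [vQ] using congrArg (fun f : Sh F p => f.co 1) h
  obtain ⟨u, hu'⟩ := IsDiv.unit _ hu
  obtain ⟨v, hv'⟩ := IsDiv.unit _ hv
  have h := vu p hc
  have hz : toLa2 F p.ζ ^ p.q = 1 := by rw [← map_pow, p.prim.pow_eq_one, map_one]
  refine inner2 d hd (NeZero.pos p.q) (uQ p) (↑u⁻¹) (vQ p) (↑v⁻¹) (by simp [← hu'])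
    (by simp [← hu']) (by simp [← hv']) (by simp [← hv'])
    (center p _ ((Commute.refl _).pow_left _) ?_) (center p _ ?_ ((Commute.refl _).pow_left _))
    (toLa2 F p.ζ) ((map_ne_zero _).2 (p.prim.ne_zero (NeZero.ne p.q))) h
  · have := pow_comm' h p.q
    rw [hz, one_smul] at this
    exact this.symm
  · have := pow_comm h p.q
    rw [hz, one_smul] at this
    exact this

/-- step (c) -/
theorem genQ [CharZero F] {ι : Type} [Fintype ι] (hc : ∀ c : F, shC F p (algebraMap F F c) =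
      algebraMap (La (La F)) (Sh F p) (toLa2 F c)) (ξ : ι → Lq F p.q) (sl : Slice p ξ)
    (hG : GenQ p ξ) (f : NC (Sh F p) sl.κ) :
    f ∈ plus2 (Algebra.adjoin (La (La F)) (Set.range (linSub (XQ p ξ) sl.E))) := by
  set T := plus2 (Algebra.adjoin (La (La F)) (Set.range (linSub (XQ p ξ) sl.E))) with hT
  have hy : ∀ i, linSub (XQ p ξ) sl.E i ∈ T := fun i =>
    le_plus2 (Algebra.subset_adjoin ⟨i, rfl⟩)
  have hsurj : ∀ g : Sh F p, ∃ t ∈ T, t.co [] = g := fun g => by
    have hg : g ∈ Algebra.adjoin (La (La F)) (Set.range (XQ p ξ)) := by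
      rw [show Algebra.adjoin (La (La F)) (Set.range (XQ p ξ)) = ⊤ from hG]; trivial
    induction hg using Algebra.adjoin_induction with
    | mem x hx =>
      obtain ⟨i, rfl⟩ := hx
      exact ⟨_, hy i, by simp [linSub]⟩
    | algebraMap c => exact ⟨_, T.algebraMap_mem c, by rw [algebraMap_nc]; rfl⟩
    | add x y _ _ hx hy =>
      obtain ⟨t, ht, rfl⟩ := hx; obtain ⟨t', ht', rfl⟩ := hy
      exact ⟨t + t', add_mem ht ht', rfl⟩
    | mul x y _ _ hx hy =>
      obtain ⟨t, ht, rfl⟩ := hx; obtain ⟨t', ht', rfl⟩ := hy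
      exact ⟨t * t', mul_mem ht ht', NC.mul_nil _ _⟩
  choose t ht ht0 using hsurj
  let M : Submodule (Sh F p) (sl.κ → Sh F p) :=
    { carrier := {m | NC.lin m ∈ T}
      zero_mem' := plus2_congr (zero_mem T) rfl fun _ => rfl
      add_mem' := fun {m m'} hm hm' => plus2_congr (add_mem hm hm') (by simp) fun _ => by simp
      smul_mem' := fun g m hm => plus2_congr (mul_mem (ht g) hm) (by simp) fun α => by
        simp [NC.mul_single, ht0] }
  have hM : ∀ s ∈ T, s.co [] = 0 → (fun α => s.co [α]) ∈ M := fun s hs h0 =>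
    plus2_congr hs (by simp [h0]) fun _ => rfl
  have hMtop : M = ⊤ := by
    by_contra hne
    obtain ⟨v, hv0, hvc, hva⟩ := ann M (fun m hm g =>
      plus2_congr (mul_mem hm (ht g)) (by simp) fun α => by simp [NC.mul_single, ht0]) hne
    choose c hcv using fun α => center p (v α) (hvc α _) (hvc α _)
    have hva' : ∀ m ∈ M, ∑ α, c α • m α = 0 := fun m hm => by
      rw [← hva m hm]
      refine sum_congr rfl fun α _ => ?_
      rw [hcv, Algebra.smul_def, Algebra.commutes]
    have wd : ∀ s ∈ T, ∑ α, c α • (t (s.co [])).co [α] = ∑ α, c α • s.co [α] := fun s hs => by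
      have := hva' _ (hM _ (sub_mem (ht (s.co [])) hs) (by simp [ht0]))
      simpa [smul_sub, sub_eq_zero] using this
    let d : Sh F p →ₗ[La (La F)] Sh F p :=
      { toFun := fun g => ∑ α, c α • (t g).co [α]
        map_add' := fun g h => by
          have := wd _ (add_mem (ht g) (ht h))
          simpa [ht0, sum_add_distrib] using this
        map_smul' := fun a g => by
          have := wd _ (T.smul_mem (ht g) a)
          simp only [NC.co_smul, ht0] at this
          simp only [RingHom.id_apply, this, Finset.smul_sum]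
          exact sum_congr rfl fun α _ => smul_comm _ _ _ }
    have hd : ∀ x y, d (x * y) = d x * y + x * d y := fun x y => by
      have := wd _ (mul_mem (ht x) (ht y))
      simp only [NC.mul_nil, ht0, NC.mul_single, smul_add, sum_add_distrib] at this
      change ∑ α, c α • (t (x * y)).co [α] =
        (∑ α, c α • (t x).co [α]) * y + x * ∑ α, c α • (t y).co [α]
      rw [this, sum_mul, mul_sum, add_comm]
      simp
    obtain ⟨n, hn⟩ := inner p hc d hd
    have hc0 : c = 0 := sl.inj c n fun i => by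
      rw [← hn _ (XQ_mem p ξ i)]
      have := wd _ (hy i)
      simp only [linSub, NC.co_add, NC.C_nil, NC.lin_nil, add_zero, NC.C_cons, NC.lin_single,
        zero_add] at this
      exact this.symm
    apply hv0
    funext α
    rw [hcv, hc0]; simp
  have h1 : (fun α => (f - t (f.co [])).co [α]) ∈ M := hMtop ▸ Submodule.mem_top
  exact plus2_congr (add_mem (ht (f.co [])) h1) (by simp [ht0]) fun α => by simp

/-- step (d) -/
theorem sh_decomp {D : Type} [Ring D] [Algebra F D] [FiniteDimensional F D] (z : Sh D p) :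
    ∃ (n : ℕ) (d : Fin n → D) (y : Fin n → Sh F p), z = ∑ i, shC D p (d i) * qMap D p (y i) := by
  let b := Module.finBasis F D
  refine ⟨_, b, fun i => ⟨fun n => ⟨fun m => b.repr ((z.co n).co m) i, ?_⟩, ?_⟩, ?_⟩
  · obtain ⟨N, hN⟩ := (z.co n).bdd
    exact ⟨N, fun m hm => by simp [hN m hm]⟩
  · obtain ⟨N, hN⟩ := z.bdd
    exact ⟨N, fun n hn => by ext m; simp [hN n hn]⟩
  · ext n m
    rw [Sk.co_sum, Sk.co_sum]
    conv_lhs => rw [← b.sum_repr ((z.co n).co m)]
    refine sum_congr rfl fun i _ => ?_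
    change _ = ((Sk.mono _ _ 0 (Sk.mono 1 p.q 0 (b i)) * _ : Sh D p).co n).co m
    rw [Sk.mono_mul_co, Sk.mono_mul_co]
    simp only [zpow_zero, RingAut.one_apply, sub_zero]
    change _ = b i * algebraMap F D _
    rw [← Algebra.commutes, ← Algebra.smul_def]

end Qs

end MorAux

open MorAux in
theorem jobMor (hEv : JobEv) (hEch : JobEch) (hJet : JobJet) (hB : JobMorB) : JobMor := by
  intro F D ι _ _ _ _ _ _ _ p ξ sl hG
  obtain ⟨hpt, hcomm, hsm, hc⟩ := hB.2.2.2.2.2.2.2 p ξ D
  obtain ⟨-, -, -, hcF⟩ := hB.2.2.2.2.2.2.2 p ξ F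
  obtain ⟨c, hadm⟩ := (hJet _ _ _ hpt).adm (fun α i => qMap D p (sl.E α i))
    fun α a i => hcomm _ a
  obtain ⟨hev, -⟩ := (hEv (Sk.filt _ _) (shC D p)).1 _ c hadm
  have hconst : ∀ a, extPhi p ξ D sl.E (NC.C a) = NC.C (shC D p a) := hev.const
  refine ⟨fun c => by rw [algebraMap_nc, algebraMap_nc, hconst, hc], fun B hBd f => ?_⟩
  set B' := Algebra.adjoin (La (La F)) (extPhi p ξ D sl.E '' B) with hB'
  change f ∈ plus2 B'
  have hΦ : ∀ g, extPhi p ξ D sl.E g ∈ plus2 B' := fun g => by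
    have hcl := (hEch (k := La F) (A := Lq D p.q) (σ := sc D p) (q := p.q)).2.2.2.2 inferInstance
      ((Subalgebra.toSubmodule B').map (jet (La (La F)) (Sh D p) sl.κ))
      (jet (La (La F)) (Sh D p) sl.κ (extPhi p ξ D sl.E g)) fun n => by
        choose d hd using fun o : Option sl.κ => hev.cont o.toList n
        obtain ⟨b, hb, h⟩ := dense_all hBd (Finset.univ.sup d) g
        refine ⟨_, ⟨extPhi p ξ D sl.E b, Algebra.subset_adjoin ⟨b, hb, rfl⟩, rfl⟩, fun o => ?_⟩
        have := hd o _ (ord_mono (Finset.le_sup (Finset.mem_univ o)) h)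
        rw [map_sub] at this
        exact this
    obtain ⟨b, hb, h⟩ := hcl
    exact plus2_congr (le_plus2 hb) (congrFun h none).symm fun α => (congrFun h (some α)).symm
  have hq : ∀ g : NC (Sh F p) sl.κ, NC.map (qMap D p) g ∈ plus2 B' := fun g => by
    obtain ⟨b, hb, h⟩ := genQ p hcF ξ sl hG g
    have hb' : NC.map (qMap D p) b ∈ plus2 B' := by
      clear h
      induction hb using Algebra.adjoin_induction with
      | mem x hx =>
        obtain ⟨i, rfl⟩ := hx
        have e : extPhi p ξ D sl.E (NC.X i) = _ := hev.var i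
        refine plus2_congr (hΦ (NC.X i)) ?_ fun α => ?_
        · rw [e]; simp [linSub, XA]
        · rw [e]; simp [linSub]
      | algebraMap c =>
        refine plus2_congr ((plus2 B').algebraMap_mem c) ?_ fun α => ?_
        · simp only [algebraMap_nc, NC.co_map, NC.C_nil]
          rw [Algebra.algebraMap_eq_smul_one, hsm, map_one, Algebra.algebraMap_eq_smul_one]
        · simp [algebraMap_nc]
      | add x y _ _ hx hy => rw [map_add]; exact add_mem hx hy
      | mul x y _ _ hx hy => rw [map_mul]; exact mul_mem hx hy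
    refine plus2_congr hb' ?_ fun α => ?_
    · have := h [] (by simp)
      rw [NC.co_sub, sub_eq_zero] at this
      simp [this]
    · have := h [α] (by simp)
      rw [NC.co_sub, sub_eq_zero] at this
      simp [this]
  have hC : ∀ z : Sh D p, NC.C z ∈ plus2 B' := fun z => by
    obtain ⟨n, d, y, rfl⟩ := sh_decomp p z
    rw [map_sum]
    refine sum_mem fun i _ => ?_
    rw [map_mul, ← hconst]
    exact mul_mem (hΦ _) (plus2_congr (hq (NC.C (y i))) (by simp) fun α => by simp)
  have hX : ∀ α : sl.κ, (NC.X α : NC (Sh D p) sl.κ) ∈ plus2 B' := fun α =>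
    plus2_congr (hq (NC.X α)) (by simp [X_nil]) fun β => by
      simp only [NC.co_map, X_single]; split_ifs <;> simp
  refine plus2_congr (add_mem (hC (f.co [])) (sum_mem (t := Finset.univ) fun α _ =>
    mul_mem (hC (f.co [α])) (hX α))) (by simp [X_nil]) fun β => by simp [X_single]

end Crest.Agent.KU
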