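import Crest.Agent.KU.Jobs

/-! Row 180, job MorB: formal properties of `IsMor`, `Good`, `Kill`; slices; base points. -/

set_option autoImplicit false
set_option linter.unusedSectionVars false

namespace Crest.Agent.KU

open Finset Module Polynomial

namespace MorB

section basic

variable {F D ι F' D' ι' F'' D'' ι'' : Type} [Field F] [Ring D] [Algebra F D] [Field F'] [Ring D']
  [Algebra F' D'] [Field F''] [Ring D''] [Algebra F'' D'']

lemma dense_mono {B B' : Subalgebra F (NC D ι)} (h : B ≤ B') (hB : Dense2 B) : Dense2 B' :=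
  fun f => by
    obtain ⟨b, hb, hf⟩ := hB f
    exact ⟨b, h hb, hf⟩

lemma isMor_comp (φ : F →+* F') (φ' : F' →+* F'') (Φ : NC D ι →+* NC D' ι')
    (Φ' : NC D' ι' →+* NC D'' ι'') (h : IsMor φ Φ) (h' : IsMor φ' Φ') :
    IsMor (φ'.comp φ) (Φ'.comp Φ) where
  alg c := by simp [h.alg, h'.alg]
  gen B hB := by
    refine dense_mono ?_ (h'.gen _ (h.gen B hB))
    rw [Algebra.adjoin_le_iff]
    rintro _ ⟨x, hx, rfl⟩
    change Φ' x ∈ Algebra.adjoin F'' ((Φ'.comp Φ) '' B)
    induction hx using Algebra.adjoin_induction with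
    | mem y hy =>
      obtain ⟨b, hb, rfl⟩ := hy
      exact Algebra.subset_adjoin ⟨b, hb, rfl⟩
    | algebraMap c => rw [h'.alg]; exact Subalgebra.algebraMap_mem _ _
    | add x y _ _ hx hy => rw [map_add]; exact add_mem hx hy
    | mul x y _ _ hx hy => rw [map_mul]; exact mul_mem hx hy

lemma good_pull (φ : F →+* F') (Φ : NC D ι →+* NC D' ι') (a : NC D ι) (h : IsMor φ Φ)
    (hg : Good F' (Φ a)) : Good F a := by
  obtain ⟨σ, φ', Φ', h', ha⟩ := hg
  exact ⟨σ, φ'.comp φ, Φ'.comp Φ, isMor_comp _ _ _ _ h h', ha⟩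

lemma aeval_conj {K R : Type} [CommRing K] [Ring R] [Algebra K R] {a b u : R} (h : a * u = u * b)
    (P : K[X]) : aeval a P * u = u * aeval b P := by
  induction P using Polynomial.induction_on' with
  | add p q hp hq => simp [add_mul, mul_add, hp, hq]
  | monomial n c =>
    have : a ^ n * u = u * b ^ n := (SemiconjBy.pow_right (show SemiconjBy u b a from h.symm) n).symm
    simp only [aeval_monomial, mul_assoc, this]
    rw [← mul_assoc, Algebra.commutes, mul_assoc]

lemma good_conj (a b u : NC D ι) (hu : IsUnit u) (h : a * u = u * b) (hg : Good F b) :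
    Good F a := by
  obtain ⟨σ, φ, Φ, h', P, hP, hb⟩ := hg
  refine ⟨σ, φ, Φ, h', P, hP, ?_⟩
  have h1 : Φ a * Φ u = Φ u * Φ b := by rw [← map_mul, h, map_mul]
  have h2 := aeval_conj h1 P
  rw [hb, mul_zero] at h2
  exact (hu.map Φ).mul_left_eq_zero.1 h2

lemma C_comm {a : D} (ha : ∀ c, Commute a c) (u : NC D ι) : NC.C a * u = u * NC.C a := by
  ext w; simp [(ha _).eq]

lemma kill_conj (B B' u : NC D ι) (hu : IsUnit u) (h : B * u = u * B') (hk : Kill F B') :
    Kill F B := by
  intro D' _ _ _ _ i a₀ ha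
  refine good_conj _ _ (NC.map i.toRingHom u) (hu.map _) ?_ (hk D' i a₀ ha)
  rw [← map_mul, ← map_mul, add_mul, mul_add, h, C_comm ha]

lemma algebraMap_nc (c : F) : algebraMap F (NC D ι) c = NC.C (algebraMap F D c) := by
  rw [Algebra.algebraMap_eq_smul_one, Algebra.algebraMap_eq_smul_one]
  ext w; cases w <;> simp

/-- constants as an algebra hom -/
def CA (F D ι : Type) [Field F] [Ring D] [Algebra F D] : D →ₐ[F] NC D ι :=
  { (NC.C : D →+* NC D ι) with commutes' := fun c => (algebraMap_nc c).symm }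

lemma isMor_id : IsMor (RingHom.id F) (RingHom.id (NC D ι)) where
  alg _ := rfl
  gen _ hB := dense_mono (fun x hx => Algebra.subset_adjoin ⟨x, hx, rfl⟩) hB

lemma map_C {A B : Type} [Ring A] [Ring B] (φ : A →+* B) (a : A) :
    NC.map φ (NC.C a : NC A ι) = NC.C (φ a) := by
  ext w; cases w <;> simp

end basic

lemma kill_zero (σ : St) : Kill σ.F (0 : NC σ.D σ.ι) := by
  intro D' _ _ _ _ i a₀ _
  refine ⟨{ F := σ.F, D := D', ι := σ.ι, two := σ.two }, RingHom.id _, RingHom.id _, isMor_id, ?_⟩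
  rw [add_zero, map_C]
  exact (Algebra.IsAlgebraic.isAlgebraic (R := σ.F) (i a₀)).algHom (CA σ.F D' σ.ι)

lemma kill_map {F C Z ι : Type} [Field F] [Ring C] [Algebra F C] [Ring Z] [Algebra F Z]
    (e : Z →ₐ[F] C) (b : NC Z ι) (hc : ∀ c : C, (∀ c', Commute c c') → c ∈ Set.range e)
    (hZ : ∀ x y : Z, x * y = y * x) (hk : Kill F b) : Kill F (NC.map e.toRingHom b) := by
  intro D' _ _ _ _ i a₀ ha
  obtain ⟨z, rfl⟩ := hc a₀ ha
  have := hk D' (i.comp e) z fun c => hZ z c
  convert this using 1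
  ext w; cases w <;> simp

lemma finrank_Sh (hE : JobEch) {F : Type} [Field F] (p : Par F) :
    finrank (La (La F)) (Sh F p) = p.q ^ 2 := by
  rw [(hE (k := La F) (A := Lq F p.q) (σ := sc F p) (q := p.q)).2.2.1 inferInstance,
    (hE (k := F) (A := F) (σ := 1) (q := p.q)).2.2.1 inferInstance, finrank_self]
  ring

lemma slice (hE : JobEch) {F ι : Type} [Field F] [Fintype ι] (p : Par F) (ξ : ι → Lq F p.q)
    (h2 : 2 ≤ Fintype.card ι) : Nonempty (Slice p ξ) := by
  classical
  let L : Sh F p →ₗ[La (La F)] (ι → Sh F p) :=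
    LinearMap.pi fun i => LinearMap.mulRight _ (XQ p ξ i) - LinearMap.mulLeft _ (XQ p ξ i)
  have hL : ∀ ω i, L ω i = ω * XQ p ξ i - XQ p ξ i * ω := fun _ _ => rfl
  obtain ⟨W, hW⟩ := (LinearMap.range L).exists_isCompl
  let b := Module.finBasis (La (La F)) W
  refine ⟨⟨Fin (finrank (La (La F)) W), fun α => (b α : ι → Sh F p), fun δ => ?_,
    fun v ω h => ?_, ?_⟩⟩
  · have : δ ∈ LinearMap.range L ⊔ W := by rw [hW.sup_eq_top]; trivial
    obtain ⟨_, ⟨ω, rfl⟩, w, hw, rfl⟩ := Submodule.mem_sup.1 this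
    refine ⟨fun α => b.repr ⟨w, hw⟩ α, ω, fun i => ?_⟩
    have e := congrArg (fun z : W => (z : ι → Sh F p) i) (b.sum_repr ⟨w, hw⟩)
    simp only [AddSubmonoidClass.coe_finsetSum, Finset.sum_apply, SetLike.val_smul,
      Pi.smul_apply] at e
    rw [e, Pi.add_apply, hL, add_comm]
  · have e : ((∑ α, v α • b α : W) : ι → Sh F p) = L ω := by
      funext i
      simp only [AddSubmonoidClass.coe_finsetSum, Finset.sum_apply, SetLike.val_smul,
        Pi.smul_apply]
      rw [h i, hL]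
    have h0 : ((∑ α, v α • b α : W) : ι → Sh F p) = 0 :=
      (Submodule.disjoint_def.1 hW.disjoint) _ (e ▸ LinearMap.mem_range_self L ω)
        (∑ α, v α • b α : W).2
    have h1 : (∑ α, v α • b α : W) = 0 := Subtype.ext h0
    exact funext (Fintype.linearIndependent_iff.1 b.linearIndependent v h1)
  · have e1 := Submodule.finrank_add_eq_of_isCompl hW
    have e2 := L.finrank_range_add_finrank_ker
    rw [finrank_Sh hE] at e2
    rw [Module.finrank_pi_fintype, finrank_Sh hE, Finset.sum_const, card_univ, smul_eq_mul] at e1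
    have e3 : 0 < finrank (La (La F)) (LinearMap.ker L) := by
      rw [Module.finrank_pos_iff_exists_ne_zero]
      refine ⟨⟨1, ?_⟩, fun h => one_ne_zero (congrArg Subtype.val h)⟩
      rw [LinearMap.mem_ker]; funext i; rw [hL]; simp
    rw [Fintype.card_fin]
    obtain ⟨n, hn⟩ : ∃ n, Fintype.card ι = n + 1 := ⟨Fintype.card ι - 1, by omega⟩
    rw [hn, add_mul, one_mul] at e1
    rw [hn, Nat.add_sub_cancel]
    omega

section pt

variable {F : Type} [Field F] (p : Par F) (A : Type) [Ring A] [Algebra F A]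

lemma sc_cst (a : A) : sc A p (Sk.cst 1 p.q a) = Sk.cst 1 p.q a := by
  ext n; rw [co_sc, Sk.co_cst]; split_ifs with h <;> simp [h]

lemma sc_zpow_cst (i : ℤ) (a : A) : (sc A p ^ i) (Sk.cst 1 p.q a) = Sk.cst 1 p.q a := by
  simpa using (Sk.map_zpow_comm (σ := (1 : RingAut A)) (τ := sc A p) (Sk.cst 1 p.q)
    (fun a => (sc_cst p A a).symm) i a).symm

lemma commute_shC (y : Sh F p) (a : A) : Commute (shC A p a) (qMap A p y) := by
  ext n : 2
  change (Sk.mono _ _ 0 (Sk.cst 1 p.q a) * qMap A p y).co n =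
    (qMap A p y * Sk.mono _ _ 0 (Sk.cst 1 p.q a)).co n
  rw [Sk.mono_mul_co, Sk.mul_mono_co, sc_zpow_cst, sub_zero, zpow_zero]
  ext m
  change (Sk.mono _ _ 0 a * (qMap A p y).co n).co m = ((qMap A p y).co n * Sk.mono _ _ 0 a).co m
  rw [Sk.mono_mul_co, Sk.mul_mono_co, sub_zero]
  simp [qMap, shMap, Algebra.commutes]

lemma qMap_algebraMap (c : La (La F)) :
    qMap A p (algebraMap (La (La F)) (Sh F p) c) = algebraMap (La (La F)) (Sh A p) c := by
  ext n m
  simp only [qMap, shMap, Sk.co_map, Sk.co_algebraMap]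
  split_ifs with h
  · simp only [Sk.co_algebraMap]
    split_ifs <;> simp
  · simp

lemma qMap_smul (c : La (La F)) (y : Sh F p) : qMap A p (c • y) = c • qMap A p y := by
  rw [Algebra.smul_def, Algebra.smul_def, map_mul, qMap_algebraMap]

lemma shC_algebraMap (c : F) :
    shC A p (algebraMap F A c) = algebraMap (La (La F)) (Sh A p) (toLa2 F c) := by
  have hq : (p.q : ℤ) ≠ 0 := by exact_mod_cast NeZero.ne p.q
  have key : ∀ n : ℤ, (p.q : ℤ) ∣ n → (n / p.q = 0 ↔ n = 0) := by
    rintro _ ⟨a, rfl⟩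
    rw [Int.mul_ediv_cancel_left _ hq, mul_eq_zero, or_iff_right hq]
  ext n m
  simp only [shC, toLa2, RingHom.comp_apply, Sk.co_cst, Sk.co_algebraMap]
  by_cases hn : n = 0
  · subst hn
    simp only [if_true, dvd_zero, Int.zero_ediv, Sk.co_cst, Sk.co_algebraMap]
    by_cases hm : m = 0
    · subst hm; simp
    · rw [if_neg hm]
      split_ifs with h1 h2
      · exact absurd ((key m h1).1 h2) hm
      · simp
      · rfl
  · rw [if_neg hn]
    split_ifs with h1 h2
    · exact absurd ((key n h1).1 h2) hn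
    · simp
    · rfl

lemma pt {ι : Type} (ξ : ι → Lq F p.q) : Pt (Sk.filt _ _) (shC A p) (XA p ξ A) where
  const a := Sk.mono_mem_ord 0 _
  comm a i := commute_shC p A _ a
  mem i := fun n hn => by
    simp [XA, XQ, qMap, shMap, hn.ne]
  exh r := Sk.exists_ord r

end pt

end MorB

theorem jobMorB (hE : JobEch) : JobMorB :=
  ⟨MorB.isMor_comp, MorB.good_pull, MorB.good_conj, MorB.kill_conj, MorB.kill_zero,
    MorB.kill_map, MorB.slice hE, fun p ξ A _ _ => ⟨MorB.pt p A ξ, MorB.commute_shC p A,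
      MorB.qMap_smul p A, MorB.shC_algebraMap p A⟩⟩

end Crest.Agent.KU
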