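import Crest.Agent.KU.Sk

/-! Row 180: noncommutative power series `NC A ι = A⟨⟨tᵢ⟩⟩` (variables commute with `A`),
evaluation homomorphisms and jets. -/

set_option autoImplicit false
set_option linter.unusedSectionVars false

namespace Crest.Agent.KU

open Finset

/-- Noncommutative power series: a coefficient for each word. -/
@[ext] structure NC (A ι : Type) : Type where
  co : List ι → A

namespace NC

variable {A ι : Type} [Ring A]

/-- forget the wrapper -/
def equiv (A ι : Type) : NC A ι ≃ (List ι → A) where
  toFun := co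
  invFun := mk
  left_inv _ := rfl
  right_inv _ := rfl

instance : AddCommGroup (NC A ι) := (equiv A ι).addCommGroup
instance {F : Type} [Semiring F] [Module F A] : Module F (NC A ι) := (equiv A ι).module F

@[simp] lemma co_zero (w : List ι) : (0 : NC A ι).co w = 0 := rfl
@[simp] lemma co_add (f g : NC A ι) (w : List ι) : (f + g).co w = f.co w + g.co w := rfl
@[simp] lemma co_neg (f : NC A ι) (w : List ι) : (-f).co w = -f.co w := rfl
@[simp] lemma co_sub (f g : NC A ι) (w : List ι) : (f - g).co w = f.co w - g.co w := rfl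
@[simp] lemma co_smul {F : Type} [Semiring F] [Module F A] (c : F) (f : NC A ι) (w : List ι) :
    (c • f).co w = c • f.co w := rfl

/-- the coefficient of a word as an additive map -/
def coHom (w : List ι) : NC A ι →+ A where
  toFun f := f.co w
  map_zero' := rfl
  map_add' _ _ := rfl

@[simp] lemma co_sum {κ : Type*} (s : Finset κ) (f : κ → NC A ι) (w : List ι) :
    (∑ i ∈ s, f i).co w = ∑ i ∈ s, (f i).co w := map_sum (coHom w) f s

/-- the constant series -/
def C0 (ι : Type) (a : A) : NC A ι := ⟨fun w => match w with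
  | [] => a
  | _ :: _ => 0⟩

instance : One (NC A ι) := ⟨C0 ι 1⟩
instance : Mul (NC A ι) :=
  ⟨fun f g => ⟨fun w => ∑ i ∈ range (w.length + 1), f.co (w.take i) * g.co (w.drop i)⟩⟩

lemma co_mul (f g : NC A ι) (w : List ι) :
    (f * g).co w = ∑ i ∈ range (w.length + 1), f.co (w.take i) * g.co (w.drop i) := rfl

@[simp] lemma mul_nil (f g : NC A ι) : (f * g).co [] = f.co [] * g.co [] := by simp [co_mul]

/-- left derivative: `(der i f) w = f (i :: w)` -/
def der (i : ι) (f : NC A ι) : NC A ι := ⟨fun w => f.co (i :: w)⟩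

@[simp] lemma co_der (i : ι) (f : NC A ι) (w : List ι) : (der i f).co w = f.co (i :: w) := rfl

lemma mul_cons (f g : NC A ι) (i : ι) (w : List ι) :
    (f * g).co (i :: w) = f.co [] * g.co (i :: w) + (der i f * g).co w := by
  rw [co_mul, co_mul, List.length_cons, sum_range_succ', add_comm]
  simp

lemma mul_single (f g : NC A ι) (i : ι) :
    (f * g).co [i] = f.co [] * g.co [i] + f.co [i] * g.co [] := by
  rw [mul_cons]; simp

lemma mul_pair (f g : NC A ι) (i j : ι) :
    (f * g).co [i, j] = f.co [] * g.co [i, j] + f.co [i] * g.co [j] + f.co [i, j] * g.co [] := by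
  rw [mul_cons, mul_single]; simp [add_assoc]

lemma C0_mul_co (a : A) (g : NC A ι) (w : List ι) : (C0 ι a * g).co w = a * g.co w := by
  rw [co_mul, sum_eq_single 0]
  · simp [C0]
  · intro i hi h0
    rcases w with _ | ⟨x, w⟩
    · simp at hi; omega
    · obtain ⟨j, rfl⟩ := Nat.exists_eq_succ_of_ne_zero h0
      simp [C0]
  · simp

lemma mul_C0_co (f : NC A ι) (a : A) (w : List ι) : (f * C0 ι a).co w = f.co w * a := by
  induction w generalizing f with
  | nil => simp [C0]
  | cons i w ih => rw [mul_cons, ih]; simp [C0]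

lemma mul_assoc_co (f g h : NC A ι) (w : List ι) : (f * g * h).co w = (f * (g * h)).co w := by
  induction w generalizing f with
  | nil => simp [mul_assoc]
  | cons i w ih =>
    have e : der i (f * g) = C0 ι (f.co []) * der i g + der i f * g := by
      ext v; simp [mul_cons, C0_mul_co]
    have e2 : ∀ p q : NC A ι, ((p + q) * h).co w = (p * h).co w + (q * h).co w := fun p q => by
      simp [co_mul, add_mul, sum_add_distrib]
    have e3 : (C0 ι (f.co []) * der i g * h).co w = f.co [] * (der i g * h).co w := by
      simp only [co_mul (C0 ι (f.co []) * der i g), C0_mul_co, co_mul (der i g), mul_sum,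
        mul_assoc]
    rw [mul_cons (f * g), mul_cons f, e, e2, ih (der i f), e3, mul_cons g h]
    simp [mul_add, mul_assoc, add_assoc]

instance : Ring (NC A ι) :=
  { (inferInstance : AddCommGroup (NC A ι)), (inferInstance : One (NC A ι)),
    (inferInstance : Mul (NC A ι)) with
    left_distrib := fun f g h => by ext w; simp [co_mul, mul_add, sum_add_distrib]
    right_distrib := fun f g h => by ext w; simp [co_mul, add_mul, sum_add_distrib]
    zero_mul := fun f => by ext w; simp [co_mul]
    mul_zero := fun f => by ext w; simp [co_mul]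
    mul_assoc := fun f g h => by ext w; exact mul_assoc_co f g h w
    one_mul := fun f => by ext w; change (C0 ι 1 * f).co w = _; simp [C0_mul_co]
    mul_one := fun f => by ext w; change (f * C0 ι 1).co w = _; simp [mul_C0_co] }

/-- constants -/
def C : A →+* NC A ι where
  toFun := C0 ι
  map_one' := rfl
  map_mul' a b := by ext w; rw [C0_mul_co]; cases w <;> simp [C0]
  map_zero' := by ext w; cases w <;> simp [C0]
  map_add' a b := by ext w; cases w <;> simp [C0]

@[simp] lemma C_nil (a : A) : (C a : NC A ι).co [] = a := rfl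
@[simp] lemma C_cons (a : A) (i : ι) (w : List ι) : (C a : NC A ι).co (i :: w) = 0 := rfl
@[simp] lemma C_mul_co (a : A) (g : NC A ι) (w : List ι) : (C a * g).co w = a * g.co w :=
  C0_mul_co a g w
@[simp] lemma mul_C_co (f : NC A ι) (a : A) (w : List ι) : (f * C a).co w = f.co w * a :=
  mul_C0_co f a w
@[simp] lemma one_nil : (1 : NC A ι).co [] = 1 := rfl
@[simp] lemma one_cons (i : ι) (w : List ι) : (1 : NC A ι).co (i :: w) = 0 := rfl

/-- constant term -/
def eps : NC A ι →+* A where
  toFun f := f.co []
  map_one' := rfl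
  map_mul' := mul_nil
  map_zero' := rfl
  map_add' _ _ := rfl

@[simp] lemma eps_apply (f : NC A ι) : eps f = f.co [] := rfl

open Classical in
/-- the monomial `a · w` -/
noncomputable def mon (w : List ι) (a : A) : NC A ι := ⟨fun v => if v = w then a else 0⟩

/-- the variable `tᵢ` -/
noncomputable def X (i : ι) : NC A ι := mon [i] 1

/-- the linear form `∑ ℓᵢ tᵢ` -/
def lin (l : ι → A) : NC A ι := ⟨fun w => match w with
  | [i] => l i
  | _ => 0⟩

@[simp] lemma lin_nil (l : ι → A) : (lin l).co [] = 0 := rfl
@[simp] lemma lin_single (l : ι → A) (i : ι) : (lin l).co [i] = l i := rfl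
@[simp] lemma lin_cons_cons (l : ι → A) (i j : ι) (w : List ι) :
    (lin l).co (i :: j :: w) = 0 := rfl

instance {F : Type} [CommRing F] [Algebra F A] : Algebra F (NC A ι) :=
  Algebra.ofModule (fun c f g => by ext w; simp [co_mul, Finset.smul_sum])
    (fun c f g => by ext w; simp [co_mul, Finset.smul_sum])

/-- coefficientwise application of a ring homomorphism -/
def map {B : Type} [Ring B] (φ : A →+* B) : NC A ι →+* NC B ι where
  toFun f := ⟨fun w => φ (f.co w)⟩
  map_one' := by ext w; cases w <;> simp
  map_mul' f g := by ext w; simp [co_mul, map_sum]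
  map_zero' := by ext w; simp
  map_add' f g := by ext w; simp

@[simp] lemma co_map {B : Type} [Ring B] (φ : A →+* B) (f : NC A ι) (w : List ι) :
    (map φ f).co w = φ (f.co w) := rfl

/-- series of order `≥ d` -/
def ordGe (A ι : Type) [Ring A] (d : ℕ) : AddSubgroup (NC A ι) where
  carrier := {f | ∀ w : List ι, w.length < d → f.co w = 0}
  zero_mem' := fun _ _ => rfl
  add_mem' := fun {f g} hf hg w hw => by simp [hf w hw, hg w hw]
  neg_mem' := fun {f} hf w hw => by simp [hf w hw]

lemma mem_ordGe {d : ℕ} {f : NC A ι} :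
    f ∈ ordGe A ι d ↔ ∀ w : List ι, w.length < d → f.co w = 0 := Iff.rfl

lemma mul_mem_ordGe {d e : ℕ} {f g : NC A ι} (hf : f ∈ ordGe A ι d) (hg : g ∈ ordGe A ι e) :
    f * g ∈ ordGe A ι (d + e) := fun w hw => by
  rw [co_mul]
  refine sum_eq_zero fun i hi => ?_
  rw [mem_range] at hi
  by_cases h : i < d
  · rw [hf _ (by simp; omega), zero_mul]
  · rw [hg _ (by simp; omega), mul_zero]

end NC

/-- the trivial filtration (`I n = ⊤` for `n ≤ 0`, `⊥` for `n ≥ 1`) -/
def trivFilt (A : Type) [Ring A] : Filt A where
  I n := if n ≤ 0 then ⊤ else ⊥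
  anti := fun {m n} h => by
    by_cases hm : m ≤ 0
    · simp [hm]
    · simp [hm, show ¬ n ≤ 0 by omega]
  mul_mem := fun {m n x y} hx hy => by
    by_cases h : m + n ≤ 0
    · simp [h]
    · by_cases hm : m ≤ 0
      · have hn : ¬ n ≤ 0 := by omega
        simp only [hn, if_false, AddSubgroup.mem_bot] at hy
        simp [hy]
      · simp only [hm, if_false, AddSubgroup.mem_bot] at hx
        simp [hx]
  one_mem := by simp
  sep := fun x hx => by simpa using hx 1
  complete := fun x N hx => by
    refine ⟨∑ i ∈ range (-N + 1).toNat, x i, fun n => ?_⟩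
    by_cases h : N + n ≤ 0
    · simp [h]
    · simp only [h, if_false, AddSubgroup.mem_bot, sub_eq_zero]
      refine sum_subset (fun i hi => ?_) fun i _ hi => ?_
      · rw [mem_range] at hi ⊢; omega
      · rw [mem_range] at hi
        have := hx i
        rwa [if_neg (by omega), AddSubgroup.mem_bot] at this

/-- the weighted filtration of `NC R ι` : `f ∈ I n ↔ ∀ w, f w ∈ J.I (n - weight w)`.
With `J = trivFilt`, `c = 1` it is the order filtration `ordGe`. -/
def Filt.nc {R : Type} [Ring R] (J : Filt R) (ι : Type) (c : ι → ℤ) : Filt (NC R ι) where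
  I n :=
    { carrier := {f | ∀ w : List ι, f.co w ∈ J.I (n - (w.map c).sum)}
      zero_mem' := fun _ => zero_mem _
      add_mem' := fun hf hg w => add_mem (hf w) (hg w)
      neg_mem' := fun hf w => neg_mem (hf w) }
  anti := fun h _ hf w => J.anti (by omega) (hf w)
  mul_mem := fun {m n f g} hf hg w => by
    rw [NC.co_mul]
    refine sum_mem fun i _ => ?_
    have := J.mul_mem (hf (w.take i)) (hg (w.drop i))
    have e : (w.map c).sum = ((w.take i).map c).sum + ((w.drop i).map c).sum := by
      rw [← List.sum_append, ← List.map_append, List.take_append_drop]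
    rw [e]; convert this using 2; ring
  one_mem := fun w => by
    cases w with
    | nil => simpa using J.one_mem
    | cons i w => simp
  sep := fun f hf => by
    ext w
    exact J.sep _ fun n => by simpa using hf (n + (w.map c).sum) w
  complete := fun x N hx => by
    have := fun w : List ι => J.complete (fun i => (x i).co w) (N - (w.map c).sum) fun i => by
      have := hx i w
      convert this using 2; ring
    choose y hy using this
    refine ⟨⟨y⟩, fun n w => ?_⟩
    have := hy w n
    rw [NC.co_sub, NC.co_sum]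
    convert this using 2; ring

section ev

variable {A R ι ι' : Type} [Ring A] [Ring R]

/-- `Φ` is the continuous evaluation `a ↦ ρ a`, `tᵢ ↦ yᵢ`. -/
structure IsEv (J : Filt R) (ρ : A →+* R) (y : ι → NC R ι') (Φ : NC A ι →+* NC R ι') : Prop where
  const : ∀ a, Φ (NC.C a) = NC.C (ρ a)
  var : ∀ i, Φ (NC.X i) = y i
  cont : ∀ (w : List ι') (n : ℤ), ∃ d : ℕ, ∀ f ∈ NC.ordGe A ι d, (Φ f).co w ∈ J.I n

open Classical in
/-- the evaluation homomorphism (junk if it does not exist) -/
noncomputable def ev (J : Filt R) (ρ : A →+* R) (y : ι → NC R ι') : NC A ι →+* NC R ι' :=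
  if h : ∃ Φ, IsEv J ρ y Φ then h.choose else (NC.C.comp ρ).comp NC.eps

/-- admissible substitution with weights `c` on the new variables -/
structure Adm (J : Filt R) (ρ : A →+* R) (y : ι → NC R ι') (c : ι' → ℤ) : Prop where
  const : ∀ a, ρ a ∈ J.I 0
  comm : ∀ a i w, Commute (ρ a) ((y i).co w)
  mem : ∀ i w, (y i).co w ∈ J.I (1 - (w.map c).sum)

/-- admissible base point `X` in an exhaustive filtration -/
structure Pt (J : Filt R) (ρ : A →+* R) (X : ι → R) : Prop where
  const : ∀ a, ρ a ∈ J.I 0
  comm : ∀ a i, Commute (ρ a) (X i)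
  mem : ∀ i, X i ∈ J.I 1
  exh : ∀ r : R, ∃ n, r ∈ J.I n

/-- a direction: entries commute with the coefficients -/
def Dir (ρ : A →+* R) (δ : ι → R) : Prop := ∀ a i, Commute (ρ a) (δ i)

/-- the substitution `tᵢ ↦ Xᵢ + ∑_α E α i · t'_α` -/
def linSub (X : ι → R) (E : ι' → ι → R) : ι → NC R ι' :=
  fun i => NC.C (X i) + NC.lin fun α => E α i

/-- value `f(X)` -/
noncomputable def evX (J : Filt R) (ρ : A →+* R) (X : ι → R) : NC A ι →+* R :=
  NC.eps.comp (ev J ρ (fun i => (NC.C (X i) : NC R Empty)))

/-- first derivative of `f` at `X` in direction `δ` -/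
noncomputable def D1 (J : Filt R) (ρ : A →+* R) (X : ι → R) (f : NC A ι) (δ : ι → R) : R :=
  (ev J ρ (linSub X fun _ : Unit => δ) f).co [()]

/-- ordered second derivative: coefficient of `τ₀ τ₁` in `f(X + τ₀ δ + τ₁ δ')` -/
noncomputable def D2 (J : Filt R) (ρ : A →+* R) (X : ι → R) (f : NC A ι) (δ δ' : ι → R) : R :=
  (ev J ρ (linSub X fun b : Bool => cond b δ' δ) f).co [false, true]

end ev

end Crest.Agent.KU
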