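import Crest.Agent.KU.Jobs

/-! Job NCB: basics on `NC`. -/

set_option autoImplicit false

namespace Crest.Agent.KU

open Finset

namespace NC

variable {A ι : Type} [Ring A]

lemma mem_triv {f : NC A ι} {n : ℕ} :
    f ∈ ((trivFilt A).nc ι fun _ => 1).I n ↔ f ∈ ordGe A ι n := by
  refine forall_congr' fun w => ?_
  by_cases h : w.length < n
  · simp [trivFilt, h, h.not_ge]
  · simp [trivFilt, h, not_lt.1 h]

lemma mem_ordGe_zero (f : NC A ι) : f ∈ ordGe A ι 0 := fun _ h => by simp at h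

lemma mem_ordGe_one {f : NC A ι} : f ∈ ordGe A ι 1 ↔ f.co [] = 0 :=
  ⟨fun h => h [] (by simp), fun h w hw => by
    rw [Nat.lt_one_iff, List.length_eq_zero_iff] at hw; rwa [hw]⟩

lemma ordGe_anti {d e : ℕ} (h : d ≤ e) {f : NC A ι} (hf : f ∈ ordGe A ι e) : f ∈ ordGe A ι d :=
  fun w hw => hf w (hw.trans_le h)

lemma inv_one (f : NC A ι) (h : f.co [] = 1) : ∃ g : NC A ι, g.co [] = 1 ∧ f * g = 1 ∧ g * f = 1 := by
  obtain ⟨g, h1, h2, h3⟩ := ((trivFilt A).nc ι fun _ => 1).exists_inv (x := 1 - f)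
    ((mem_triv (n := 1)).2 (mem_ordGe_one.2 (by simp [h])))
  rw [sub_sub_cancel] at h1 h2
  exact ⟨g, by simpa [sub_eq_zero] using mem_ordGe_one.1 ((mem_triv (n := 1)).1 h3), h2, h1⟩

lemma co_append {d e : ℕ} {f g : NC A ι} (hf : f ∈ ordGe A ι d) (hg : g ∈ ordGe A ι e)
    {w v : List ι} (hw : w.length = d) (hv : v.length = e) :
    (f * g).co (w ++ v) = f.co w * g.co v := by
  rw [co_mul, sum_eq_single d]
  · simp [← hw]
  · intro i hi h
    rw [mem_range, List.length_append] at hi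
    rcases lt_or_gt_of_ne h with h | h
    · rw [hf _ (by simp; omega), zero_mul]
    · rw [hg _ (by simp; omega), mul_zero]
  · simp; omega

lemma exists_lead (f : NC A ι) (h : f ≠ 0) :
    ∃ (d : ℕ) (w : List ι), f ∈ ordGe A ι d ∧ w.length = d ∧ f.co w ≠ 0 := by
  classical
  have : ∃ d, ∃ w : List ι, w.length = d ∧ f.co w ≠ 0 := by
    by_contra h'
    push Not at h'
    exact h (NC.ext (funext fun w => h' _ w rfl))
  obtain ⟨w, h1, h2⟩ := Nat.find_spec this
  exact ⟨_, w, fun v hv => by_contra fun h => Nat.find_min this hv ⟨v, rfl, h⟩, h1, h2⟩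

@[simp] lemma X_nil (i : ι) : (X i : NC A ι).co [] = 0 := by simp [X, mon]

@[simp] lemma X_mul_nil (i : ι) (g : NC A ι) : (X i * g).co [] = 0 := by simp

open Classical in
lemma X_mul_cons (i j : ι) (g : NC A ι) (v : List ι) :
    (X i * g).co (j :: v) = if j = i then g.co v else 0 := by
  have : der j (X i : NC A ι) = if j = i then 1 else 0 := by
    ext w; cases w <;> split_ifs with h <;> simp [X, mon, h]
  rw [mul_cons, this]
  split_ifs <;> simp

lemma C_comm_X (a : A) (i : ι) : Commute (C a : NC A ι) (X i) := by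
  ext w
  simp only [C_mul_co, mul_C_co, X, mon]
  split_ifs <;> simp

lemma C_mul_prod (w : List ι) (a : A) : C a * (w.map X).prod = mon w a := by
  induction w with
  | nil => ext v; cases v <;> simp [mon]
  | cons i w ih =>
    rw [List.map_cons, List.prod_cons, ← mul_assoc, (C_comm_X a i).eq, mul_assoc, ih]
    ext v
    rcases v with _ | ⟨j, v⟩
    · simp [mon]
    · rw [X_mul_cons]
      by_cases h : j = i <;> by_cases h' : v = w <;> simp [mon, h, h']

end NC

open NC

theorem jobNCB : JobNCB := by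
  intro A ι _
  refine ⟨fun f ⟨u, hu⟩ => ?_, inv_one, fun _ => ⟨fun {f g} h => ?_⟩, fun f h => ?_, fun u hu => ?_,
    C_mul_prod, NC.exists_lead⟩
  · obtain ⟨g, -, h1, h2⟩ := inv_one (C (↑u⁻¹ : A) * f) (by simp [← hu])
    have : IsUnit (C (↑u⁻¹ : A) * f) := ⟨⟨_, g, h1, h2⟩, rfl⟩
    exact ((u⁻¹.isUnit.map C).mul_left_iff).1 this
  · by_contra h'
    push Not at h'
    obtain ⟨d, w, h1, h2, h3⟩ := NC.exists_lead f h'.1
    obtain ⟨e, v, h4, h5, h6⟩ := NC.exists_lead g h'.2
    exact mul_ne_zero h3 h6 (by rw [← co_append h1 h4 h2 h5, h, co_zero])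
  · exact NC.ext (funext fun w => h _ w (Nat.lt_succ_self _))
  · refine ⟨⟨fun w => (u (w.length + 1)).co w⟩, fun n w hw => ?_⟩
    rw [co_sub, sub_eq_zero]
    induction n, hw using Nat.le_induction with
    | base => rfl
    | succ n hn ih => exact ih.trans (sub_eq_zero.1 (hu n w hn)).symm

end Crest.Agent.KU
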