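import Crest.Agent.KU.Avg

/-! Row 180, job NF: normal forms in the split picture. -/

set_option autoImplicit false
set_option linter.unusedSectionVars false

namespace Crest.Agent.KU

open Finset

namespace NFX

open AvgX

lemma seq_exists {α : Type} (P : ℕ → α → Prop) (Rel : ℕ → α → α → Prop) (a0 : α) (h0 : P 0 a0)
    (hs : ∀ n a, P n a → ∃ a', P (n + 1) a' ∧ Rel n a a') :
    ∃ f : ℕ → α, ∀ n, P n (f n) ∧ Rel n (f n) (f (n + 1)) := by
  choose F hF1 hF2 using hs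
  let g : (n : ℕ) → {a // P n a} := fun n =>
    Nat.rec (motive := fun n => {a // P n a}) ⟨a0, h0⟩ (fun n a => ⟨F n a.1 a.2, hF1 n a.1 a.2⟩) n
  exact ⟨fun n => (g n).1, fun n => ⟨(g n).2, hF2 n (g n).1 (g n).2⟩⟩

lemma lim {R : Type} [Ring R] (J : Filt R) (f : ℕ → R) (N : ℤ)
    (h : ∀ n : ℕ, f (n + 1) - f n ∈ J.I (N + n)) : ∃ y, ∀ n : ℕ, y - f n ∈ J.I (N + n) := by
  obtain ⟨y, hy⟩ := J.complete (fun i => f (i + 1) - f i) N h
  refine ⟨y + f 0, fun n => ?_⟩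
  have := hy n
  rw [sum_range_sub] at this
  convert this using 1; abel

lemma val_succ {M : Type} {q : ℕ} [NeZero q] (F : ℕ → M) (h : F q = F 0) (j : ZMod q) :
    F (j + 1).val = F (j.val + 1) := by
  rw [ZMod.val_add, ZMod.val_one_eq_one_mod, Nat.add_mod_mod]
  rcases lt_or_eq_of_le (Nat.succ_le_of_lt (ZMod.val_lt j)) with h1 | h1
  · rw [Nat.mod_eq_of_lt h1]
  · rw [show j.val + 1 = q from h1, Nat.mod_self, h]

lemma sum_range_zmod {M : Type} [AddCommMonoid M] {q : ℕ} [NeZero q] (c : ZMod q → M) :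
    ∑ r ∈ range q, c r = ∑ j, c j :=
  sum_nbij' (fun r => (r : ZMod q)) ZMod.val (fun _ _ => mem_univ _)
    (fun j _ => mem_range.2 (ZMod.val_lt j))
    (fun _ hr => ZMod.val_cast_of_lt (mem_range.1 hr)) (fun j _ => ZMod.natCast_zmod_val j)
    fun _ _ => rfl

lemma solve_diff {M : Type} [AddCommGroup M] {q : ℕ} [NeZero q] (c : ZMod q → M)
    (hc : ∑ j, c j = 0) : ∃ η : ZMod q → M, ∀ j, η j - η (j + 1) = c j := by
  refine ⟨fun j => -∑ r ∈ range j.val, c r, fun j => ?_⟩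
  have := val_succ (fun n => -∑ r ∈ range n, c r) (by simp [sum_range_zmod, hc]) j
  beta_reduce at this ⊢
  rw [this, sum_range_succ, ZMod.natCast_zmod_val]; abel

lemma const_of_succ {M : Type} {q : ℕ} [NeZero q] (g : ZMod q → M) (h : ∀ j, g (j + 1) = g j)
    (j : ZMod q) : g j = g 0 := by
  obtain ⟨n, rfl⟩ := ZMod.natCast_zmod_surjective j
  induction n with
  | zero => simp
  | succ n ih => rw [Nat.cast_succ, h, ih]

lemma mem_succ {A : Type} [Ring A] {σ : RingAut A} {q : ℕ} {n : ℤ} {y : Sk A σ q}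
    (h : y ∈ Sk.ord σ q n) (h0 : y.co n = 0) : y ∈ Sk.ord σ q (n + 1) := fun m hm => by
  rcases lt_or_eq_of_le (show m ≤ n by omega) with h1 | rfl
  · exact h m h1
  · exact h0

lemma anti {A : Type} [Ring A] {σ : RingAut A} {q : ℕ} {m n : ℤ} {y : Sk A σ q} (hmn : m ≤ n)
    (h : y ∈ Sk.ord σ q n) : y ∈ Sk.ord σ q m := (Sk.filt σ q).anti hmn h

section gen

variable {Ω Λ : Type} [Field Ω] [CharZero Ω] [CommRing Λ] [Algebra Ω Λ] {q : ℕ} [NeZero q]

lemma avg_sub (y z : EE Λ q) : avg Ω (y - z) = avg Ω y - avg Ω z := by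
  ext n; simp [avg_co, smul_sub]

lemma avg_cst (c : Lq Λ q) : avg Ω (cstE Λ q c) = c := (jobAvg (Ω := Ω)).2.2.2.1 c

lemma q_smul_cancel {t : Λ} (h : (q : Ω)⁻¹ • t = 0) : t = 0 := by
  have := congrArg (fun u => (q : Ω) • u) h
  simpa [smul_smul, NeZero.ne q] using this

lemma co_lead {m n : ℤ} {f g : EE Λ q} (hf : f ∈ Sk.ord _ _ m) (hg : g ∈ Sk.ord _ _ n)
    (j : ZMod q) : (f * g).co (m + n) j = f.co m j * g.co n (j + m) := by
  rw [Sk.co_mul_lead hf hg, Pi.mul_apply, shift_zpow_apply]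

lemma cstE_mem {n : ℤ} {c : Lq Λ q} (h : c ∈ Sk.ord _ _ n) : cstE Λ q c ∈ Sk.ord _ _ n :=
  cstE_bdd h

lemma comm_lead {m : ℤ} {ω a : EE Λ q} {z : Λ} (hω : ω ∈ Sk.ord _ _ m) (ha : a ∈ Sk.ord _ _ 1)
    (hz : ∀ j, a.co 1 j = z) (j : ZMod q) :
    (ω * a).co (m + 1) j = ω.co m j * z ∧ (a * ω).co (m + 1) j = z * ω.co m (j + 1) := by
  refine ⟨by rw [co_lead hω ha, hz], ?_⟩
  rw [add_comm, co_lead ha hω, hz]; simp

/-- solving `y = [ω, α]` -/
lemma ad0 {α : Lq Λ q} (hα : α ∈ Sk.ord _ _ 1) {z' : Λ} (hz : z' * α.co 1 = 1) (m : ℤ)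
    (y : EE Λ q) (hy : y ∈ Sk.ord _ _ m) (h0 : avg Ω y = 0) :
    ∃ ω ∈ Sk.ord (shift Λ q) q (m - 1), y = ω * cstE Λ q α - cstE Λ q α * ω := by
  have ha := cstE_mem hα
  obtain ⟨f, hf⟩ := seq_exists
    (fun n (ω : EE Λ q) => y - (ω * cstE Λ q α - cstE Λ q α * ω) ∈ Sk.ord _ _ (m + n) ∧
      ω ∈ Sk.ord _ _ (m - 1))
    (fun n ω ω' => ω' - ω ∈ Sk.ord _ _ (m - 1 + n)) 0 ⟨by simpa using hy, zero_mem _⟩ (by
      rintro n ω ⟨h1, h2⟩
      set ρ := y - (ω * cstE Λ q α - cstE Λ q α * ω) with hρ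
      have hav : avg Ω ρ = 0 := by
        rw [hρ, avg_sub, avg_sub, avg_cst_mul, avg_mul_cst, h0, mul_comm]; simp
      obtain ⟨η, hη⟩ := solve_diff (fun j => z' * ρ.co (m + n) j) (by
        rw [← mul_sum, q_smul_cancel (Ω := Ω) (q := q) (t := ∑ j, ρ.co (m + n) j)
          (congrArg (fun c : Lq Λ q => c.co (m + n)) hav), mul_zero])
      have hm := Sk.mono_mem_ord (σ := shift Λ q) (q := q) (m - 1 + n) η
      refine ⟨ω + Sk.mono _ _ (m - 1 + n) η, ⟨?_, add_mem h2 (anti (by omega) hm)⟩,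
        by simpa using hm⟩
      have e : y - ((ω + Sk.mono _ _ (m - 1 + n) η) * cstE Λ q α -
          cstE Λ q α * (ω + Sk.mono _ _ (m - 1 + n) η)) =
          ρ - (Sk.mono _ _ (m - 1 + n) η * cstE Λ q α - cstE Λ q α * Sk.mono _ _ (m - 1 + n) η) := by
        rw [hρ]; noncomm_ring
      have e2 : m + n = m - 1 + n + 1 := by ring
      rw [e, Nat.cast_succ, ← add_assoc]
      refine mem_succ (sub_mem h1 (sub_mem (e2 ▸ Sk.mul_mem_ord hm ha)
        (anti (by omega) (Sk.mul_mem_ord ha hm)))) ?_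
      funext j
      have := comm_lead hm ha (fun _ => rfl) j
      rw [← e2] at this
      rw [Sk.co_sub ρ, Sk.co_sub (Sk.mono _ _ _ _ * _), Pi.sub_apply, Pi.sub_apply, this.1, this.2]
      simp only [Sk.co_mono, if_true, Pi.zero_apply]
      linear_combination -(α.co 1) * hη j - ρ.co (m + n) j * hz)
  obtain ⟨ω, hω⟩ := lim (Sk.filt (shift Λ q) q) f (m - 1) fun n => (hf n).2
  refine ⟨ω, ?_, (Sk.filt (shift Λ q) q).eq_of_forall m fun n => ?_⟩
  · have := add_mem (show ω - f 0 ∈ Sk.ord _ _ (m - 1) by simpa [Sk.filt] using hω 0) (hf 0).1.2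
    rwa [sub_add_cancel] at this
  · have e : y - (ω * cstE Λ q α - cstE Λ q α * ω) = y - (f n * cstE Λ q α - cstE Λ q α * f n) -
        ((ω - f n) * cstE Λ q α - cstE Λ q α * (ω - f n)) := by noncomm_ring
    rw [e]
    exact sub_mem (hf n).1.1 (sub_mem (anti (by omega) (Sk.mul_mem_ord (hω n) ha))
      (anti (by omega) (Sk.mul_mem_ord ha (hω n))))

/-- the centralizer of `α` -/
lemma cent0 {α : Lq Λ q} (hα : α ∈ Sk.ord _ _ 1) {z' : Λ} (hz : z' * α.co 1 = 1)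
    (y : EE Λ q) (hy : y * cstE Λ q α = cstE Λ q α * y) : y = cstE Λ q (avg Ω y) := by
  by_contra hne
  obtain ⟨m, h1, h2⟩ := Sk.exists_lead (sub_ne_zero.2 hne)
  set u := y - cstE Λ q (avg Ω y) with hu
  have hc : u * cstE Λ q α = cstE Λ q α * u := by
    rw [hu, sub_mul, mul_sub, hy, ← map_mul, ← map_mul, mul_comm α]
  have hav : avg Ω u = 0 := by rw [hu, avg_sub, avg_cst, sub_self]
  have hconst := const_of_succ (u.co m) fun j => by
    have := comm_lead h1 (cstE_mem hα) (fun _ => rfl) j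
    rw [hc, this.2] at this
    have h3 := this.1
    linear_combination z' * h3 - (u.co m (j + 1) - u.co m j) * hz
  have h3 := congrArg (fun c : Lq Λ q => c.co m) hav
  simp only [avg_co, Sk.co_zero] at h3
  rw [sum_congr rfl fun j _ => hconst j, sum_const, card_univ, ZMod.card,
    ← Nat.cast_smul_eq_nsmul Ω, smul_smul, inv_mul_cancel₀ (Nat.cast_ne_zero.2 (NeZero.ne q)),
    one_smul] at h3
  exact h2 (funext fun j => (hconst j).trans h3)

include Ω in
/-- normal form of a series with constant unit leading coefficient -/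
lemma nf0 {a : EE Λ q} (ha : a ∈ Sk.ord _ _ 1) {z z' : Λ} (hz : z' * z = 1)
    (h1 : ∀ j, a.co 1 j = z) : ∃ (w : EE Λ q) (α : Lq Λ q), 1 - w ∈ Sk.ord _ _ 1 ∧
      α ∈ Sk.ord _ _ 1 ∧ α.co 1 = z ∧ a * w = w * cstE Λ q α := by
  have one0 : (1 : EE Λ q) ∈ Sk.ord _ _ 0 := Sk.mono_mem_ord _ _
  obtain ⟨f, hf⟩ := seq_exists
    (fun n (p : EE Λ q × Lq Λ q) => a * p.1 - p.1 * cstE Λ q p.2 ∈ Sk.ord _ _ (2 + n) ∧
      1 - p.1 ∈ Sk.ord _ _ 1 ∧ p.2 ∈ Sk.ord _ _ 1 ∧ p.2.co 1 = z)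
    (fun n p p' => p'.1 - p.1 ∈ Sk.ord _ _ (1 + n) ∧ p'.2 - p.2 ∈ Sk.ord _ _ (2 + n))
    (1, Sk.mono _ _ 1 z) ⟨by
      rw [mul_one, one_mul]
      exact mem_succ (sub_mem ha (cstE_mem (Sk.mono_mem_ord _ _)))
        (funext fun j => by simp [h1, cstE_co]), by simp, Sk.mono_mem_ord _ _, by simp⟩ (by
      rintro n ⟨W, β⟩ ⟨h2, h3, h4, h5⟩
      dsimp only at h2 h3 h4 h5 ⊢
      set ρ := a * W - W * cstE Λ q β with hρ
      set t := (avg Ω ρ).co (2 + n) with ht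
      obtain ⟨η, hη⟩ := solve_diff (fun j => z' * (ρ.co (2 + n) j - t)) (by
        rw [← mul_sum, sum_sub_distrib, sum_const, card_univ, ZMod.card, ht, avg_co,
          ← Nat.cast_smul_eq_nsmul Ω, smul_smul,
          mul_inv_cancel₀ (Nat.cast_ne_zero.2 (NeZero.ne q)), one_smul, sub_self, mul_zero])
      have hm := Sk.mono_mem_ord (σ := shift Λ q) (q := q) (1 + n) η
      have hm' := Sk.mono_mem_ord (σ := (1 : RingAut Λ)) (q := q) (2 + n) t
      have hW : W ∈ Sk.ord _ _ 0 := by simpa using sub_mem one0 (anti zero_le_one h3)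
      have hW0 : ∀ j, W.co 0 j = 1 := fun j => by
        have := congrFun (h3 0 (by omega)) j
        simp only [Sk.co_sub, Sk.co_one, if_true, Pi.sub_apply, Pi.one_apply, Pi.zero_apply] at this
        exact (sub_eq_zero.1 this).symm
      have hβ' : β + Sk.mono _ _ (2 + n) t ∈ Sk.ord _ _ 1 := add_mem h4 (anti (by omega) hm')
      have hβ1 : (β + Sk.mono _ _ (2 + n) t).co 1 = z := by
        rw [Sk.co_add, h5, hm' 1 (by omega), add_zero]
      refine ⟨(W + Sk.mono _ _ (1 + n) η, β + Sk.mono _ _ (2 + n) t),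
        ⟨?_, ?_, hβ', hβ1⟩, by simpa using hm, by simpa using hm'⟩
      · dsimp only
        have e : a * (W + Sk.mono _ _ (1 + n) η) -
            (W + Sk.mono _ _ (1 + n) η) * cstE Λ q (β + Sk.mono _ _ (2 + n) t) =
            ρ + a * Sk.mono _ _ (1 + n) η -
              Sk.mono _ _ (1 + n) η * cstE Λ q (β + Sk.mono _ _ (2 + n) t) -
              W * cstE Λ q (Sk.mono _ _ (2 + n) t) := by
          rw [hρ, map_add]; noncomm_ring
        have e2 : (2 : ℤ) + n = 1 + n + 1 := by ring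
        have hW' := Sk.mul_mem_ord hW (cstE_mem hm')
        have hW'' := fun j => co_lead hW (cstE_mem hm') j
        rw [zero_add] at hW' hW''
        rw [e, Nat.cast_succ, ← add_assoc]
        refine mem_succ (sub_mem (sub_mem (add_mem h2 (anti (by omega) (Sk.mul_mem_ord ha hm)))
          (anti (by omega) (Sk.mul_mem_ord hm (cstE_mem hβ')))) hW') ?_
        funext j
        have c1 := (comm_lead hm ha h1 j).2
        have c2 := (comm_lead hm (cstE_mem hβ') (fun _ => hβ1) j).1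
        rw [← e2] at c1 c2
        rw [Sk.co_sub, Sk.co_sub, Sk.co_add, Pi.sub_apply, Pi.sub_apply, Pi.add_apply, c1, c2,
          hW'', hW0]
        simp only [Sk.co_mono, if_true, cstE_co, Pi.zero_apply]
        linear_combination -z * hη j - (ρ.co (2 + n) j - t) * hz
      · have := sub_mem h3 (anti (show (1 : ℤ) ≤ 1 + n by omega) hm)
        dsimp only
        convert this using 1; abel)
  obtain ⟨w, hw⟩ := lim (Sk.filt (shift Λ q) q) (fun n => (f n).1) 1 fun n => (hf n).2.1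
  obtain ⟨α, hα⟩ := lim (Sk.filt (1 : RingAut Λ) q) (fun n => (f n).2) 2 fun n => (hf n).2.2
  have hw1 : 1 - w ∈ Sk.ord _ _ 1 := by
    have := sub_mem (hf 0).1.2.1 (show w - (f 0).1 ∈ Sk.ord _ _ 1 by simpa [Sk.filt] using hw 0)
    convert this using 1; abel
  have hα0 : α - (f 0).2 ∈ Sk.ord _ _ 2 := by simpa [Sk.filt] using hα 0
  have hα1 : α ∈ Sk.ord _ _ 1 := by
    simpa using add_mem (anti one_le_two hα0) (hf 0).1.2.2.1
  refine ⟨w, α, hw1, hα1, ?_, (Sk.filt (shift Λ q) q).eq_of_forall 2 fun n => ?_⟩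
  · have := hα0 1 (by omega)
    rw [Sk.co_sub, (hf 0).1.2.2.2] at this
    exact sub_eq_zero.1 this
  · have e : a * w - w * cstE Λ q α = a * (f n).1 - (f n).1 * cstE Λ q (f n).2 +
        a * (w - (f n).1) - (w - (f n).1) * cstE Λ q α - (f n).1 * cstE Λ q (α - (f n).2) := by
      rw [map_sub]; noncomm_ring
    have hW : (f n).1 ∈ Sk.ord _ _ 0 := by
      simpa using sub_mem one0 (anti zero_le_one (hf n).1.2.1)
    rw [e]
    exact sub_mem (sub_mem (add_mem (hf n).1.1 (anti (by omega) (Sk.mul_mem_ord ha (hw n))))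
      (anti (by omega) (Sk.mul_mem_ord (hw n) (cstE_mem hα1))))
      (anti (by omega) (Sk.mul_mem_ord hW (cstE_mem (hα n))))

lemma eC_eq (a : Λ) : eC Λ q a = Sk.mono (shift Λ q) q 0 fun _ => a := by
  ext n j
  change (if n = 0 then a else 0) = (if n = 0 then (fun _ => a) else 0 : ZMod q → Λ) j
  split_ifs <;> rfl

lemma eC_comm (a : Λ) (y : EE Λ q) : Commute (eC Λ q a) y := by
  rw [eC_eq]
  ext n j
  rw [Sk.mono_mul_co, Sk.mul_mono_co]
  simp [shift_zpow_apply, mul_comm]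

lemma eC_mul_co (a : Λ) (y : EE Λ q) (n : ℤ) (j : ZMod q) :
    (eC Λ q a * y).co n j = a * y.co n j := by
  rw [eC_eq, Sk.mono_mul_co]; simp

end gen

section main

variable {Ω E ι : Type} [Field Ω] [CharZero Ω] [Fintype ι] [DecidableEq ι] {q : ℕ} [NeZero q]
  {b : NC (E → Ω) ι} {x : ZMod q → ι → Ω}

lemma up_co (δ : ι → EE Ω q) (i : ι) (n : ℤ) (j : ZMod q) (k : E) :
    (up E δ i).co n j k = (δ i).co n j := rfl

lemma up_mem {δ : ι → EE Ω q} {m : ℤ} (h : ∀ i, δ i ∈ Sk.ord _ _ m) (i : ι) :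
    up E δ i ∈ Sk.ord _ _ m := fun n hn => by
  funext j k; rw [up_co, h i n hn]; rfl

lemma ptU (x : ZMod q → ι → Ω) : Pt (Sk.filt _ _) (eC (E → Ω) q) (up E (XE x)) where
  const a := by rw [eC_eq]; exact Sk.mono_mem_ord _ _
  comm a i := eC_comm a _
  mem := up_mem fun _ => Sk.mono_mem_ord _ _
  exh r := r.bdd

lemma dirU (δ : ι → EE (E → Ω) q) : Dir (eC (E → Ω) q) δ := fun a _ => eC_comm a _

lemma sum_fin_one {M : Type} [AddCommMonoid M] (F : (Fin 1 → ι) → M) :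
    ∑ u, F u = ∑ i, F fun _ => i :=
  (Equiv.sum_comp (Equiv.funUnique (Fin 1) ι).symm F).symm

lemma ae_lead (hJ : JobJet) (hb : b ∈ NC.ordGe _ _ 1) :
    AE b x ∈ Sk.ord _ _ 1 ∧ ∀ j k, (AE b x).co 1 j k = lv (lOf b k) (x j) := by
  have jet := hJ _ _ _ (ptU (E := E) x)
  refine ⟨jet.ev_mem 1 b hb, fun j k => ?_⟩
  have h := jet.ev_lead 1 b hb 1 (by omega)
  rw [Sk.co_sub, sub_eq_zero, sum_fin_one] at h
  rw [AE, h]
  simp [eC_mul_co, up_co, XE, lv, lOf]

lemma de1_lead (hJ : JobJet) (hb : b ∈ NC.ordGe _ _ 1) (m : ℤ) (δ : ι → EE Ω q)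
    (hδ : ∀ i, δ i ∈ Sk.ord _ _ m) : DE1 b x δ ∈ Sk.ord _ _ m ∧
      ∀ j k, (DE1 b x δ).co m j k = lv (lOf b k) fun i => (δ i).co m j := by
  have jet := hJ _ _ _ (ptU (E := E) x)
  refine ⟨jet.d1_mem' m _ (dirU _) (up_mem hδ) b, fun j k => ?_⟩
  have h := jet.d1_lead 1 m _ (dirU (up E δ)) (up_mem hδ) b hb m (by omega)
  rw [Sk.co_sub, sub_eq_zero, sum_fin_one] at h
  rw [DE1, h]
  simp [eC_mul_co, up_co, lv, lOf]

lemma zz_succ (l : ι → Ω) (m : ℕ) (j : ZMod q) :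
    zz l x (m + 1) j = zz l x m j * lv l (x (j + m)) := prod_range_succ _ _

lemma zz_ne {l : ι → Ω} (h : ∀ j, lv l (x j) ≠ 0) (m : ℕ) (j : ZMod q) : zz l x m j ≠ 0 :=
  prod_ne_zero_iff.2 fun _ _ => h _

lemma exists_nf (hJ : JobJet) (hb : b ∈ NC.ordGe _ _ 1) (hl : ∀ k j, lv (lOf b k) (x j) ≠ 0)
    (z : E → Ω) (hz : ∀ k, z k ^ q = zz (lOf b k) x q 0) : ∃ N : NFD b x, N.α.co 1 = z := by
  obtain ⟨hA, hA1⟩ := ae_lead (x := x) hJ hb
  have hz0 : ∀ k, z k ≠ 0 := fun k h => zz_ne (hl k) q 0 (by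
    rw [← hz, h, zero_pow (NeZero.ne q)])
  let g : ZMod q → E → Ω := fun j k => z k ^ j.val / zz (lOf b k) x j.val 0
  have hg0 : ∀ j k, g j k ≠ 0 := fun j k =>
    div_ne_zero (pow_ne_zero _ (hz0 k)) (zz_ne (hl k) _ _)
  have hg1 : ∀ j k, (g j k)⁻¹ * lv (lOf b k) (x j) * g (j + 1) k = z k := fun j k => by
    have := val_succ (fun n => z k ^ n / zz (lOf b k) x n 0)
      (by rw [hz, div_self (zz_ne (hl k) _ _)]; simp [zz]) j
    simp only [g]
    beta_reduce at this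
    rw [this, zz_succ, zero_add, ZMod.natCast_zmod_val, pow_succ]
    have := hl k j
    have := hz0 k
    have := zz_ne (hl k) j.val 0
    field_simp
  set G : EE (E → Ω) q := Sk.mono _ _ 0 g with hG
  set G' : EE (E → Ω) q := Sk.mono _ _ 0 fun j k => (g j k)⁻¹ with hG'
  have hGm : G ∈ Sk.ord _ _ 0 := Sk.mono_mem_ord _ _
  have hGm' : G' ∈ Sk.ord _ _ 0 := Sk.mono_mem_ord _ _
  have m1 : G * G' = 1 := by
    rw [hG, hG', Sk.mono_mul_mono, Sk.one_def, add_zero]; congr 1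
    funext j k; simp [hg0]
  have m2 : G' * G = 1 := by
    rw [hG, hG', Sk.mono_mul_mono, Sk.one_def, add_zero]; congr 1
    funext j k; simp [hg0]
  have h1 : G' * AE b x ∈ Sk.ord _ _ 1 := by simpa using Sk.mul_mem_ord hGm' hA
  obtain ⟨w, α, hw, hα, hα1, e⟩ := nf0 (Ω := Ω) (a := G' * AE b x * G) (z := z)
    (z' := fun k => (z k)⁻¹) (by simpa using Sk.mul_mem_ord h1 hGm)
    (by funext k; simp [hz0]) fun j => by
      have c1 := co_lead h1 hGm j
      have c2 := co_lead hGm' hA j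
      rw [add_zero] at c1
      rw [zero_add] at c2
      funext k
      rw [c1, c2]
      simp only [hG, hG', Sk.co_mono, if_true, Pi.mul_apply, Int.cast_zero, add_zero, hA1,
        Int.cast_one, hg1]
  obtain ⟨w', i1, i2, i3⟩ := (Sk.filt (shift (E → Ω) q) q).exists_inv hw
  rw [sub_sub_cancel] at i1 i2
  have one0 : (1 : EE (E → Ω) q) ∈ Sk.ord _ _ 0 := Sk.mono_mem_ord _ _
  have hw0 : w ∈ Sk.ord _ _ 0 := by simpa using sub_mem one0 (anti zero_le_one hw)
  have hw0' : w' ∈ Sk.ord _ _ 0 := by simpa using add_mem (anti zero_le_one i3) one0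
  refine ⟨⟨G * w, w' * G', α, by simpa using Sk.mul_mem_ord hGm hw0,
    by simpa using Sk.mul_mem_ord hw0' hGm', ?_, ?_, hα, ?_⟩, hα1⟩
  · rw [mul_assoc, ← mul_assoc w, i2, one_mul, m1]
  · rw [mul_assoc, ← mul_assoc G', m2, one_mul, i1]
  · calc w' * G' * AE b x * (G * w) = w' * (G' * AE b x * G * w) := by noncomm_ring
      _ = _ := by rw [e, ← mul_assoc, i1, one_mul]

variable (N : NFD b x)

lemma conj_mem {n : ℤ} {y : EE (E → Ω) q} (hy : y ∈ Sk.ord _ _ n) :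
    N.w' * y * N.w ∈ Sk.ord _ _ n := by
  simpa using Sk.mul_mem_ord (Sk.mul_mem_ord N.hw' hy) N.hw

lemma conj_co {n : ℤ} {y : EE (E → Ω) q} (hy : y ∈ Sk.ord _ _ n) (j : ZMod q) (k : E) :
    (N.w' * y * N.w).co n j k = N.w'.co 0 j k * y.co n j k * N.w.co 0 (j + n) k := by
  have h1 := co_lead N.hw' hy j
  have h2 := co_lead (Sk.mul_mem_ord N.hw' hy) N.hw j
  rw [add_zero, h1, zero_add] at h2
  rw [h2]; simp

lemma conj_mul (y z : EE (E → Ω) q) :
    N.w' * (y * z) * N.w = N.w' * y * N.w * (N.w' * z * N.w) := by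
  calc N.w' * (y * z) * N.w = N.w' * y * (N.w * N.w') * z * N.w := by rw [N.mul1]; noncomm_ring
    _ = _ := by noncomm_ring

lemma api (hJ : JobJet) (hb : b ∈ NC.ordGe _ _ 1) (hl : ∀ k j, lv (lOf b k) (x j) ≠ 0) :
    NFAPI N := by
  have jet := hJ _ _ _ (ptU (E := E) x)
  obtain ⟨hA, hA1⟩ := ae_lead (x := x) hJ hb
  have lw : ∀ j k, N.w'.co 0 j k * N.w.co 0 j k = 1 ∧
      N.w'.co 0 j k * lv (lOf b k) (x j) * N.w.co 0 (j + 1) k = N.α.co 1 k := fun j k => by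
    constructor
    · have := congrFun (co_lead N.hw' N.hw j) k
      rw [N.mul2] at this
      simpa using this.symm
    · have := conj_co N hA j k
      rw [N.eq, hA1] at this
      simpa [cstE_co] using this.symm
  have lwp : ∀ (m : ℕ) j k, N.w'.co 0 j k * N.w.co 0 (j + m) k =
      N.α.co 1 k ^ m * (zz (lOf b k) x m j)⁻¹ := fun m j k => by
    induction m with
    | zero => simp [(lw j k).1, zz]
    | succ m ih =>
      have h1 := lw (j + m) k
      have h2 := hl k (j + m)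
      rw [zz_succ, Nat.cast_succ, ← add_assoc, pow_succ, mul_inv, mul_mul_mul_comm, ← ih, ← h1.2]
      field_simp
      linear_combination -(N.w'.co 0 j k * N.w.co 0 (j + m + 1) k) * h1.1
  have αne : ∀ k, N.α.co 1 k ≠ 0 := fun k => by
    rw [← (lw 0 k).2]
    exact mul_ne_zero (mul_ne_zero (left_ne_zero_of_mul_eq_one (lw 0 k).1) (hl k 0))
      (right_ne_zero_of_mul_eq_one (lw _ k).1)
  have hz : (fun k => (N.α.co 1 k)⁻¹) * N.α.co 1 = 1 := by funext k; simp [αne]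
  refine
    { pt := ptU x
      dir := fun δ => dirU _
      lam_add := fun δ δ' => ?_
      lam_smul := fun f δ => ?_
      lead_w := lw
      lead_w_pow := lwp
      α_ne := αne
      α_pow := fun k j => ?_
      de1_lead := de1_lead hJ hb
      ae_lead := ⟨hA, hA1⟩
      lam_lead := fun m δ hδ => ?_
      ad := fun n y hy h0 => ?_
      cent := fun y hy => ?_ }
  · have : up E (δ + δ') = up E δ + up E δ' := funext fun i => map_add _ _ _
    rw [NFD.lam, DE1, this, jet.d1_add' _ _ _ (dirU _) (dirU _), mul_add, add_mul, jobAvg.1]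
    rfl
  · have : up E (f • δ) = fun i => algebraMap (La Ω) (EE (E → Ω) q) f * up E δ i :=
      funext fun i => by rw [← Algebra.smul_def]; exact jobAvg.2.2.2.2.2.2 f (δ i)
    rw [NFD.lam, DE1, this, jet.d1_smul _ _ _ (dirU _) (fun r => Algebra.commutes f r),
      ← Algebra.smul_def, mul_smul_comm, smul_mul_assoc, jobAvg.2.1]
    rfl
  · have := lwp q j k
    rw [ZMod.natCast_self, add_zero, (lw j k).1] at this
    exact (mul_inv_eq_one₀ (zz_ne (hl k) _ _)).1 this.symm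
  · obtain ⟨h1, h2⟩ := de1_lead (x := x) hJ hb m δ hδ
    refine ⟨avg_bdd (conj_mem N h1), fun k => ?_⟩
    rw [NFD.lam, avg_co, Pi.smul_apply, Finset.sum_apply, smul_eq_mul]
    congr 1
    refine sum_congr rfl fun j _ => ?_
    rw [conj_co N h1, h2, ← lwp, Int.cast_natCast]; ring
  · obtain ⟨ω, hω, e⟩ := ad0 N.hα hz n _ (conj_mem N hy) h0
    refine ⟨N.w * ω * N.w', by simpa using Sk.mul_mem_ord (Sk.mul_mem_ord N.hw hω) N.hw', ?_⟩
    rw [← N.eq] at e
    calc y = (N.w * N.w') * y * (N.w * N.w') := by rw [N.mul1, one_mul, mul_one]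
      _ = N.w * (N.w' * y * N.w) * N.w' := by noncomm_ring
      _ = N.w * ω * N.w' * AE b x * (N.w * N.w') - (N.w * N.w') * AE b x * (N.w * ω * N.w') := by
        rw [e]; noncomm_ring
      _ = _ := by rw [N.mul1, one_mul, mul_one]
  · exact cent0 N.hα hz _ (by rw [← N.eq, ← conj_mul, ← conj_mul, hy.eq])

end main

end NFX

theorem jobNF (hJ : JobJet) : JobNF := by
  intro Ω E ι _ _ _ _ q _ b x hb hl
  exact ⟨NFX.exists_nf hJ hb hl, fun N => NFX.api N hJ hb hl⟩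

end Crest.Agent.KU
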