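import Crest.Agent.KU.P1b

/-! Row 180, job NT: nontriviality of extensions. -/

set_option autoImplicit false
set_option linter.unusedSectionVars false

namespace Crest.Agent.KU

open Finset Module

namespace NT

/-- a `σ`-invariant trace on the coefficients gives a trace on the skew series -/
lemma tr_sk {Λ M : Type} [Ring Λ] [AddCommGroup M] {σ : RingAut Λ} {q : ℕ} (t : Λ →+ M)
    (h1 : ∀ a b, t (a * b) = t (b * a)) (h2 : ∀ a, t (σ a) = t a) (f g : Sk Λ σ q) :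
    t ((f * g).co 0) = t ((g * f).co 0) := by
  have h3 : ∀ (i : ℤ) a, t ((σ ^ i) a) = t a := fun i => by
    induction i using Int.induction_on with
    | zero => intro a; simp
    | succ i ih =>
      intro a
      rw [zpow_add_one]
      exact (ih (σ a)).trans (h2 a)
    | pred i ih =>
      intro a
      rw [zpow_sub_one]
      refine (ih (σ⁻¹ a)).trans ?_
      rw [← h2 (σ⁻¹ a)]
      exact congrArg t (σ.apply_symm_apply a)
  obtain ⟨a, ha⟩ := f.bdd
  obtain ⟨b, hb⟩ := g.bdd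
  rw [Sk.co_mul ha hb, Sk.co_mul_of hb ha 0 ((Icc a (0 - b)).map (Equiv.neg ℤ).toEmbedding)
    (fun i h1 h2 => by
      simp only [mem_map, mem_Icc, Equiv.coe_toEmbedding, Equiv.neg_apply]
      exact ⟨-i, ⟨by omega, by omega⟩, by ring⟩), sum_map, map_sum, map_sum]
  refine sum_congr rfl fun i _ => ?_
  simp only [Equiv.coe_toEmbedding, Equiv.neg_apply, zero_sub, neg_neg]
  rw [h1 (g.co _), ← h3 i ((σ ^ (-i)) _ * _), map_mul (σ ^ i), Sk.zpow_apply_zpow]
  simp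

variable {F D : Type} [Field F] [CharZero F] [Ring D] [IsDiv D] [Algebra F D]
  [FiniteDimensional F D]

/-- the trace of left multiplication -/
noncomputable def tD (F D : Type) [Field F] [Ring D] [Algebra F D] : D →+ F :=
  ((LinearMap.trace F D) ∘ₗ (Algebra.lmul F D).toLinearMap).toAddMonoidHom

lemma tD_comm (a b : D) : tD F D (a * b) = tD F D (b * a) := by
  change LinearMap.trace F D (Algebra.lmul F D (a * b)) =
    LinearMap.trace F D (Algebra.lmul F D (b * a))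
  rw [map_mul (Algebra.lmul F D), map_mul (Algebra.lmul F D), LinearMap.trace_mul_comm]

lemma tD_one : tD F D 1 = finrank F D := by
  change LinearMap.trace F D (Algebra.lmul F D 1) = _
  rw [map_one, LinearMap.trace_one]

lemma no_comm (p : Par F) (A W : Sh D p) (d : ℕ) (hd : 1 ≤ d)
    (hA : A ∈ Sk.ord (sc D p) p.q d) (h0 : A.co d ≠ 0)
    (h : W * A - A * W - d • A ∈ Sk.ord (sc D p) p.q (d + 1)) : False := by
  obtain ⟨A', h1, h2, h3⟩ := Sk.exists_inv hA (IsDiv.unit _ h0)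
  let t : Lq D p.q →+ F := (tD F D).comp (Sk.coHom 0)
  have t1 : ∀ a b, t (a * b) = t (b * a) := fun a b =>
    tr_sk (σ := 1) (tD F D) tD_comm (fun _ => rfl) a b
  have t2 : ∀ a, t (sc D p a) = t a := fun a => by
    change tD F D ((sc D p a).co 0) = tD F D (a.co 0)
    simp
  have k1 := Sk.mul_mem_ord h1 h 0 (by omega)
  have e : A' * (W * A - A * W - d • A) = A' * (W * A) - W - d • 1 := by
    rw [mul_sub, mul_sub, ← mul_assoc A' A, mul_smul_comm, h2, one_mul]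
  have k2 := tr_sk t t1 t2 A' (W * A)
  rw [mul_assoc, h3, mul_one] at k2
  have k3 := congrArg t k1
  rw [e, Sk.co_sub, Sk.co_sub, map_sub, map_sub, k2, sub_self, map_zero, zero_sub, neg_eq_zero] at k3
  have k4 : t ((d • (1 : Sh D p)).co 0) = d • (finrank F D : F) := by
    rw [← tD_one (F := F) (D := D)]
    change (t.comp (Sk.coHom 0)) (d • 1) = _
    rw [map_nsmul]
    congr 1
  rw [k4, nsmul_eq_mul, mul_eq_zero, Nat.cast_eq_zero, Nat.cast_eq_zero] at k3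
  have := Module.finrank_pos (R := F) (M := D)
  omega

variable {ι : Type} [Fintype ι] [DecidableEq ι]

/-- every first derivative is a commutator if this holds on a slice -/
lemma d1_comm (jet : JobJet) (mb : JobMorB) (p : Par F) (ξ : ι → Lq F p.q) (sl : Slice p ξ)
    (B : NC D ι) (w : sl.κ → Sh D p)
    (h : ∀ α, DA1 p ξ B (sl.E α) = w α * AA p ξ B - AA p ξ B * w α) (δ : ι → Sh F p) :
    ∃ W, DA1 p ξ B δ = W * AA p ξ B - AA p ξ B * W := by
  obtain ⟨m1, m2, m3, -⟩ := mb.2.2.2.2.2.2.2 p ξ D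
  have J := jet _ _ _ m1
  obtain ⟨v, ω, hv⟩ := sl.span δ
  have hD : ∀ δ : ι → Sh F p, Dir (shC D p) fun i => qMap D p (δ i) := fun δ a i => m2 _ a
  have hadd : ∀ δ δ' : ι → Sh F p, DA1 p ξ B (δ + δ') = DA1 p ξ B δ + DA1 p ξ B δ' :=
    fun δ δ' => by
      rw [DA1, DA1, DA1, ← J.d1_add' _ _ _ (hD δ) (hD δ')]
      congr 1
      funext i
      simp
  have hsm : ∀ (c : La (La F)) (δ : ι → Sh F p), DA1 p ξ B (c • δ) = c • DA1 p ξ B δ :=
    fun c δ => by
      rw [DA1, DA1, Algebra.smul_def c (D1 _ _ _ _ _),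
        ← J.d1_smul _ _ _ (hD δ) fun r => Algebra.commutes c r]
      congr 1
      funext i
      rw [Pi.smul_apply, m3, Algebra.smul_def]
  let L : (ι → Sh F p) →ₗ[La (La F)] Sh D p := ⟨⟨DA1 p ξ B, hadd⟩, hsm⟩
  have e : δ = ∑ α, v α • sl.E α + fun i => ω * XQ p ξ i - XQ p ξ i * ω := by
    funext i
    rw [hv i]
    simp
  have e2 : L (fun i => ω * XQ p ξ i - XQ p ξ i * ω) =
      qMap D p ω * AA p ξ B - AA p ξ B * qMap D p ω := by
    rw [AA, ← J.inn1 B _ (m2 ω)]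
    change D1 _ _ _ _ _ = _
    congr 1
    funext i
    simp [XA]
  refine ⟨∑ α, v α • w α + qMap D p ω, ?_⟩
  change L δ = _
  rw [e, map_add, e2, map_sum, add_mul, mul_add, add_sub_add_comm, sum_mul, mul_sum,
    ← sum_sub_distrib]
  congr 1
  refine sum_congr rfl fun α _ => ?_
  rw [map_smul, smul_mul_assoc, mul_smul_comm, ← smul_sub, ← h α]
  rfl

lemma radial (jet : JobJet) (mb : JobMorB) (p : Par F) (ξ : ι → Lq F p.q) (B : NC D ι) (d : ℕ)
    (hB : B ∈ NC.ordGe D ι d) :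
    DA1 p ξ B (XQ p ξ) - d • AA p ξ B ∈ Sk.ord (sc D p) p.q (d + 1) := by
  obtain ⟨m1, -⟩ := mb.2.2.2.2.2.2.2 p ξ D
  have J := jet _ _ _ m1
  have k1 := J.d1_lead d 1 (XA p ξ D) m1.comm m1.mem B hB
  have k2 := nsmul_mem (J.ev_lead d B hB) d
  simp only [ite_self, sum_const, card_univ, Fintype.card_fin] at k1
  rw [← Finset.smul_sum] at k1
  have := sub_mem k1 k2
  rw [smul_sub, sub_sub_sub_cancel_right] at this
  exact this

/-- a generating point at which the value has nonzero leading term -/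
lemma exists_pt [HasRoots F] (genB : JobGenB) (genX : JobGenX) (jet : JobJet) (mb : JobMorB)
    (h2 : 2 ≤ Fintype.card ι) (f : NC D ι) (d : ℕ) (w : List ι) (hf : f ∈ NC.ordGe D ι d)
    (hw : w.length = d) (h0 : f.co w ≠ 0) :
    ∃ (p : Par F) (ξ : ι → Lq F p.q), GenQ p ξ ∧ (AA p ξ f).co d ≠ 0 := by
  obtain ⟨χ, hχ⟩ : ∃ χ : D →ₗ[F] F, χ (f.co w) ≠ 0 := by
    by_contra h
    push Not at h
    exact h0 ((Module.forall_dual_apply_eq_zero_iff F _).1 h)
  obtain ⟨ζ, hζ⟩ := HasRoots.out (F := F) (d + 1) (by omega)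
  obtain ⟨p, hp⟩ : ∃ p : Par F, p.q = d + 1 := ⟨{ q := d + 1, ζ := ζ, prim := hζ }, rfl⟩
  let R : NC (Lq F p.q) ι := ⟨fun v => Sk.cst 1 p.q (χ (f.co v))⟩
  have g := (genB (Ω := Lq F p.q) (ι := ι) (q := p.q)).2.2.2.1 d R w hw
    (fun h => hχ ((map_eq_zero (Sk.cst (1 : RingAut F) p.q)).1 h)) (by omega)
  obtain ⟨ξ, hξ, u⟩ := genX p (RingHom.id _) h2 _ g
  refine ⟨p, ξ, hξ, fun h => u ?_⟩
  have A2 := (P1b.ev_lead (k := F) jet mb p ξ d f hf).2
  have := congrArg (P1b.chi χ) (A2.symm.trans h)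
  rw [map_zero, map_sum] at this
  rw [← this, hat]
  refine sum_congr rfl fun v _ => ?_
  rw [P1b.chi_mul, P1b.chi_cst]
  congr 1
  refine prod_congr rfl fun r _ => ?_
  have e : mapL p.q (algebraMap F F) (ξ (v r)) = ξ (v r) := by ext n; simp [mapL]
  rw [e, zpow_natCast]
  simp only [win, xOf, zero_add, RingHom.id_apply]
  rw [ZMod.val_cast_of_lt (by omega)]

end NT

theorem jobNT (ncb : JobNCB) (genB : JobGenB) (genX : JobGenX) (jet : JobJet) (mb : JobMorB)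
    (mor : JobMor) (extK : JobExtK) : JobNT := by
  have h1 : ∀ (a : An) (p : Par a.F) (ξ : a.ι → Lq a.F p.q) (sl : Slice p ξ)
      (nf : ExtNF p ξ a.B sl) (d : ℕ), a.B ∈ NC.ordGe _ _ d → 1 ≤ d → (AA p ξ a.B).co d ≠ 0 →
      (a.ext p nf).B1 := by
    intro a p ξ sl nf d hB hd h0
    by_contra hn
    have hz : ∀ α, nf.B'.co [α] = 0 := fun α => by
      by_contra hc
      exact hn ⟨α, hc⟩
    obtain ⟨W, hW⟩ := NT.d1_comm jet mb p ξ sl a.B (fun α => nf.w.co [α]) (fun α => by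
      rw [((extK a p ξ sl).2 nf).2.1 α, hz α]; simp) (XQ p ξ)
    refine NT.no_comm p (AA p ξ a.B) W d hd
      ((jet _ _ _ (mb.2.2.2.2.2.2.2 p ξ a.D).1).ev_mem d _ hB) h0 ?_
    rw [← hW]
    exact NT.radial jet mb p ξ a.B d hB
  refine ⟨h1, fun a ha => ?_, fun σ f hf => ?_⟩
  · obtain ⟨d, w, hd, hw, h0⟩ := (ncb (A := a.D) (ι := a.ι)).2.2.2.2.2.2 a.B ha
    have hd1 : 1 ≤ d := by
      by_contra hc
      exact h0 (a.ord1 w (by omega))
    obtain ⟨p, ξ, hξ, hA⟩ := NT.exists_pt (F := a.F) genB genX jet mb a.two a.B d w hd hw h0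
    obtain ⟨sl⟩ := mb.2.2.2.2.2.2.1 p ξ a.two
    obtain ⟨⟨nf⟩, w1⟩ := extK a p ξ sl
    exact ⟨a.ext p nf, (w1 nf).1 hξ, h1 a p ξ sl nf d hd hd1 hA⟩
  · obtain ⟨d, w, hd, hw, h0⟩ := (ncb (A := σ.D) (ι := σ.ι)).2.2.2.2.2.2 f hf
    obtain ⟨p, ξ, hξ, hA⟩ := NT.exists_pt (F := σ.F) genB genX jet mb σ.two f d w hd hw h0
    obtain ⟨sl⟩ := mb.2.2.2.2.2.2.1 p ξ σ.two
    obtain ⟨m1, m2, -⟩ := mb.2.2.2.2.2.2.2 p ξ σ.D
    refine ⟨σ.ext p sl, toLa2 σ.F, extPhi p ξ σ.D sl.E, mor p ξ sl hξ, fun h => hA ?_⟩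
    have := (jet _ _ _ m1).co_nil (fun α i => qMap σ.D p (sl.E α i)) (fun α a i => m2 _ a) f
    rw [AA, ← this]
    exact congrArg (fun y => Sk.co y d) h

end Crest.Agent.KU
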