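import Crest.Agent.KU.Ev

/-! Job Nat: naturality. -/

set_option autoImplicit false

namespace Crest.Agent.KU

open Finset NC Evl

@[simp] lemma NC.map_C {A B ι : Type} [Ring A] [Ring B] (φ : A →+* B) (a : A) :
    NC.map φ (C a : NC A ι) = C (φ a) := by
  ext w; cases w <;> simp

@[simp] lemma NC.map_X {A B ι : Type} [Ring A] [Ring B] (φ : A →+* B) (i : ι) :
    NC.map φ (X i : NC A ι) = X i := by
  ext w; simp only [co_map, X, mon]; split_ifs <;> simp

lemma NC.map_linSub {A B ι κ : Type} [Ring A] [Ring B] (φ : A →+* B) (Y : ι → A) (E : κ → ι → A) :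
    (fun i => NC.map φ (linSub Y E i)) = linSub (fun i => φ (Y i)) fun α i => φ (E α i) := by
  funext i
  ext w
  rcases w with _ | ⟨α, _ | ⟨β, w⟩⟩ <;> simp [linSub]

theorem jobNat : JobNat := by
  intro A A' R R' ι _ _ _ _ _ J J' ρ ρ' α ψ hJ hρ
  have H : ∀ {κ : Type} (y : ι → NC R κ) (c : κ → ℤ), Adm J ρ y c →
      Adm J' ρ' (fun i => NC.map ψ (y i)) c → ∀ f,
      NC.map ψ (ev J ρ y f) = ev J' ρ' (fun i => NC.map ψ (y i)) (NC.map α f) := by
    intro κ y c h h'
    have e := ((jobEv J ρ).1 y c h).1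
    have e' := ((jobEv J' ρ').1 _ c h').1
    refine RingHom.congr_fun (uniq J' (ρ := ψ.comp ρ) (y := fun i => NC.map ψ (y i))
      (Φ := (NC.map ψ).comp (ev J ρ y)) (Ψ := (ev J' ρ' _).comp (NC.map α))
      ⟨fun a => by simp [e.const], fun i => by simp [e.var], fun w n => ?_⟩
      ⟨fun a => by simp [e'.const, hρ], fun i => by simp [e'.var], fun w n => ?_⟩)
    · exact (e.cont w n).imp fun d hd f hf => hJ _ _ (hd f hf)
    · exact (e'.cont w n).imp fun d hd f hf => hd _ fun v hv => by simp [hf v hv]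
  have H' : ∀ X : ι → R, Pt J ρ X → Pt J' ρ' (fun i => ψ (X i)) → ∀ {κ : Type} (E : κ → ι → R),
      (∀ a, Dir ρ (E a)) → (∀ a, Dir ρ' fun i => ψ (E a i)) → ∀ f w,
      ψ ((ev J ρ (linSub X E) f).co w) =
        (ev J' ρ' (linSub (fun i => ψ (X i)) fun a i => ψ (E a i)) (NC.map α f)).co w := by
    intro X h h' κ E hE hE' f w
    obtain ⟨m, hm⟩ := exists_m h E
    rw [← map_linSub, ← H _ _ (adm_lin h hE hm)
      (map_linSub ψ X E ▸ adm_lin h' hE' fun a i => hJ _ _ (hm a i)), co_map]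
  refine ⟨H, fun X h h' f => ⟨?_, fun δ h1 h2 => H' X h h' _ (fun _ => h1) (fun _ => h2) f _,
    fun δ δ' h1 h2 h3 h4 => (H' X h h' _ (fun b => by cases b <;> assumption)
      (fun b => by cases b <;> assumption) f _).trans ?_⟩⟩
  · simpa [evX] using congrArg (·.co []) (H _ _ (adm_C h) (by simpa using adm_C h') f)
  · rw [D2]
    congr! with b i
    cases b <;> rfl

end Crest.Agent.KU
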