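import Crest.Agent.KU.P2

/-! Row 180: Phase 1 (reduction to a commutative coefficient field). -/

set_option autoImplicit false
set_option linter.unusedSectionVars false

namespace Crest.Agent.KU

open Finset Module Polynomial

namespace P1

/-- one stage of the approximation `B u ≡ u b` -/
structure Stage (a : An) (n : ℕ) where
  u : NC a.D a.ι
  b : NC a.D a.ι
  u0 : u.co [] = 1
  cen : ∀ w c, Commute (b.co w) c
  app : a.B * u - u * b ∈ NC.ordGe _ _ (n + 2)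

lemma conj_single {A ι : Type} [Ring A] {u u' B : NC A ι} (hu : u.co [] = 1) (hu' : u'.co [] = 1)
    (hB : B ∈ NC.ordGe A ι 1) (i : ι) : (u' * B * u).co [i] = B.co [i] := by
  have h0 : B.co [] = 0 := hB [] (by simp)
  simp [NC.mul_single, hu, hu', h0]

lemma next (ncb : JobNCB) (mb : JobMorB) (p1b : JobP1b) (a : An) (h1 : a.B1) (h2 : a.Sc)
    (hK : ¬ a.Kill) (ih : ∀ a' : An, a'.B1 → a'.m0 < a.m0 → a'.Kill) (n : ℕ) (s : Stage a n) :
    ∃ s' : Stage a (n + 1), s'.u - s.u ∈ NC.ordGe _ _ n ∧ s'.b - s.b ∈ NC.ordGe _ _ n := by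
  obtain ⟨u', e0, e1, e2⟩ := (ncb (A := a.D) (ι := a.ι)).2.1 s.u s.u0
  have hB : u' * a.B * s.u ∈ NC.ordGe a.D a.ι 1 :=
    P2.mul_le (P2.mul_left _ a.ord1) (P2.mem0 _) le_rfl
  let a₁ : An := { a.toSt with B := u' * a.B * s.u, ord1 := hB }
  have c1 : ∀ i, a₁.B.co [i] = a.B.co [i] := conj_single s.u0 e0 a.ord1
  have hd : a₁.B - s.b ∈ NC.ordGe a.D a.ι (n + 2) := by
    have := P2.mul_left u' s.app
    rwa [mul_sub, ← mul_assoc, ← mul_assoc, e2, one_mul] at this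
  have hconj : a.B * s.u = s.u * (u' * a.B * s.u) := by
    rw [← mul_assoc, ← mul_assoc, e1, one_mul]
  rcases p1b a₁ s.b (n + 2) (by obtain ⟨i, hi⟩ := h1; exact ⟨i, by rwa [c1]⟩)
    (fun i c => by rw [c1]; exact h2 i c) s.cen (by omega) hd with
    ⟨ψ, hψ, ρ, hρ, f1, f2⟩ | ⟨a', f1, f2, f3⟩
  · have hψ' : ψ ∈ NC.ordGe a.D a.ι (n + 1) := hψ
    have hψ0 : ψ.co [] = 0 := hψ' [] (by simp)
    refine ⟨⟨s.u * (1 + ψ), s.b + ρ, by simp [s.u0, hψ0],
      fun w c => (s.cen w c).add_left (f1 w c), ?_⟩, ?_, ?_⟩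
    · have := P2.mul_left s.u f2
      convert this using 1
      change _ = s.u * (u' * a.B * s.u * (1 + ψ) - _)
      rw [← mul_assoc a.B, hconj]
      noncomm_ring
    · change s.u * (1 + ψ) - s.u ∈ _
      rw [mul_add, mul_one, add_sub_cancel_left]
      exact P2.mul_left _ (P2.mono (by omega) hψ')
    · change s.b + ρ - s.b ∈ _
      rw [add_sub_cancel_left]
      exact P2.mono (by omega) hρ
  · exact absurd (mb.2.2.2.1 a.B _ s.u ⟨⟨s.u, u', e1, e2⟩, rfl⟩ hconj (f1 (ih a' f2 f3))) hK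

lemma kill_b1 (ncb : JobNCB) (mb : JobMorB) (p1a : JobP1a) (p1b : JobP1b) (p2 : Phase2) (m : ℕ) :
    ∀ a : An, a.B1 → a.m0 = m → a.Kill := by
  induction m using Nat.strong_induction_on with
  | _ m ihm =>
  intro a h1 hm
  have ih : ∀ a' : An, a'.B1 → a'.m0 < a.m0 → a'.Kill :=
    fun a' u1 u2 => ihm _ (hm ▸ u2) a' u1 rfl
  by_cases h2 : a.Sc
  swap
  · obtain ⟨a', f1, f2, f3⟩ := p1a.2.2 a h1 h2
    exact f1 (ih a' f2 f3)
  by_contra hK
  have hB0 : a.B.co [] = 0 := a.ord1 [] (by simp)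
  let s0 : Stage a 0 := ⟨1, NC.lin fun i => a.B.co [i], rfl, fun w c => by
      match w with
      | [] => exact Commute.zero_left c
      | [i] => exact h2 i c
      | _ :: _ :: _ => exact Commute.zero_left c,
    by rw [mul_one, one_mul]; exact P2.mem_two (by simp [hB0]) fun i => by simp⟩
  choose nx hnx using next ncb mb p1b a h1 h2 hK ih
  let s : ∀ n, Stage a n := fun n => Nat.rec s0 nx n
  obtain ⟨u, hu⟩ := (ncb (A := a.D) (ι := a.ι)).2.2.2.2.1 (fun n => (s n).u) fun n => (hnx n (s n)).1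
  obtain ⟨b, hb⟩ := (ncb (A := a.D) (ι := a.ι)).2.2.2.2.1 (fun n => (s n).b) fun n => (hnx n (s n)).2
  have u0 : u.co [] = 1 := by
    have := hu 1 [] (by simp)
    rw [NC.co_sub, (s 1).u0, sub_eq_zero] at this
    exact this
  have hcen : ∀ w c, Commute (b.co w) c := fun w c => by
    have := hb (w.length + 1) w (by simp)
    rw [NC.co_sub, sub_eq_zero] at this
    rw [this]; exact (s _).cen w c
  have heq : a.B * u = u * b := by
    rw [← sub_eq_zero]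
    refine (ncb (A := a.D) (ι := a.ι)).2.2.2.1 _ fun n => ?_
    have e : a.B * u - u * b = (a.B * (s n).u - (s n).u * (s n).b) + a.B * (u - (s n).u) -
        (u - (s n).u) * b - (s n).u * (b - (s n).b) := by noncomm_ring
    rw [e]
    exact sub_mem (sub_mem (add_mem (P2.mono (by omega) (s n).app) (P2.mul_left _ (hu n)))
      (P2.mul_le (hu n) (P2.mem0 _) le_rfl)) (P2.mul_left _ (hb n))
  obtain ⟨u', e0, e1, e2⟩ := (ncb (A := a.D) (ι := a.ι)).2.1 u u0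
  have hbc : b = u' * a.B * u := by rw [mul_assoc, heq, ← mul_assoc, e2, one_mul]
  let Z := Subalgebra.centralizer a.F (Set.univ : Set a.D)
  let b₀ : NC Z a.ι := ⟨fun w => ⟨b.co w, (Subalgebra.mem_centralizer_iff _).2 fun g _ =>
    (hcen w g).eq.symm⟩⟩
  have hb1 : b ∈ NC.ordGe a.D a.ι 1 :=
    hbc ▸ P2.mul_le (P2.mul_left _ a.ord1) (P2.mem0 _) le_rfl
  let a₀ : An := ⟨⟨a.F, Z, a.ι, a.two⟩, b₀, fun w hw => Subtype.ext (hb1 w hw)⟩
  have hZ : ∀ x y : Z, x * y = y * x := fun x y =>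
    Subtype.ext ((Subalgebra.mem_centralizer_iff _).1 y.2 x trivial)
  have k0 : a₀.Kill := p2 a₀ hZ (by
    obtain ⟨i, hi⟩ := h1
    refine ⟨i, fun h => hi ?_⟩
    have : b.co [i] = 0 := congrArg Subtype.val h
    rwa [hbc, conj_single u0 e0 a.ord1] at this)
  have k1 := mb.2.2.2.2.2.1 Z.val b₀ (fun c hc => ⟨⟨c, (Subalgebra.mem_centralizer_iff _).2
    fun g _ => (hc g).eq.symm⟩, rfl⟩) hZ k0
  exact hK (mb.2.2.2.1 a.B b u ⟨⟨u, u', e1, e2⟩, rfl⟩ heq k1)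

end P1

theorem jobP1 (ncb : JobNCB) (ss : JobSS) (mb : JobMorB) (nt : JobNT) (p1a : JobP1a)
    (p1b : JobP1b) : JobP1 := by
  intro p2
  have hA : ∀ a : An, a.Kill := fun a => by
    by_cases h : a.B = 0
    · unfold An.Kill; rw [h]; exact mb.2.2.2.2.1 a.toSt
    · obtain ⟨a', f1, f2⟩ := nt.2.1 a h
      exact f1 (P1.kill_b1 ncb mb p1a p1b p2 _ a' f2 rfl)
  refine ⟨hA, fun σ f => ?_⟩
  obtain ⟨w, B, e1, e2, e3, e4⟩ := (ss (F := σ.F) (R := σ.D)).2 f
  let Z := Subalgebra.centralizer σ.F ({f.co []} : Set σ.D)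
  let B₀ : NC Z σ.ι := ⟨fun v => ⟨B.co v, (Subalgebra.mem_centralizer_iff _).2 fun g hg => by
    rw [Set.mem_singleton_iff.1 hg]; exact (e3 v).eq.symm⟩⟩
  let a : An := ⟨⟨σ.F, Z, σ.ι, σ.two⟩, B₀, fun v hv => Subtype.ext (e2 v hv)⟩
  let a₀ : Z := ⟨f.co [], (Subalgebra.mem_centralizer_iff _).2 fun g hg => by
    rw [Set.mem_singleton_iff.1 hg]⟩
  have k0 : Kill σ.F B₀ := hA a
  have k := k0 σ.D Z.val a₀ fun c =>
    Subtype.ext ((Subalgebra.mem_centralizer_iff _).1 c.2 _ rfl)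
  have e5 : NC.map Z.val.toRingHom (NC.C a₀ + B₀) = NC.C (f.co []) + B := by
    ext v; cases v <;> simp [a₀, B₀]
  refine mb.2.2.1 f _ w ((ncb (A := σ.D) (ι := σ.ι)).1 w (e1 ▸ isUnit_one)) e4 ?_
  rw [← e5]; exact k

end Crest.Agent.KU
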