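import Crest.Agent.KU.P1b

/-! Row 180: bookkeeping for the invariant `m0`. -/

set_option autoImplicit false
set_option linter.unusedSectionVars false

namespace Crest.Agent.KU

open Finset Module Polynomial

namespace P1a

lemma center_dvd {F D : Type} [Field F] [Ring D] [IsDiv D] [Algebra F D] [FiniteDimensional F D] :
    finrank F (Subalgebra.center F D) ∣ finrank F D := by
  rw [← Subalgebra.centralizer_univ]
  let Z := Subalgebra.centralizer F (Set.univ : Set D)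
  let i1 : DivisionRing Z := IsDiv.divisionRing Z
  exact ⟨finrank Z D, (Module.finrank_mul_finrank F Z D).symm⟩

lemma cst_indep (ech : JobEch) {k A I : Type} [Field k] [Ring A] [Algebra k A] [Fintype I] (q : ℕ)
    [NeZero q] (z : I → A) (hz : LinearIndependent k z) :
    LinearIndependent (La k) fun i => Sk.cst (1 : RingAut A) q (z i) :=
  ((ech (k := k) (σ := (1 : RingAut A)) (q := q)).2.1 _ (fun _ => 0)
    (fun _ => Sk.mono_mem_ord _ _) fun r => by
      simpa [Function.comp_def] using hz.comp (fun i : {i : I // ((0 : ℤ) : ZMod q) = r} => (i : I))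
        Subtype.val_injective).1

/-- the elements `shC zᵢ * A ^ m` are independent -/
lemma indep (ech : JobEch) {F D I : Type} [Field F] [Ring D] [IsDiv D] [Algebra F D] [Fintype I]
    (p : Par F) (z : I → D) (hz : LinearIndependent F z) {A : Sh D p}
    (hA : A ∈ Sk.ord (sc D p) p.q 1) (hA0 : A.co 1 ≠ 0) :
    LinearIndependent (La (La F)) fun i : I × Fin p.q => shC D p (z i.1) * A ^ (i.2 : ℕ) := by
  have h0 : ∀ i, shC D p (z i) ∈ Sk.ord (sc D p) p.q 0 := fun i => Sk.mono_mem_ord _ _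
  refine ((ech (k := La F) (σ := sc D p) (q := p.q)).2.1 _ (fun i => ((i.2 : ℕ) : ℤ))
    (fun i => by simpa using Sk.mul_mem_ord (h0 i.1) (P1b.pow_lead hA i.2).1) fun r => ?_).1
  have hv : ∀ i : {i : I × Fin p.q // ((((i.2 : ℕ) : ℤ)) : ZMod p.q) = r}, (i.1.2 : ℕ) = r.val :=
    fun i => by
      obtain ⟨i, rfl⟩ := i
      change (i.2 : ℕ) = _
      rw [Int.cast_natCast, ZMod.val_cast_of_lt i.2.2]
  have h1 := ((cst_indep ech p.q z hz).map' (LinearMap.mulRight (La F) ((A ^ r.val).co r.val))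
    (LinearMap.ker_eq_bot.2 fun a b h =>
      mul_right_cancel₀ ((P1b.pow_lead hA r.val).2 hA0) h)).comp
    (fun i : {i : I × Fin p.q // ((((i.2 : ℕ) : ℤ)) : ZMod p.q) = r} => i.1.1) fun i j h =>
      Subtype.ext (Prod.ext h (Fin.ext ((hv i).trans (hv j).symm)))
  refine (congrArg (fun v => LinearIndependent (La F) v) (funext fun i => ?_)).mp h1
  have := Sk.co_mul_lead (h0 i.1.1) (P1b.pow_lead hA i.1.2).1
  rw [zero_add] at this
  rw [this, hv i]
  simp [shC]

lemma shC_comm {F D : Type} [Field F] [Ring D] [Algebra F D] (p : Par F) {z : D}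
    (hz : ∀ c, c * z = z * c) (y : Sh D p) : shC D p z * y = y * shC D p z := by
  have h1 : ∀ n : ℤ, (sc D p ^ n) (Sk.cst 1 p.q z) = Sk.cst 1 p.q z := fun n => by
    have := Sk.map_zpow_comm (σ := (1 : RingAut D)) (τ := sc D p) (Sk.cst 1 p.q) (fun a => by
      ext n; simp only [co_sc, Sk.co_cst]; split_ifs with h <;> simp [h]) n z
    rw [← this]; simp
  ext n m
  change (Sk.co (Sk.mono _ _ 0 _ * y) n).co m = (Sk.co (y * Sk.mono _ _ 0 _) n).co m
  rw [Sk.mono_mul_co, Sk.mul_mono_co, h1]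
  change (Sk.mono _ _ 0 _ * _).co m = (_ * Sk.mono _ _ 0 _).co m
  rw [Sk.mono_mul_co, Sk.mul_mono_co]
  simp [hz]

lemma part1 (a : An) : finrank a.F a.D = finrank a.F (Subalgebra.center a.F a.D) * a.m0 :=
  (Nat.mul_div_cancel' center_dvd).symm

lemma part2 (ech : JobEch) (jet : JobJet) (mb : JobMorB) (a : An) (p : Par a.F)
    (ξ : a.ι → Lq a.F p.q) (sl : Slice p ξ) (nf : ExtNF p ξ a.B sl) (h0 : (AA p ξ a.B).co 1 ≠ 0)
    (hlt : finrank (La (La a.F)) (Cent p ξ a.B) < p.q * finrank a.F a.D) :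
    (a.ext p nf).m0 < a.m0 := by
  have hA : AA p ξ a.B ∈ Sk.ord (sc a.D p) p.q 1 :=
    (jet _ _ _ (mb.2.2.2.2.2.2.2 p ξ a.D).1).ev_mem 1 _ a.ord1
  let Z := Subalgebra.center a.F a.D
  let b := Module.finBasis a.F Z
  have hb : LinearIndependent a.F fun i => (b i : a.D) :=
    b.linearIndependent.map' Z.val.toLinearMap (LinearMap.ker_eq_bot.2 Subtype.val_injective)
  have hz : ∀ i c, c * (b i : a.D) = b i * c := fun i => Subalgebra.mem_center_iff.1 (b i).2
  let Z' := Subalgebra.center (La (La a.F)) (Cent p ξ a.B)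
  have hc : ∀ (i : Fin (finrank a.F Z) × Fin p.q) (y : Sh a.D p), AA p ξ a.B * y = y * AA p ξ a.B →
      y * (shC a.D p (b i.1) * AA p ξ a.B ^ (i.2 : ℕ)) =
        shC a.D p (b i.1) * AA p ξ a.B ^ (i.2 : ℕ) * y := fun i y hy => by
    rw [← mul_assoc, ← shC_comm p (hz i.1), mul_assoc, mul_assoc,
      (Commute.pow_left (show Commute _ _ from hy) _).eq]
  let y : Fin (finrank a.F Z) × Fin p.q → Z' := fun i =>
    ⟨⟨shC a.D p (b i.1) * AA p ξ a.B ^ (i.2 : ℕ), (Subalgebra.mem_centralizer_iff _).2 fun g hg => by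
      rw [Set.mem_singleton_iff.1 hg]; exact hc i _ rfl⟩,
      Subalgebra.mem_center_iff.2 fun c => Subtype.ext
        (hc i c ((Subalgebra.mem_centralizer_iff _).1 c.2 _ rfl))⟩
  have hy : LinearIndependent (La (La a.F)) y :=
    LinearIndependent.of_comp ((Cent p ξ a.B).val.toLinearMap ∘ₗ Z'.val.toLinearMap)
      (indep ech p _ hb hA h0)
  have k1 : finrank a.F Z * p.q ≤ finrank (La (La a.F)) Z' := by
    simpa using hy.fintype_card_le_finrank
  have k2 : finrank (La (La a.F)) (Cent p ξ a.B) = finrank (La (La a.F)) Z' * (a.ext p nf).m0 :=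
    part1 (a.ext p nf)
  have k3 : finrank a.F a.D = finrank a.F Z * a.m0 := part1 a
  by_contra hge
  have : finrank a.F Z * p.q * a.m0 ≤ finrank (La (La a.F)) Z' * (a.ext p nf).m0 :=
    Nat.mul_le_mul k1 (by omega)
  rw [← k2, mul_right_comm, ← k3, mul_comm] at this
  omega

end P1a

theorem jobP1a (ech : JobEch) (genB : JobGenB) (genX : JobGenX) (jet : JobJet) (mb : JobMorB)
    (extK : JobExtK) (nt : JobNT) : JobP1a := by
  refine ⟨P1a.part1, P1a.part2 ech jet mb, fun a _ h2 => ?_⟩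
  unfold An.Sc at h2
  push Not at h2
  obtain ⟨i₀, c, hc⟩ := h2
  obtain ⟨χ, hχ⟩ : ∃ χ : a.D →ₗ[a.F] a.F, χ (c * a.B.co [i₀] - a.B.co [i₀] * c) ≠ 0 := by
    by_contra h
    push Not at h
    exact hc (sub_eq_zero.1 ((Module.forall_dual_apply_eq_zero_iff a.F _).1 h)).symm
  obtain ⟨p, hp⟩ : ∃ p : Par a.F, p.q = 1 := ⟨{ q := 1, ζ := 1, prim := IsPrimitiveRoot.one }, rfl⟩
  have g2 := (genB (Ω := Lq a.F p.q) (ι := a.ι) (q := p.q)).2.2.1
    (fun (_ : Unit) i => Sk.cst (1 : RingAut a.F) p.q (χ (c * a.B.co [i] - a.B.co [i] * c)))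
    fun _ h0 => hχ ((map_eq_zero (Sk.cst (1 : RingAut a.F) p.q)).1 (congrFun h0 i₀))
  obtain ⟨ξ, hξ, u1⟩ := genX p (RingHom.id _) a.two _ g2
  have u2 := u1 () 0
  obtain ⟨A1, A2⟩ := P1b.ev_lead (k := a.F) jet mb p ξ 1 a.B a.ord1
  have A3 : (AA p ξ a.B).co 1 =
      ∑ i, Sk.cst 1 p.q (a.B.co [i]) * mapL p.q (algebraMap a.F a.D) (ξ i) := by
    refine A2.trans ?_
    rw [← (Equiv.funUnique (Fin 1) a.ι).symm.sum_comp]
    refine sum_congr rfl fun i _ => ?_
    have : mapL p.q (RingHom.id a.F) (ξ i) = ξ i := by ext n; simp [mapL]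
    simp [this]
  have A4 : Sk.cst 1 p.q c * (AA p ξ a.B).co 1 ≠ (AA p ξ a.B).co 1 * Sk.cst 1 p.q c := by
    intro h
    apply u2
    have := congrArg (P1b.chi χ) (sub_eq_zero.2 h)
    rw [map_zero, A3, mul_sum, sum_mul, ← sum_sub_distrib, map_sum] at this
    rw [← this]
    refine sum_congr rfl fun i _ => ?_
    rw [mul_assoc _ _ (Sk.cst 1 p.q c), (P1b.mapL_comm _ _).eq, ← mul_assoc, ← mul_assoc,
      ← sub_mul, P1b.chi_mul, ← map_mul, ← map_mul, ← map_sub, P1b.chi_cst]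
    simp [xOf]
  have v1 : (AA p ξ a.B).co 1 ≠ 0 := fun h => A4 (by rw [h]; simp)
  have v2 : Cent p ξ a.B ≠ ⊤ := fun h => by
    have h1 : shC a.D p c ∈ Cent p ξ a.B := h ▸ Algebra.mem_top
    have h2 := (Subalgebra.mem_centralizer_iff _).1 h1 _ rfl
    have hc0 : shC a.D p c ∈ Sk.ord (sc a.D p) p.q 0 := Sk.mono_mem_ord _ _
    have p3 := Sk.co_mul_lead hc0 A1
    have p4 := Sk.co_mul_lead A1 hc0
    rw [add_comm] at p4
    have hsh : (shC a.D p c).co 0 = Sk.cst 1 p.q c := by simp [shC]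
    have hσc : sc a.D p (Sk.cst 1 p.q c) = Sk.cst 1 p.q c := by
      ext n; simp only [co_sc, Sk.co_cst]; split_ifs with h <;> simp [h]
    change (AA p ξ a.B * _).co _ = (AA p ξ a.B).co 1 * (sc a.D p ^ (1 : ℤ)) _ at p4
    change (_ * AA p ξ a.B).co _ = _ * (AA p ξ a.B).co 1 at p3
    rw [h2, p3, hsh, zpow_one, hσc] at p4
    exact A4 p4
  have v3 : finrank (La (La a.F)) (Cent p ξ a.B) < p.q * finrank a.F a.D := by
    have e1 := (ech (k := La a.F) (σ := sc a.D p) (q := p.q)).2.2.1 inferInstance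
    have e2 := (ech (k := a.F) (σ := (1 : RingAut a.D)) (q := p.q)).2.2.1 inferInstance
    have e3 : finrank (La (La a.F)) (Subalgebra.toSubmodule (Cent p ξ a.B)) <
        finrank (La (La a.F)) (Sh a.D p) :=
      Submodule.finrank_lt fun h => v2 (Algebra.toSubmodule_eq_top.1 h)
    rw [e1, e2] at e3
    have e4 : p.q * (p.q * finrank a.F a.D) = p.q * finrank a.F a.D := by rw [hp, one_mul]
    exact e4 ▸ e3
  obtain ⟨sl⟩ := mb.2.2.2.2.2.2.1 p ξ a.two
  obtain ⟨⟨nf⟩, w1⟩ := extK a p ξ sl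
  exact ⟨a.ext p nf, (w1 nf).1 hξ, nt.1 a p ξ sl nf 1 a.ord1 le_rfl v1,
    P1a.part2 ech jet mb a p ξ sl nf v1 v3⟩

end Crest.Agent.KU
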