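import Crest.Agent.KU.P2

/-! Row 180: the step `P1b` of Phase 1. -/

set_option autoImplicit false
set_option linter.unusedSectionVars false

namespace Crest.Agent.KU

open Finset Module Polynomial

namespace P1b

section core

variable {Λ Ω : Type} [Ring Λ] [NoZeroDivisors Λ] [Nontrivial Λ] [Field Ω] {σ : RingAut Λ}
  {τ : RingAut Ω} {q : ℕ}

lemma ord_mono {m n : ℤ} (h : m ≤ n) {y : Sk Λ σ q} (hy : y ∈ Sk.ord σ q n) : y ∈ Sk.ord σ q m :=
  fun i hi => hy i (by omega)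

lemma ord_succ {m : ℤ} {y : Sk Λ σ q} (hy : y ∈ Sk.ord σ q m) (h : y.co m = 0) :
    y ∈ Sk.ord σ q (m + 1) := fun i hi => by
  rcases eq_or_lt_of_le (show i ≤ m by omega) with rfl | h'
  · exact h
  · exact hy i h'

lemma pow_lead {A : Sk Λ σ q} (hA : A ∈ Sk.ord σ q 1) (m : ℕ) :
    A ^ m ∈ Sk.ord σ q m ∧ (A.co 1 ≠ 0 → (A ^ m).co m ≠ 0) := by
  induction m with
  | zero => exact ⟨Sk.mono_mem_ord 0 1, fun _ => by simp⟩
  | succ m ih =>
    rw [pow_succ]; push_cast
    refine ⟨Sk.mul_mem_ord ih.1 hA, fun h => ?_⟩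
    rw [Sk.co_mul_lead ih.1 hA]
    exact mul_ne_zero (ih.2 h) ((map_ne_zero_iff _ (σ ^ (m : ℤ)).injective).2 h)

lemma pow_lead' (ι : Ω →+* Λ) (hι : ∀ ω, ι (τ ω) = σ (ι ω)) {A : Sk Λ σ q}
    (hA : A ∈ Sk.ord σ q 1) {ℓ : Ω} (hl : A.co 1 = ι ℓ) (m : ℕ) :
    (A ^ m).co m = ι (∏ i ∈ range m, (τ ^ (i : ℤ)) ℓ) := by
  induction m with
  | zero => simp
  | succ m ih =>
    rw [pow_succ, prod_range_succ]; push_cast
    rw [Sk.co_mul_lead (pow_lead hA m).1 hA, ih, hl, map_mul, Sk.map_zpow_comm ι hι]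

lemma core (ι : Ω →+* Λ) (hι : ∀ ω, ι (τ ω) = σ (ι ω)) (hc : ∀ ω y, Commute (ι ω) y)
    {A : Sk Λ σ q} (hA : A ∈ Sk.ord σ q 1) {ℓ : Ω} (hl : A.co 1 = ι ℓ) (hl0 : ℓ ≠ 0)
    (lift : ∀ z, σ z = z → ∃ y ∈ Sk.ord σ q 0, A * y = y * A ∧ y.co 0 = z)
    (c : Λ) (hσ : σ c = c) (d : ℕ) (hd : 1 ≤ d)
    (hR : Sk.cst σ q c * A - A * Sk.cst σ q c ∈ Sk.ord σ q (d + 1 : ℕ)) :
    ∃ z : Λ, z * ι ((τ ^ (d : ℤ)) ℓ) - ι ℓ * σ z =
      -(Sk.cst σ q c * A - A * Sk.cst σ q c).co (d + 1 : ℕ) := by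
  have key : ∀ (m : ℕ) (y : Sk Λ σ q), A * y = y * A → y - Sk.cst σ q c ∈ Sk.ord σ q m →
      (y - Sk.cst σ q c).co m * ι ((τ ^ (m : ℤ)) ℓ) - ι ℓ * σ ((y - Sk.cst σ q c).co m) =
        -(Sk.cst σ q c * A - A * Sk.cst σ q c).co (m + 1 : ℕ) := fun m y h1 h2 => by
    have e : (y - Sk.cst σ q c) * A - A * (y - Sk.cst σ q c) =
        -(Sk.cst σ q c * A - A * Sk.cst σ q c) := by
      rw [sub_mul, mul_sub, h1]; abel
    have f1 := Sk.co_mul_lead h2 hA
    have f2 := Sk.co_mul_lead hA h2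
    rw [add_comm] at f2
    have := congrArg (fun f => Sk.co f ((m : ℤ) + 1)) e
    simp only [Sk.co_sub, Sk.co_neg] at this
    rw [f1, f2, hl, ← Sk.map_zpow_comm ι hι, zpow_one] at this
    simpa using this
  have ind : ∀ m : ℕ, m + 1 ≤ d → ∃ y, A * y = y * A ∧ y - Sk.cst σ q c ∈ Sk.ord σ q (m + 1 : ℕ) := by
    intro m
    induction m with
    | zero =>
      intro _
      obtain ⟨y, h1, h2, h3⟩ := lift c hσ
      refine ⟨y, h2, ?_⟩
      exact ord_succ (sub_mem h1 (Sk.mono_mem_ord 0 c)) (by simp [h3])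
    | succ m ih =>
      intro hm
      obtain ⟨y, h1, h2⟩ := ih (by omega)
      have k1 := key (m + 1) y h1 h2
      rw [hR _ (by push_cast; omega), neg_zero, sub_eq_zero] at k1
      set w := (y - Sk.cst σ q c).co (m + 1 : ℕ) with hw
      set L : Ω := ∏ i ∈ range (m + 1), (τ ^ (i : ℤ)) ℓ with hL
      have hL0 : L ≠ 0 := prod_ne_zero_iff.2 fun i _ =>
        (map_ne_zero_iff _ (τ ^ (i : ℤ)).injective).2 hl0
      have hτL : ℓ * τ L = L * (τ ^ ((m + 1 : ℕ) : ℤ)) ℓ := by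
        rw [hL, ← prod_range_succ (fun i : ℕ => (τ ^ (i : ℤ)) ℓ), prod_range_succ' _ (m + 1),
          map_prod, mul_comm]
        congr 1
        refine prod_congr rfl fun i _ => ?_
        have := Sk.zpow_apply_zpow (σ := τ) 1 i ℓ
        rw [zpow_one, add_comm] at this
        rw [this]; push_cast; rfl
      have hfix : σ (w * ι L⁻¹) = w * ι L⁻¹ := by
        have hτ0 : τ L ≠ 0 := by simpa using hL0
        have e1 : σ w = w * ι ((τ ^ ((m + 1 : ℕ) : ℤ)) ℓ * ℓ⁻¹) := by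
          rw [map_mul, ← mul_assoc, k1, (hc ℓ (σ w)).eq, mul_assoc, ← map_mul,
            mul_inv_cancel₀ hl0, map_one, mul_one]
        rw [map_mul, ← hι, e1, mul_assoc, ← map_mul, map_inv₀]
        congr 2
        field_simp
        rw [hτL, mul_comm]
      obtain ⟨z, g1, g2, g3⟩ := lift _ hfix
      refine ⟨y - z * A ^ (m + 1), ?_, ?_⟩
      · rw [mul_sub, sub_mul, h1, ← mul_assoc, g2, mul_assoc, mul_assoc, ← pow_succ, ← pow_succ']
      · have p1 := Sk.mul_mem_ord g1 (pow_lead hA (m + 1)).1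
        have p2 := Sk.co_mul_lead g1 (pow_lead hA (m + 1)).1
        rw [zero_add] at p1 p2
        have := ord_succ (sub_mem h2 p1) (by
          rw [Sk.co_sub, p2, pow_lead' ι hι hA hl, g3, ← hw, ← hL, zpow_zero]
          change w - w * ι L⁻¹ * ι L = 0
          rw [mul_assoc, ← map_mul, inv_mul_cancel₀ hL0, map_one, mul_one, sub_self])
        rw [sub_right_comm]
        exact_mod_cast this
  obtain ⟨y, h1, h2⟩ := ind (d - 1) (by omega)
  rw [Nat.sub_add_cancel hd] at h2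
  exact ⟨_, key d y h1 h2⟩

end core

section dim

variable {k Λ : Type} [Field k] [Ring Λ] [NoZeroDivisors Λ] [Nontrivial Λ] [Algebra k Λ]
  [Module.Finite k Λ] {σ : RingAut Λ} {q : ℕ} [hp : Per k σ q]

/-- leading coefficients of the elements of order `0` of the centralizer -/
def lead0 (k : Type) [Field k] [Algebra k Λ] (hσ : ∀ c : k, σ (algebraMap k Λ c) = algebraMap k Λ c)
    (A : Sk Λ σ q) : Submodule k Λ where
  carrier := {z | ∃ y ∈ Sk.ord σ q 0, A * y = y * A ∧ y.co 0 = z}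
  zero_mem' := ⟨0, zero_mem _, by simp, rfl⟩
  add_mem' := by
    rintro _ _ ⟨y, h1, h2, rfl⟩ ⟨y', h1', h2', rfl⟩
    exact ⟨y + y', add_mem h1 h1', by rw [mul_add, add_mul, h2, h2'], rfl⟩
  smul_mem' := by
    rintro c _ ⟨y, h1, h2, rfl⟩
    have e : ∀ f : Sk Λ σ q, f * Sk.cst σ q (algebraMap k Λ c) = Sk.cst σ q (algebraMap k Λ c) * f :=
      fun f => by
        ext n
        change (f * Sk.mono σ q 0 _).co n = (Sk.mono σ q 0 _ * f).co n
        rw [Sk.mul_mono_co, Sk.mono_mul_co, Sk.zpow_fix hσ]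
        simp [Algebra.commutes]
    refine ⟨Sk.cst σ q (algebraMap k Λ c) * y, fun n hn => ?_, ?_, ?_⟩
    · change (Sk.mono σ q 0 _ * y).co n = 0
      rw [Sk.mono_mul_co]; simp [h1 n hn]
    · rw [← mul_assoc, e, mul_assoc, h2, mul_assoc]
    · change (Sk.mono σ q 0 _ * y).co 0 = _
      rw [Sk.mono_mul_co]; simp [Algebra.smul_def]

lemma dim_cent (ech : JobEch) {A : Sk Λ σ q} (hA : A ∈ Sk.ord σ q 1) (hA0 : A.co 1 ≠ 0) :
    finrank (La k) (Subalgebra.centralizer (La k) {A}) ≤ q * finrank k (lead0 k hp.fix A) := by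
  have hq : NeZero q := ⟨hp.pos.ne'⟩
  let u : ZMod q → Λ := fun r => (σ ^ (r.val : ℤ)) ((A ^ (q - r.val)).co (q - r.val : ℕ))
  have hu : ∀ r, u r ≠ 0 := fun r =>
    (map_ne_zero_iff _ (σ ^ (r.val : ℤ)).injective).2 ((pow_lead hA _).2 hA0)
  refine (ech (k := k) (σ := σ) (q := q)).2.2.2.1 inferInstance
    (Subalgebra.toSubmodule (Subalgebra.centralizer (La k) {A}))
    (fun r => (lead0 k hp.fix A).comap (LinearMap.mulRight k (u r))) _ ?_ fun r => ?_
  · intro y hy m hm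
    have hy' : A * y = y * A := (Subalgebra.mem_centralizer_iff (La k)).1 hy A rfl
    have hq0 : (0 : ℤ) < q := by exact_mod_cast hp.pos
    set r : ZMod q := (m : ZMod q) with hr
    have hv : (r.val : ℤ) = m % q := ZMod.val_intCast m
    have hlt : r.val < q := ZMod.val_lt r
    have p1 := Sk.mul_mem_ord hm (pow_lead hA (q - r.val)).1
    have p2 := Sk.co_mul_lead hm (pow_lead hA (q - r.val)).1
    have hm' : m = q * (m / q) + r.val := by rw [hv]; exact (Int.mul_ediv_add_emod m q).symm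
    obtain ⟨s1, s2⟩ := (ech (k := k) (σ := σ) (q := q)).1 (-(m / q + 1)) _
      (Sk.mono 1 0 (-(m / q + 1)) 1) _ (Sk.mono_mem_ord _ _) p1
    have e0 : (q : ℤ) * -(m / q + 1) + (m + ((q - r.val : ℕ) : ℤ)) = 0 := by
      rw [Nat.cast_sub hlt.le]; linear_combination hm'
    rw [e0] at s1 s2
    refine ⟨_, s1, ?_, ?_⟩
    · rw [mul_smul_comm, smul_mul_assoc, ← mul_assoc, hy', mul_assoc, mul_assoc, ← pow_succ,
        ← pow_succ']
    · rw [s2, p2]
      have : σ ^ m = σ ^ (r.val : ℤ) := by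
        conv_lhs => rw [hm', zpow_add, Sk.zpow_mul_per hp.per, one_mul]
      simp [u, this]
  · have hinj : Function.Injective (LinearMap.mulRight k (u r)) := fun a b h =>
      mul_right_cancel₀ (hu r) h
    calc _ = finrank k (((lead0 k hp.fix A).comap (LinearMap.mulRight k (u r))).map
          (LinearMap.mulRight k (u r))) := (LinearEquiv.finrank_eq (Submodule.equivMapOfInjective _ hinj _))
      _ ≤ _ := Submodule.finrank_mono (Submodule.map_comap_le _ _)

end dim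

section fix

variable {F D : Type} [Field F] [Ring D] [Algebra F D] (p : Par F)

variable (D) in
/-- the `σ`-fixed series -/
def Fix : Submodule (La F) (Lq D p.q) where
  carrier := {f | sc D p f = f}
  zero_mem' := map_zero _
  add_mem' := fun {f g} hf hg => by
    change sc D p (f + g) = f + g
    rw [map_add, hf, hg]
  smul_mem' := fun c f hf => by
    change sc D p (c • f) = c • f
    rw [Algebra.smul_def, map_mul, (perSc D p).fix, hf]

lemma fix_le [FiniteDimensional F D] : finrank (La F) (Fix D p) ≤ finrank F D := by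
  classical
  have hq : (0 : ℤ) < p.q := by exact_mod_cast NeZero.pos p.q
  let b := Module.finBasis F D
  have hle : Fix D p ≤ Submodule.span (La F) (Set.range fun i => Sk.cst (1 : RingAut D) p.q (b i)) := by
    intro y hy
    obtain ⟨N, hN⟩ := y.bdd
    let f : Fin (finrank F D) → La F := fun i =>
      ⟨fun a => b.repr (y.co (p.q * a)) i, -(N.natAbs : ℤ), fun a ha => by
        have h2 : -(N.natAbs : ℤ) ≤ N := by omega
        have h3 : (0 : ℤ) ≤ N.natAbs := by omega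
        rw [hN _ (by nlinarith), map_zero, Finsupp.zero_apply]⟩
    have : y = ∑ i, f i • Sk.cst (1 : RingAut D) p.q (b i) := by
      ext n
      rw [Sk.co_sum]
      by_cases hn : (p.q : ℤ) ∣ n
      · obtain ⟨a, rfl⟩ := hn
        have e : ∀ i, (f i • Sk.cst (1 : RingAut D) p.q (b i)).co (p.q * a) =
            b.repr (y.co (p.q * a)) i • b i := fun i => by
          rw [Sk.co_smul, finsum_eq_single _ a]
          · simp [f]
          · intro a' ha
            rw [Sk.co_cst, if_neg, smul_zero]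
            intro hc
            exact ha (mul_left_cancel₀ hq.ne' (by omega))
        simp only [e, b.sum_repr]
      · have h1 : p.ζ ^ n • y.co n = y.co n := congrArg (fun f => Sk.co f n) hy
        have h2 : y.co n = 0 := by
          by_contra h0
          have : (p.ζ ^ n - 1) • y.co n = 0 := by rw [sub_smul, h1, one_smul, sub_self]
          rcases smul_eq_zero.1 this with h | h
          · exact hn ((p.prim.zpow_eq_one_iff_dvd n).1 (sub_eq_zero.1 h))
          · exact h0 h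
        rw [h2]
        refine (sum_eq_zero fun i _ => ?_).symm
        rw [Sk.co_smul]
        refine finsum_eq_zero_of_forall_eq_zero fun a => ?_
        rw [Sk.co_cst, if_neg, smul_zero]
        intro hc
        exact hn ⟨a, by omega⟩
    rw [this]
    exact Submodule.sum_mem _ fun i _ => Submodule.smul_mem _ _ (Submodule.subset_span ⟨i, rfl⟩)
  refine (Submodule.finrank_mono hle).trans ?_
  exact (finrank_range_le_card (R := La F) fun i => Sk.cst (1 : RingAut D) p.q (b i)).trans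
    (by simp)

end fix

section coef

variable {k D : Type} [Field k] [Ring D] [Algebra k D] {q : ℕ}

lemma mapL_comm (f : Lq k q) (y : Lq D q) : Commute (mapL q (algebraMap k D) f) y := by
  change _ * _ = _ * _
  ext n
  rw [Sk.co_mul', Sk.co_mul', ← finsum_comp_equiv (Equiv.subLeft n)]
  refine finsum_congr fun i => ?_
  simp [mapL, Algebra.commutes]

/-- a linear form applied coefficientwise -/
def chi (χ : D →ₗ[k] k) : Lq D q →+ Lq k q where
  toFun f := ⟨fun n => χ (f.co n), by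
    obtain ⟨a, ha⟩ := f.bdd; exact ⟨a, fun n hn => by simp [ha n hn]⟩⟩
  map_zero' := by ext n; simp
  map_add' f g := by ext n; simp

lemma chi_mul (χ : D →ₗ[k] k) (y : Lq D q) (f : Lq k q) :
    chi χ (y * mapL q (algebraMap k D) f) = chi χ y * f := by
  obtain ⟨a, ha⟩ := y.bdd; obtain ⟨b, hb⟩ := f.bdd
  ext n
  change χ ((y * mapL q (algebraMap k D) f).co n) = _
  rw [Sk.co_mul ha (b := b) (fun n hn => by simp [mapL, hb n hn]),
    Sk.co_mul (a := a) (fun n hn => by simp [chi, ha n hn]) hb, map_sum]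
  refine sum_congr rfl fun i _ => ?_
  simp [mapL, chi, ← Algebra.commutes, ← Algebra.smul_def, mul_comm]

lemma chi_cst (χ : D →ₗ[k] k) (y : D) : chi χ (Sk.cst 1 q y) = Sk.cst 1 q (χ y) := by
  ext n
  change χ _ = _
  simp only [Sk.co_cst]; split_ifs <;> simp

end coef

section lead

variable {Λ Ω : Type} [Ring Λ] [Field Ω] {σ : RingAut Λ} {τ : RingAut Ω} {q : ℕ}

lemma prod_mono (ι : Ω →+* Λ) (hι : ∀ ω, ι (τ ω) = σ (ι ω)) (d : ℕ) (g : Fin d → Ω) :
    (List.ofFn fun r => Sk.mono σ q 1 (ι (g r))).prod =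
      Sk.mono σ q d (ι (∏ r : Fin d, (τ ^ ((r : ℕ) : ℤ)) (g r))) := by
  induction d with
  | zero => simp [Sk.one_def]
  | succ d ih =>
    rw [List.ofFn_succ', List.concat_eq_append, List.prod_append, ih, Fin.prod_univ_castSucc]
    simp only [List.prod_cons, List.prod_nil, mul_one, Sk.mono_mul_mono, map_mul, Fin.val_castSucc,
      Fin.val_last, Sk.map_zpow_comm ι hι]
    rfl

end lead

section main

variable {F k D ι : Type} [Field F] [Field k] [Ring D] [Algebra F k] [Algebra k D] [Algebra F D]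
  [IsScalarTower F k D] [Fintype ι] [DecidableEq ι]

lemma ev_lead (jet : JobJet) (mb : JobMorB) (p : Par F) (ξ : ι → Lq F p.q) (d : ℕ) (f : NC D ι)
    (hf : f ∈ NC.ordGe D ι d) :
    evX (Sk.filt _ _) (shC D p) (XA p ξ D) f ∈ Sk.ord (sc D p) p.q d ∧
      (evX (Sk.filt _ _) (shC D p) (XA p ξ D) f).co d = ∑ u : Fin d → ι,
        Sk.cst 1 p.q (f.co (List.ofFn u)) * mapL p.q (algebraMap k D)
          (∏ r : Fin d, (sc k p ^ ((r : ℕ) : ℤ)) (mapL p.q (algebraMap F k) (ξ (u r)))) := by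
  have J := jet _ _ _ (mb.2.2.2.2.2.2.2 p ξ D).1
  refine ⟨J.ev_mem d f hf, ?_⟩
  have h1 := J.ev_lead d f hf d (by omega)
  rw [Sk.co_sub, sub_eq_zero] at h1
  rw [h1, Sk.co_sum]
  refine sum_congr rfl fun u _ => ?_
  have hι : ∀ ω, mapL p.q (algebraMap k D) (sc k p ω) = sc D p (mapL p.q (algebraMap k D) ω) :=
    fun ω => by ext n; simp [mapL, Algebra.algebraMap_eq_smul_one, smul_assoc]
  have e : ∀ i, XA p ξ D i = Sk.mono (sc D p) p.q 1
      (mapL p.q (algebraMap k D) (mapL p.q (algebraMap F k) (ξ i))) := fun i => by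
    ext n m
    simp only [XA, qMap, shMap, XQ, Sk.co_map, Sk.co_mono]
    split_ifs
    · simp [mapL, ← IsScalarTower.algebraMap_apply]
    · simp
  simp only [e]
  rw [prod_mono _ hι]
  change (Sk.mono _ _ 0 _ * Sk.mono _ _ _ _).co d = _
  rw [Sk.mono_mul_mono]
  simp

/-- the coefficientwise form `χ [c, R]` -/
def cR (χ : D →ₗ[k] k) (c : D) (R : NC D ι) : NC k ι := ⟨fun w => χ (c * R.co w - R.co w * c)⟩

lemma caseA (l : ι → k) (d : ℕ) (R : NC D ι) (hR : R ∈ NC.ordGe D ι (d + 1))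
    (h : ∀ (c : D) (χ : D →ₗ[k] k), ∃ ψ ∈ NC.ordGe k ι d,
      cR χ c R - (NC.lin l * ψ - ψ * NC.lin l) ∈ NC.ordGe k ι (d + 1 + 1)) :
    ∃ ψ ∈ NC.ordGe D ι d, ∃ ρ ∈ NC.ordGe D ι (d + 1), (∀ w c, Commute (ρ.co w) c) ∧
      R - ρ - (NC.map (algebraMap k D) (NC.lin l) * ψ - ψ * NC.map (algebraMap k D) (NC.lin l)) ∈
        NC.ordGe D ι (d + 1 + 1) := by
  classical
  let W : Submodule k ((Fin (d + 1) → ι) → k) :=
    { carrier := {g | ∃ ψ ∈ NC.ordGe k ι d, ∀ u, g u = (NC.lin l * ψ - ψ * NC.lin l).co (List.ofFn u)}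
      zero_mem' := ⟨0, zero_mem _, fun u => by simp⟩
      add_mem' := by
        rintro g g' ⟨ψ, h1, h2⟩ ⟨ψ', h1', h2'⟩
        refine ⟨ψ + ψ', add_mem h1 h1', fun u => ?_⟩
        rw [Pi.add_apply, h2, h2', ← NC.co_add, mul_add, add_mul]
        congr 1; abel
      smul_mem' := by
        rintro c g ⟨ψ, h1, h2⟩
        refine ⟨c • ψ, P2.smul_mem c h1, fun u => ?_⟩
        rw [Pi.smul_apply, h2, ← NC.co_smul, mul_smul_comm, smul_mul_assoc, smul_sub] }
  obtain ⟨W', hW⟩ := W.exists_isCompl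
  let P : ((Fin (d + 1) → ι) → k) →ₗ[k] ((Fin (d + 1) → ι) → k) :=
    W.subtype ∘ₗ W.projectionOnto W' hW
  have P1 : ∀ g, P g ∈ W := fun g => (W.projectionOnto W' hW g).2
  have P2' : ∀ g ∈ W, P g = g := fun g hg =>
    congrArg Subtype.val (Submodule.projectionOnto_apply_left hW ⟨g, hg⟩)
  choose ψ hψ1 hψ2 using fun v : Fin (d + 1) → ι => P1 (Pi.single v 1)
  let φ := NC.map (ι := ι) (algebraMap k D)
  let Ψ : NC D ι := ∑ v, NC.C (R.co (List.ofFn v)) * φ (ψ v)
  have hΨ : Ψ ∈ NC.ordGe D ι d := sum_mem fun v _ => P2.mul_left _ fun w hw => by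
    simp [φ, hψ1 v w hw]
  have hcomm : ∀ y : D, φ (NC.lin l) * NC.C y = NC.C y * φ (NC.lin l) := fun y => by
    ext w; simp [φ, Algebra.commutes]
  have hS : φ (NC.lin l) * Ψ - Ψ * φ (NC.lin l) =
      ∑ v, NC.C (R.co (List.ofFn v)) * φ (NC.lin l * ψ v - ψ v * NC.lin l) := by
    simp only [Ψ, mul_sum, sum_mul, ← sum_sub_distrib]
    refine sum_congr rfl fun v _ => ?_
    rw [← mul_assoc, hcomm, map_sub, map_mul, map_mul, mul_sub, mul_assoc, mul_assoc]
  set S := R - (φ (NC.lin l) * Ψ - Ψ * φ (NC.lin l)) with hSdef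
  have hl1 : φ (NC.lin l) ∈ NC.ordGe D ι 1 := fun w hw => by simp [φ, P2.lin_mem l w hw]
  have hSo : S ∈ NC.ordGe D ι (d + 1) :=
    sub_mem hR (sub_mem (P2.mul_le hl1 hΨ (by omega)) (P2.mul_le hΨ hl1 (by omega)))
  let ρ : NC D ι := ⟨fun w => if w.length = d + 1 then S.co w else 0⟩
  refine ⟨Ψ, hΨ, ρ, fun w hw => by simp [ρ, hw.ne], fun w c => ?_, fun w hw => ?_⟩
  · by_cases hw : w.length = d + 1
    swap
    · simp [ρ, hw]
    obtain ⟨u, rfl⟩ : ∃ u : Fin (d + 1) → ι, w = List.ofFn u :=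
      ⟨fun i => w.get (i.cast hw.symm), List.ext_get (by simp [hw]) fun n h1 h2 => by
        rw [List.get_ofFn]; rfl⟩
    change (if _ then _ else _) * c = c * (if _ then _ else _)
    rw [if_pos hw, eq_comm, ← sub_eq_zero]
    refine (Module.forall_dual_apply_eq_zero_iff k _).1 fun χ => ?_
    obtain ⟨ψ', g1, g2⟩ := h c χ
    have gW : (fun v => χ (c * R.co (List.ofFn v) - R.co (List.ofFn v) * c)) ∈ W :=
      ⟨ψ', g1, fun v => by
        have := g2 (List.ofFn v) (by simp)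
        rwa [NC.co_sub, sub_eq_zero] at this⟩
    have g3 := congrFun (P2' _ gW) u
    rw [LinearMap.pi_apply_eq_sum_univ, Finset.sum_apply] at g3
    have g4 : S.co (List.ofFn u) = R.co (List.ofFn u) -
        ∑ v, P (Pi.single v 1) u • R.co (List.ofFn v) := by
      rw [hSdef, hS, NC.co_sub, NC.co_sum]
      congr 1
      refine sum_congr rfl fun v _ => ?_
      rw [NC.C_mul_co, hψ2, NC.co_map, ← Algebra.commutes, ← Algebra.smul_def]
    rw [g4, mul_sub, sub_mul, sub_sub_sub_comm, map_sub, ← g3, mul_sum, sum_mul,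
      ← sum_sub_distrib, map_sum, sub_eq_zero]
    refine sum_congr rfl fun v _ => ?_
    rw [mul_smul_comm, smul_mul_assoc, ← smul_sub, map_smul, Pi.smul_apply, smul_eq_mul,
      smul_eq_mul, mul_comm]
    have : (fun j => if v = j then (1 : k) else 0) = Pi.single v 1 := by
      ext j
      simp [Pi.single_apply, eq_comm]
    rw [this]
  · rw [sub_right_comm, NC.co_sub]
    change S.co w - (if _ then _ else _) = 0
    split_ifs with h1
    · exact sub_self _
    · rw [hSo w (by omega), sub_zero]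

lemma caseB [IsDiv D] [FiniteDimensional F D] (jet : JobJet) (mb : JobMorB) (ech : JobEch)
    (p : Par F) (ξ : ι → Lq F p.q) (B b : NC D ι) (l : ι → k) (d : ℕ) (hd : 1 ≤ d)
    (hB : B ∈ NC.ordGe D ι 1) (hl : ∀ i, B.co [i] = algebraMap k D (l i))
    (hb : ∀ w c, Commute (b.co w) c) (hR : B - b ∈ NC.ordGe D ι (d + 1)) (c : D) (χ : D →ₗ[k] k)
    (x : ZMod p.q → ι → Lq k p.q) (hx : x = xOf p (mapL p.q (algebraMap F k)) ξ)
    (h0 : ∀ j, lv (fun i => Sk.cst 1 p.q (l i)) (x j) ≠ 0)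
    (h1 : ∑ j, hat (d + 1) (NC.map (Sk.cst 1 p.q) (cR χ c (B - b))) (win x j (d + 1)) *
      (zz (fun i => Sk.cst 1 p.q (l i)) x (d + 1) j)⁻¹ ≠ 0) :
    (AA p ξ B).co 1 ≠ 0 ∧ finrank (La (La F)) (Cent p ξ B) < p.q * finrank F D := by
  set ιk := mapL p.q (algebraMap k D) with hιk
  set τ := sc k p with hτ
  set e : k →+* Lq k p.q := Sk.cst 1 p.q with he
  have hι : ∀ ω, ιk (τ ω) = sc D p (ιk ω) :=
    fun ω => by ext n; simp [ιk, τ, mapL, Algebra.algebraMap_eq_smul_one, smul_assoc]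
  have hθ : ∀ ω, mapL p.q (algebraMap F k) (sc F p ω) = τ (mapL p.q (algebraMap F k) ω) :=
    fun ω => by ext n; simp [τ, mapL, Algebra.smul_def]
  have hτe : ∀ z, τ (e z) = e z := fun z => by
    ext n; simp only [τ, e, co_sc, Sk.co_cst]; split_ifs with h <;> simp [h]
  have hτx : ∀ j i, τ (x j i) = x (j + 1) i := fun j i => by
    rw [hx]
    change τ (mapL _ _ _) = mapL _ _ _
    rw [← hθ, ← sc_pow_val]
    congr 1
    change (sc F p * sc F p ^ j.val) _ = (sc F p ^ j.val * sc F p) _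
    rw [← pow_succ, ← pow_succ']
  have hτxm : ∀ (m : ℕ) j i, (τ ^ m) (x j i) = x (j + m) i := fun m j i => by
    induction m with
    | zero => simp
    | succ m ih =>
      rw [pow_succ']
      change τ ((τ ^ m) _) = _
      rw [ih, hτx]; push_cast; rw [add_assoc]
  have hτem : ∀ (m : ℕ) z, (τ ^ m) (e z) = e z := fun m z => by
    induction m with
    | zero => simp
    | succ m ih =>
      rw [pow_succ']
      change τ ((τ ^ m) _) = _
      rw [ih, hτe]
  have hx0 : ∀ i, mapL p.q (algebraMap F k) (ξ i) = x 0 i := fun i => by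
    rw [hx]; simp [xOf]
  set L : ι → Lq k p.q := fun i => e (l i) with hL
  have hlv : ∀ (m : ℕ) j, (τ ^ m) (lv L (x j)) = lv L (x (j + m)) := fun m j => by
    simp only [lv, map_sum, map_mul, hτxm, L, hτem]
  have J := jet _ _ _ (mb.2.2.2.2.2.2.2 p ξ D).1
  obtain ⟨A1, A2⟩ := ev_lead (k := k) jet mb p ξ 1 B hB
  have hce : ∀ z : k, Sk.cst 1 p.q (algebraMap k D z) = ιk (e z) := fun z => by
    ext n; simp only [ιk, e, mapL, Sk.co_map, Sk.co_cst]; split_ifs <;> simp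
  have A3 : (AA p ξ B).co 1 = ιk (lv L (x 0)) := by
    refine A2.trans ?_
    rw [lv, map_sum, ← (Equiv.funUnique (Fin 1) ι).symm.sum_comp]
    refine sum_congr rfl fun i _ => ?_
    simp [hl, hce, hx0, L, ιk]
  have A4 : (AA p ξ B).co 1 ≠ 0 := by
    rw [A3]; exact (map_ne_zero ιk).2 (h0 0)
  refine ⟨A4, ?_⟩
  have hlt : lead0 (La F) (perSc D p).fix (AA p ξ B) < Fix D p := by
    refine lt_of_le_of_ne ?_ fun heq => h1 ?_
    · rintro _ ⟨y, g1, g2, rfl⟩
      have f1 := Sk.co_mul_lead g1 A1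
      have f2 := Sk.co_mul_lead A1 g1
      rw [add_comm] at f2
      change (y * AA p ξ B).co _ = y.co 0 * (sc D p ^ (0 : ℤ)) ((AA p ξ B).co 1) at f1
      change (AA p ξ B * y).co _ = (AA p ξ B).co 1 * (sc D p ^ (1 : ℤ)) (y.co 0) at f2
      rw [g2, f1, zpow_zero, zpow_one, A3, (mapL_comm _ _).eq] at f2
      change _ * ιk _ = _ at f2
      exact (mul_right_cancel₀ (A3 ▸ A4) f2).symm
    obtain ⟨R1, R2⟩ := ev_lead (k := k) jet mb p ξ (d + 1) (B - b) hR
    set r := evX (Sk.filt _ _) (shC D p) (XA p ξ D) (B - b) with hr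
    have hcA : shC D p c * AA p ξ B - AA p ξ B * shC D p c = shC D p c * r - r * shC D p c := by
      have e1 : NC.C c * b = b * NC.C c := by ext w; simp [(hb w c).eq]
      have e2 := congrArg (evX (Sk.filt _ _) (shC D p) (XA p ξ D)) e1
      rw [map_mul, map_mul, J.ev_C] at e2
      rw [hr, map_sub, mul_sub, sub_mul, e2]
      change _ = (_ * AA p ξ B - _) - (AA p ξ B * _ - _)
      abel
    have hc0 : shC D p c ∈ Sk.ord (sc D p) p.q 0 := Sk.mono_mem_ord _ _
    have p1 := Sk.mul_mem_ord hc0 R1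
    have p2 := Sk.mul_mem_ord R1 hc0
    have p3 := Sk.co_mul_lead hc0 R1
    have p4 := Sk.co_mul_lead R1 hc0
    rw [zero_add] at p1 p3
    rw [add_zero] at p2 p4
    have hσc : sc D p (Sk.cst 1 p.q c) = Sk.cst 1 p.q c := by
      ext n; simp only [co_sc, Sk.co_cst]; split_ifs with h <;> simp [h]
    have hσc' : ∀ m : ℕ, (sc D p ^ m) (Sk.cst 1 p.q c) = Sk.cst 1 p.q c := fun m => by
      induction m with
      | zero => rfl
      | succ m ih =>
        rw [pow_succ]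
        change (sc D p ^ m) (sc D p _) = _
        rw [hσc, ih]
    obtain ⟨z, hz⟩ := core (τ := τ) ιk hι mapL_comm A1 A3 (h0 0)
      (fun z hz => (heq ▸ hz : z ∈ lead0 (La F) (perSc D p).fix (AA p ξ B))) (Sk.cst 1 p.q c) hσc d hd
      (by change shC D p c * AA p ξ B - AA p ξ B * shC D p c ∈ _; rw [hcA]; exact sub_mem p1 p2)
    change _ = -(shC D p c * AA p ξ B - AA p ξ B * shC D p c).co _ at hz
    have hsh : (shC D p c).co 0 = Sk.cst 1 p.q c := by simp [shC]
    rw [hcA, Sk.co_sub, p3, p4, hsh, zpow_zero, zpow_natCast, zpow_natCast, hσc', hlv, zero_add,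
      (mapL_comm _ _).eq] at hz
    have hχσ : ∀ y, chi χ (sc D p y) = τ (chi χ y) := fun y => by
      ext n
      exact χ.map_smul_of_tower _ _
    have hz2 := congrArg (chi χ) hz
    rw [map_sub, chi_mul, chi_mul, hχσ, map_neg] at hz2
    set H : ZMod p.q → Lq k p.q := fun j =>
      hat (d + 1) (NC.map e (cR χ c (B - b))) (win x j (d + 1)) with hH
    have hH0 : chi χ (Sk.cst 1 p.q c * (1 : RingAut (Lq D p.q)) (r.co (d + 1 : ℕ)) -
        r.co (d + 1 : ℕ) * Sk.cst 1 p.q c) = H 0 := by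
      change chi χ (_ * r.co _ - _) = _
      rw [R2, mul_sum, sum_mul, ← sum_sub_distrib, map_sum]
      refine sum_congr rfl fun u _ => ?_
      rw [mul_assoc _ _ (Sk.cst 1 p.q c), (mapL_comm _ _).eq, ← mul_assoc, ← mul_assoc, ← sub_mul,
        chi_mul, ← map_mul, ← map_mul, ← map_sub, chi_cst]
      congr 1
      refine prod_congr rfl fun i _ => ?_
      rw [zpow_natCast, hx0, hτxm]; rfl
    rw [hH0] at hz2
    have hHm : ∀ (m : ℕ) j, (τ ^ m) (H j) = H (j + m) := fun m j => by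
      simp only [H, hat, map_sum, map_mul, map_prod, NC.co_map, hτem, win, hτxm, add_right_comm]
    have hzm : ∀ (n m : ℕ) j, (τ ^ m) (zz L x n j) = zz L x n (j + m) := fun n m j => by
      simp only [zz, map_prod, hlv, add_right_comm]
    have hzz : ∀ n j, zz L x n j ≠ 0 := fun n j => prod_ne_zero_iff.2 fun i _ => h0 _
    set t := chi χ z * (zz L x d 0)⁻¹ with ht
    have hg0 : H 0 * (zz L x (d + 1) 0)⁻¹ = τ t - t := by
      have e1 : zz L x (d + 1) 0 = zz L x d 0 * lv L (x d) := by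
        rw [zz, prod_range_succ, zero_add]; rfl
      have e2 : zz L x (d + 1) 0 = τ (zz L x d 0) * lv L (x 0) := by
        have := hzm d 1 0
        rw [pow_one] at this
        rw [this, zz, prod_range_succ']
        simp [zz, add_comm]
      have e3 : τ (zz L x d 0) ≠ 0 := (map_ne_zero τ).2 (hzz d 0)
      have e4 := hzz d 0
      have e5 := h0 0
      have e6 := h0 d
      rw [ht, map_mul, map_inv₀, ← neg_eq_iff_eq_neg.2 hz2, neg_sub, sub_mul]
      congr 1
      · rw [e2]; field_simp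
      · rw [e1]; field_simp
    have hg : ∀ j, H j * (zz L x (d + 1) j)⁻¹ = (τ ^ (j + 1).val) t - (τ ^ j.val) t := fun j => by
      have := congrArg (τ ^ j.val) hg0
      rw [map_mul, map_inv₀, hHm, hzm, zero_add, ZMod.natCast_zmod_val, map_sub, hτ,
        sc_pow_val] at this
      exact this
    change ∑ j, H j * (zz L x (d + 1) j)⁻¹ = 0
    rw [sum_congr rfl fun j _ => hg j, sum_sub_distrib, sub_eq_zero]
    exact Equiv.sum_comp (Equiv.addRight (1 : ZMod p.q)) fun j : ZMod p.q => (τ ^ j.val) t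
  have d1 := dim_cent (k := La F) (A := AA p ξ B) ech A1 A4
  have d2 := Submodule.finrank_lt_finrank_of_lt hlt
  have d3 := fix_le (D := D) p
  exact lt_of_le_of_lt d1 (Nat.mul_lt_mul_of_pos_left (by omega) (NeZero.pos _))

end main

lemma main (ech : JobEch) (genB : JobGenB) (cb : JobCB) (genX : JobGenX) (jet : JobJet)
    (mb : JobMorB) (extK : JobExtK) (nt : JobNT) (p1a : JobP1a) (a : An) (k : Type) [Field k]
    [Algebra a.F k] [Algebra k a.D] [IsScalarTower a.F k a.D]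
    (hk : ∀ y : a.D, (∀ c, Commute y c) → ∃ z : k, y = algebraMap k a.D z)
    (b : NC a.D a.ι) (d : ℕ) (h1 : a.B1) (h2 : a.Sc) (hb : ∀ w c, Commute (b.co w) c)
    (hd : 1 ≤ d) (hR : a.B - b ∈ NC.ordGe _ _ (d + 1)) :
    (∃ ψ ∈ NC.ordGe a.D a.ι d, ∃ ρ ∈ NC.ordGe a.D a.ι (d + 1), (∀ w c, Commute (ρ.co w) c) ∧
      a.B * (1 + ψ) - (1 + ψ) * (b + ρ) ∈ NC.ordGe _ _ (d + 1 + 1)) ∨
    ∃ a' : An, (a'.Kill → a.Kill) ∧ a'.B1 ∧ a'.m0 < a.m0 := by
  have : CharZero k := charZero_of_injective_algebraMap (algebraMap a.F k).injective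
  choose l hl using fun i => hk _ (h2 i)
  have hl0 : l ≠ 0 := by
    obtain ⟨i, hi⟩ := h1
    intro h
    exact hi (by rw [hl, h]; simp)
  by_cases h : ∀ (c : a.D) (χ : a.D →ₗ[k] k), ∃ ψ ∈ NC.ordGe k a.ι d,
      cR χ c (a.B - b) - (NC.lin l * ψ - ψ * NC.lin l) ∈ NC.ordGe k a.ι (d + 1 + 1)
  · obtain ⟨ψ, f1, ρ, f2, f3, f4⟩ := caseA l d _ hR h
    set l' := NC.map (algebraMap k a.D) (NC.lin l) with hl'
    have f5 : a.B - l' ∈ NC.ordGe a.D a.ι 2 :=
      P2.mem_two (by simp [l', a.ord1 [] (by simp)]) fun i => by simp [l', hl]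
    have f6 : b - l' ∈ NC.ordGe a.D a.ι 2 := by
      have := sub_mem f5 (P2.mono (by omega) hR)
      rwa [sub_sub_sub_cancel_left] at this
    refine Or.inl ⟨-ψ, neg_mem f1, ρ, f2, f3, ?_⟩
    have e : a.B * (1 + -ψ) - (1 + -ψ) * (b + ρ) = (a.B - b - ρ - (l' * ψ - ψ * l')) -
        (a.B - l') * ψ + ψ * (b - l') + ψ * ρ := by noncomm_ring
    rw [e]
    exact add_mem (add_mem (sub_mem f4 (P2.mul_le f5 f1 (by omega))) (P2.mul_le f1 f6 (by omega)))
      (P2.mul_le f1 f2 (by omega))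
  push Not at h
  obtain ⟨c, χ, h⟩ := h
  obtain ⟨ζ, hζ⟩ := HasRoots.out (F := a.F) (2 * (d + 1)) (by omega)
  let p : Par a.F := { q := 2 * (d + 1), ζ := ζ, prim := hζ }
  have hcR : cR χ c (a.B - b) ∈ NC.ordGe k a.ι (d + 1) := fun w hw => by
    change χ _ = 0
    rw [hR w hw]; simp
  have g1 := (cb (q := p.q) (Sk.cst (1 : RingAut k) p.q) l (d + 1) _ hl0 (by omega) le_rfl hcR).1
    (by rintro ⟨ψ, u1, u2⟩; exact h ψ u1 u2)
  have g2 := (genB (Ω := Lq k p.q) (ι := a.ι) (q := p.q)).2.2.1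
    (fun (_ : Unit) i => Sk.cst (1 : RingAut k) p.q (l i)) fun _ h0 => hl0 (funext fun i =>
      (map_eq_zero (Sk.cst (1 : RingAut k) p.q)).1 (congrFun h0 i))
  obtain ⟨ξ, hξ, u1, u2⟩ := genX p (mapL p.q (algebraMap a.F k)) a.two _
    ((genB (Ω := Lq k p.q) (ι := a.ι) (q := p.q)).1 _ _ g2 g1)
  obtain ⟨v1, v2⟩ := caseB jet mb ech p ξ a.B b l d hd a.ord1 hl hb hR c χ _ rfl (u1 ()) u2
  obtain ⟨sl⟩ := mb.2.2.2.2.2.2.1 p ξ a.two
  obtain ⟨⟨nf⟩, w1⟩ := extK a p ξ sl
  exact Or.inr ⟨a.ext p nf, (w1 nf).1 hξ, nt.1 a p ξ sl nf 1 a.ord1 le_rfl v1,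
    p1a.2.1 a p ξ sl nf v1 v2⟩

end P1b

theorem jobP1b (ech : JobEch) (genB : JobGenB) (cb : JobCB) (genX : JobGenX) (jet : JobJet)
    (mb : JobMorB) (extK : JobExtK) (nt : JobNT) (p1a : JobP1a) : JobP1b := by
  intro a b d h1 h2 hb hd hR
  obtain ⟨d, rfl⟩ : ∃ e, d = e + 1 := ⟨d - 1, by omega⟩
  let Z := Subalgebra.centralizer a.F (Set.univ : Set a.D)
  have hZ : ∀ (x : Z) (y : a.D), (x : a.D) * y = y * x := fun x y =>
    ((Subalgebra.mem_centralizer_iff _).1 x.2 y trivial).symm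
  let i1 : Field Z := IsDiv.field Z fun x y => Subtype.ext (hZ x y)
  let i2 : Algebra Z a.D := Z.val.toRingHom.toAlgebra' hZ
  exact @P1b.main ech genB cb genX jet mb extK nt p1a a Z i1 inferInstance i2
    (IsScalarTower.of_algebraMap_eq fun _ => rfl) (fun y hy =>
    ⟨⟨y, (Subalgebra.mem_centralizer_iff _).2 fun g _ => (hy g).eq.symm⟩, rfl⟩) b d h1 h2 hb
    (by omega) hR

end Crest.Agent.KU
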