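import Crest.Agent.KU.Step

/-! Row 180: Phase 2 (commutative coefficient field). -/

set_option autoImplicit false
set_option linter.unusedSectionVars false

namespace Crest.Agent.KU

open Finset Module Polynomial

namespace P2

section ord

variable {A ι : Type} [Ring A]

lemma mono {d e : ℕ} (h : d ≤ e) {f : NC A ι} (hf : f ∈ NC.ordGe A ι e) : f ∈ NC.ordGe A ι d :=
  fun w hw => hf w (by omega)

lemma mem0 (f : NC A ι) : f ∈ NC.ordGe A ι 0 := fun _ hw => absurd hw (Nat.not_lt_zero _)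

lemma mul_left {d : ℕ} (u : NC A ι) {f : NC A ι} (hf : f ∈ NC.ordGe A ι d) :
    u * f ∈ NC.ordGe A ι d := by
  simpa using NC.mul_mem_ordGe (mem0 u) hf

lemma mul_le {d e n : ℕ} {f g : NC A ι} (hf : f ∈ NC.ordGe A ι d) (hg : g ∈ NC.ordGe A ι e)
    (h : n ≤ d + e) : f * g ∈ NC.ordGe A ι n := mono h (NC.mul_mem_ordGe hf hg)

lemma pow_mem {f : NC A ι} (hf : f ∈ NC.ordGe A ι 1) (n : ℕ) : f ^ n ∈ NC.ordGe A ι n := by
  induction n with
  | zero => exact mem0 _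
  | succ n ih => rw [pow_succ]; exact NC.mul_mem_ordGe ih hf

lemma pow_sub_pow {f g : NC A ι} (hf : f ∈ NC.ordGe A ι 1) (hg : g ∈ NC.ordGe A ι 1)
    (h : f - g ∈ NC.ordGe A ι 2) (n : ℕ) : f ^ n - g ^ n ∈ NC.ordGe A ι (n + 1) := by
  induction n with
  | zero => simp
  | succ n ih =>
    have : f ^ (n + 1) - g ^ (n + 1) = (f ^ n - g ^ n) * f + g ^ n * (f - g) := by
      rw [pow_succ, pow_succ]; noncomm_ring
    rw [this]
    exact add_mem (NC.mul_mem_ordGe ih hf) (mul_le (pow_mem hg n) h (by omega))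

lemma lin_mem (l : ι → A) : NC.lin l ∈ NC.ordGe A ι 1 := fun w hw => by
  have : w = [] := List.length_eq_zero_iff.1 (by omega)
  subst this; rfl

lemma mem_two {f : NC A ι} (h0 : f.co [] = 0) (h1 : ∀ i, f.co [i] = 0) : f ∈ NC.ordGe A ι 2 :=
  fun w hw => by
    match w, hw with
    | [], _ => exact h0
    | [i], _ => exact h1 i
    | _ :: _ :: _, hw => simp at hw

variable {Ω : Type} [Field Ω]

lemma smul_mem {d : ℕ} (c : Ω) {f : NC Ω ι} (hf : f ∈ NC.ordGe Ω ι d) :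
    c • f ∈ NC.ordGe Ω ι d := fun w hw => by simp [hf w hw]

lemma aeval_sub_lin {f : NC Ω ι} (hf : f ∈ NC.ordGe Ω ι 1) {φ : Polynomial Ω} (h0 : φ.coeff 0 = 0) :
    aeval f φ - φ.coeff 1 • f ∈ NC.ordGe Ω ι 2 := by
  have : X ^ 2 ∣ φ - C (φ.coeff 1) * X := by
    rw [X_pow_dvd_iff]
    intro d hd
    interval_cases d <;> simp [h0, coeff_X]
  obtain ⟨ψ, hψ⟩ := this
  have e : aeval f φ - φ.coeff 1 • f = aeval f (φ - C (φ.coeff 1) * X) := by
    simp [Algebra.smul_def]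
  rw [e, hψ, map_mul, map_pow, aeval_X]
  exact mul_le (pow_mem hf 2) (mem0 _) le_rfl

end ord

section cmp

variable {Ω E ι : Type} [Field Ω] [Fintype ι] {b : NC (E → Ω) ι}

lemma cmp_mem (hb : b ∈ NC.ordGe _ _ 1) (k : E) : cmp b k ∈ NC.ordGe Ω ι 1 := fun w hw => by
  simp [cmp, hb w hw]

lemma cmp_sub (hb : b ∈ NC.ordGe _ _ 1) (k : E) :
    cmp b k - NC.lin (lOf b k) ∈ NC.ordGe Ω ι 2 :=
  mem_two (by simp [cmp, hb [] (by simp)]) fun i => by simp [cmp, lOf]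

end cmp

/-- everything used below -/
structure Hyp : Prop where
  step : JobStep
  ncb : JobNCB
  genB : JobGenB
  genV : JobGenV
  cb : JobCB
  a12 : JobA12
  a3 : JobA3
  a4 : JobA4
  a5 : JobA5
  inv : JobInv
  cls : JobCls
  r1 : JobR1
  solve : JobSolve
  subK : JobSubK

variable (H : Hyp)
include H

/-- an extension: `nu` drops, or the new state is `2`-independent with `M' = q M` -/
lemma ext1 (a : An) (c : Cls (lOf a.bb)) (hc : a.ClsOK c) (h1 : a.Comm) (h2 : a.B1) (q : ℕ)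
    [NeZero q] (hq : (Fintype.card c.K + 1) ^ 2 ≤ q) (P : (ZMod q → a.ι → Om a.F) → Prop)
    (hP : Gen P) :
    ∃ (x : ZMod q → a.ι → Om a.F) (N : NFD a.bb x) (a' : An) (_ : a.Bridge N a'), P x ∧
      G0 c.lr x ∧ VanI c.lr x ∧ NFAPI N ∧
      (∀ k, N.α.co 1 k = c.cf k * N.α.co 1 (c.rep (c.cls k))) ∧
      (a'.nu < a.nu ∨ (a'.nu = a.nu ∧ a'.M = q * Fintype.card c.K ∧ a'.Two)) := by
  have hV : Gen (VanI (q := q) c.lr) := (H.genV c.lr c.np).1
  obtain ⟨x, N, a', ⟨hPx, hVx⟩, hG, hN, hα, ⟨br⟩⟩ := H.step a c q h1 h2 _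
    ((H.genB (Ω := Om a.F) (ι := a.ι) (q := q)).1 _ _ hP hV)
  refine ⟨x, N, a', br, hPx, hG, hVx, hN, hα, ?_⟩
  obtain ⟨m1, m2, -, -, -, -, -⟩ := H.inv.1 a h1 h2
  obtain ⟨n1, n2, -, n4, -, -, -⟩ := H.inv.1 a' br.comm br.b1
  obtain ⟨-, i2, -⟩ := H.inv.2 a a' N br hN.lam_add
  have k1 := ((H.a12 N c hN hG).1 hVx hq).2
  have k2 : q * a.M ≤ a'.M := by rw [← hc.card]; omega
  have k3 : a'.M * a'.nu = q * a.M * a.nu := by rw [n2, br.dim, ← m2, mul_assoc]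
  have k4 : a'.nu ≤ a.nu := by
    by_contra hlt
    have : q * a.M * a.nu < a'.M * a'.nu :=
      Nat.mul_lt_mul_of_le_of_lt k2 (by omega) n1
    omega
  rcases k4.lt_or_eq with h | h
  · exact Or.inl h
  · have hpos : 0 < a.nu := by
      have : 0 < finrank a.F a.D := finrank_pos
      rcases Nat.eq_zero_or_pos a.nu with h0 | h0
      · rw [h0] at m2; omega
      · exact h0
    have k5 : a'.M = q * a.M := by
      rw [h] at k3
      exact Nat.eq_of_mul_eq_mul_right hpos k3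
    refine Or.inr ⟨h, by rw [k5, hc.card], ?_⟩
    unfold An.Two
    rw [← hc.card] at k5
    omega

/-- an extension of a `2`-independent state -/
lemma ext2 (a : An) (c : Cls (lOf a.bb)) (hc : a.ClsOK c) (h1 : a.Comm) (h2 : a.B1) (h3 : a.Two)
    (q : ℕ) [NeZero q] (hq : (Fintype.card c.K + 1) ^ 2 ≤ q)
    (P : (ZMod q → a.ι → Om a.F) → Prop) (hP : Gen P) :
    ∃ (x : ZMod q → a.ι → Om a.F) (N : NFD a.bb x) (a' : An) (_ : a.Bridge N a'), P x ∧
      G0 c.lr x ∧ VanI c.lr x ∧ (∀ m, 1 ≤ m → m < q → Fm c.lr x m) ∧ NFAPI N ∧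
      (a'.nu < a.nu ∨ (a'.nu = a.nu ∧ a'.Two ∧ a'.h < a.h) ∨
        (a'.nu = a.nu ∧ a'.M = q * Fintype.card c.K ∧ a'.Two ∧ a'.h = a.h ∧
          finrank (La (Om a.F)) N.RL + finrank (Om a.F) (Gam c.lr) ≤ q * Fintype.card c.K)) := by
  have hF := (H.genV (q := q) c.lr c.np).2 (hc.two h3) hq
  obtain ⟨x, N, a', br, ⟨hPx, hFx⟩, hG, hV, hN, -, hor⟩ := ext1 H a c hc h1 h2 q hq _
    ((H.genB (Ω := Om a.F) (ι := a.ι) (q := q)).1 _ _ hP hF)
  refine ⟨x, N, a', br, hPx, hG, hV, hFx, hN, ?_⟩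
  rcases hor with h | ⟨e1, e2, e3⟩
  · exact Or.inl h
  obtain ⟨-, -, n3, -, -, -, -⟩ := H.inv.1 a' br.comm br.b1
  obtain ⟨i1, -, -⟩ := H.inv.2 a a' N br hN.lam_add
  have k1 := ((H.a12 N c hN hG).2 hFx).1
  have k2 := hc.gam
  have k3 : a'.h = a'.M - finrank a'.F a'.U := rfl
  by_cases hh : a'.h < a.h
  · exact Or.inr (Or.inl ⟨e1, e3, hh⟩)
  · exact Or.inr (Or.inr ⟨e1, e2, e3, by omega, by omega⟩)

lemma p2_of (a : An) (c : Cls (lOf a.bb)) (hc : a.ClsOK c) (h1 : a.Comm) (h2 : a.B1)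
    (hK : ¬ a.Kill) (ih : ∀ a' : An, a'.Comm → a'.B1 → a'.nu < a.nu → a'.Kill) : a.P2 c := by
  intro k d
  have hb := a.bb_ord1
  set κ := c.cls k with hκ
  have hbκ := cmp_mem hb (c.rep κ)
  have base : ∃ (u : NC (Om a.F) a.ι) (φ : (Om a.F)[X]), u.co [] = 1 ∧
      φ.coeff 0 = 0 ∧ φ.coeff 1 = c.cf k ∧
      cmp a.bb k * u - u * aeval (cmp a.bb (c.rep κ)) φ ∈ NC.ordGe _ _ 2 := by
    refine ⟨1, C (c.cf k) * X, rfl, by simp, by simp, ?_⟩
    have e : aeval (cmp a.bb (c.rep κ)) (C (c.cf k) * X) = c.cf k • cmp a.bb (c.rep κ) := by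
      simp [Algebra.smul_def]
    rw [e, mul_one, one_mul]
    refine mem_two (by simp [cmp, hb [] (by simp)]) fun i => ?_
    have := congrFun (c.eq k) i
    simpa [cmp, lOf, sub_eq_zero] using this
  induction d with
  | zero =>
    obtain ⟨u, φ, e1, e2, e3, e4⟩ := base
    exact ⟨u, φ, e1, e2, e3, mono (by omega) e4⟩
  | succ d ihd =>
    rcases Nat.eq_zero_or_pos d with rfl | hd
    · exact base
    obtain ⟨u, φ, e1, e2, e3, e4⟩ := ihd
    obtain ⟨u', -, hu1, hu2⟩ := (H.ncb (A := Om a.F) (ι := a.ι)).2.1 u e1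
    set bκ := cmp a.bb (c.rep κ) with hbκdef
    set R := u' * (cmp a.bb k * u - u * aeval bκ φ) with hR
    have hRo : R ∈ NC.ordGe _ _ (d + 1) := mul_left _ e4
    have hEq : cmp a.bb k * u = u * (aeval bκ φ + R) := by
      rw [hR, mul_add, ← mul_assoc, hu1, one_mul]; abel
    have key : ∃ c' : Om a.F, ∃ ψ ∈ NC.ordGe (Om a.F) a.ι (d + 1 - 1),
        R - c' • NC.lin (c.lr κ) ^ (d + 1) - (NC.lin (c.lr κ) * ψ - ψ * NC.lin (c.lr κ)) ∈
          NC.ordGe (Om a.F) a.ι (d + 1 + 1) := by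
      by_contra hno
      obtain ⟨q, hq1, hq2⟩ : ∃ q, (Fintype.card c.K + 1) ^ 2 ≤ q ∧ 2 * (d + 1) ≤ q :=
        ⟨_, le_max_left _ _, le_max_right _ _⟩
      have : NeZero q := ⟨by omega⟩
      have hg := (H.cb (q := q) (RingHom.id (Om a.F)) (c.lr κ) (d + 1) R (c.np.1 κ) (by omega) hq2
        hRo).2 hno
      obtain ⟨x, N, a', br, ⟨η, hη1, hη2⟩, hG, hV, hN, hα, hor⟩ :=
        ext1 H a c hc h1 h2 q hq1 _ hg
      rcases hor with h | ⟨-, f2, -⟩
      · exact hK (br.red (ih a' br.comm br.b1 h))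
      obtain ⟨-, -, 𝒜, u₀, g1, g2⟩ := H.inv.2 a a' N br hN.lam_add
      exact hη2 (H.a3 N c hb hN hG hV hq1 hα 𝒜 u₀ (by omega) g2 k (d + 1) u R φ (by omega) e1 e2 e3
        hRo hEq η hη1)
    obtain ⟨c', ψ, hψ, hkey⟩ := key
    rw [Nat.add_sub_cancel] at hψ
    set l := NC.lin (c.lr κ) with hl
    set t : Om a.F := -(c.cf k)⁻¹ with ht
    have hψ0 : ψ.co [] = 0 := hψ [] (by simpa using hd)
    refine ⟨u * (1 + t • ψ), φ + C c' * X ^ (d + 1), by simp [e1, hψ0], ?_, ?_, ?_⟩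
    · simp [e2, coeff_X_pow]
    · simp [e3, coeff_X_pow]; omega
    have e5 : aeval bκ (φ + C c' * X ^ (d + 1)) = aeval bκ φ + c' • bκ ^ (d + 1) := by
      simp [Algebra.smul_def]
    set A := aeval bκ φ with hA
    have hA2 : A - c.cf k • l ∈ NC.ordGe _ _ 2 := by
      have f1 := aeval_sub_lin hbκ e2
      have f2 := smul_mem (c.cf k) (cmp_sub hb (c.rep κ))
      rw [e3] at f1
      have := add_mem f1 f2
      convert this using 1
      rw [smul_sub]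
      change _ = A - c.cf k • bκ + (c.cf k • bκ - c.cf k • l)
      abel
    have hp : bκ ^ (d + 1) - l ^ (d + 1) ∈ NC.ordGe _ _ (d + 1 + 1) :=
      pow_sub_pow hbκ (lin_mem _) (cmp_sub hb (c.rep κ)) _
    have htc : t * c.cf k = -1 := by rw [ht, neg_mul, inv_mul_cancel₀ (c.cf_ne k)]
    have e6 : cmp a.bb k * (u * (1 + t • ψ)) - u * (1 + t • ψ) * (A + c' • bκ ^ (d + 1)) =
        u * ((R - c' • l ^ (d + 1) - (l * ψ - ψ * l)) - c' • (bκ ^ (d + 1) - l ^ (d + 1)) +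
          t • ((A - c.cf k • l) * ψ - ψ * (A - c.cf k • l)) + t • (R * ψ) -
          (t * c') • (ψ * bκ ^ (d + 1))) := by
      rw [← mul_assoc, hEq, mul_assoc u, mul_assoc u, ← mul_sub]
      congr 1
      simp only [add_mul, mul_add, sub_mul, mul_sub, smul_add, smul_sub, mul_one, one_mul,
        smul_mul_assoc, mul_smul_comm, smul_smul, htc, mul_comm c' t, neg_smul, one_smul]
      abel
    rw [e5, e6]
    refine mul_left _ (sub_mem (add_mem (add_mem (sub_mem hkey (smul_mem _ hp))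
      (smul_mem _ (sub_mem (mul_le hA2 hψ (by omega)) (mul_le hψ hA2 (by omega)))))
      (smul_mem _ (mul_le hRo hψ (by omega))))
      (smul_mem _ (mul_le hψ (pow_mem hbκ _) (by omega))))

lemma p3_of (a : An) (c : Cls (lOf a.bb)) (hc : a.ClsOK c) (h1 : a.Comm) (h2 : a.B1) (h3 : a.Two)
    (hK : ¬ a.Kill) (ih : ∀ a' : An, a'.Comm → a'.B1 → a'.nu < a.nu → a'.Kill)
    (ih2 : ∀ a' : An, a'.Comm → a'.B1 → a'.nu = a.nu → a'.Two → a'.h < a.h → a'.Kill) :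
    a.P3 c := by
  intro γ hγ d
  have hb := a.bb_ord1
  have base : ∃ (H : c.K → (Om a.F)[X]) (z : NC (Om a.F) a.ι),
      (∀ κ, (H κ).coeff 0 = 0 ∧ (H κ).coeff 1 = γ κ) ∧ z ∈ commSpan (NC (Om a.F) a.ι) ∧
      ∑ κ, aeval (cmp a.bb (c.rep κ)) (H κ) - z ∈ NC.ordGe _ _ 2 := by
    refine ⟨fun κ => C (γ κ) * X, 0, fun κ => by simp, zero_mem _, ?_⟩
    have e : ∀ κ, aeval (cmp a.bb (c.rep κ)) (C (γ κ) * X) = γ κ • cmp a.bb (c.rep κ) :=
      fun κ => by simp [Algebra.smul_def]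
    simp only [e, sub_zero]
    refine mem_two (by simp [cmp, hb [] (by simp)]) fun i => ?_
    have := congrFun (LinearMap.mem_ker.1 hγ) i
    simpa [cmp, lOf, Cls.lr, Fintype.linearCombination_apply] using this
  induction d with
  | zero =>
    obtain ⟨u, φ, e1, e2, e3⟩ := base
    exact ⟨u, φ, e1, e2, mono (by omega) e3⟩
  | succ d ihd =>
    rcases Nat.eq_zero_or_pos d with rfl | hd
    · exact base
    obtain ⟨G, z, e1, e2, e3⟩ := ihd
    obtain ⟨q, hq1, hq2, hq3⟩ : ∃ q, (Fintype.card c.K + 1) ^ 2 ≤ q ∧ d + 2 ≤ q ∧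
        d * Fintype.card a.ι ^ d ≤ q :=
      ⟨max (max _ _) _, (le_max_left _ _).trans (le_max_left _ _),
        (le_max_right _ _).trans (le_max_left _ _), le_max_right _ _⟩
    have : NeZero q := ⟨by omega⟩
    have hg := (H.genB (Ω := Om a.F) (ι := a.ι) (q := q)).2.2.2.2 d hq3
    obtain ⟨x, N, a', br, hP, hG, hV, hF, hN, hor⟩ := ext2 H a c hc h1 h2 h3 q hq1 _ hg
    rcases hor with h | ⟨f1, f2, f3⟩ | ⟨-, -, -, -, f5⟩
    · exact absurd (br.red (ih a' br.comm br.b1 h)) hK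
    · exact absurd (br.red (ih2 a' br.comm br.b1 f1 f2 f3)) hK
    obtain ⟨γ', z', g1, g2⟩ := H.a4 N c hb hN hG hF f5 (d + 1) G z (by omega) (by omega)
      (by simpa using hP) e2 e3
    refine ⟨fun κ => G κ - C (γ' κ) * X ^ (d + 1), z + z', fun κ => ⟨?_, ?_⟩, add_mem e2 g1, ?_⟩
    · simp [(e1 κ).1, coeff_X_pow]
    · simp [(e1 κ).2, coeff_X_pow]; omega
    have e5 : ∀ κ, aeval (cmp a.bb (c.rep κ)) (G κ - C (γ' κ) * X ^ (d + 1)) =
        aeval (cmp a.bb (c.rep κ)) (G κ) - γ' κ • cmp a.bb (c.rep κ) ^ (d + 1) := fun κ => by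
      simp [Algebra.smul_def]
    have hp : ∑ κ, γ' κ • (cmp a.bb (c.rep κ) ^ (d + 1) - NC.lin (c.lr κ) ^ (d + 1)) ∈
        NC.ordGe _ _ (d + 1 + 1) := sum_mem fun κ _ => smul_mem _
      (pow_sub_pow (cmp_mem hb _) (lin_mem _) (cmp_sub hb (c.rep κ)) _)
    convert sub_mem g2 hp using 1
    simp only [e5, smul_sub, sum_sub_distrib]
    abel

lemma kill_two (n : ℕ) (ih : ∀ a' : An, a'.Comm → a'.B1 → a'.nu < n → a'.Kill) (m : ℕ) :
    ∀ a : An, a.Comm → a.B1 → a.nu = n → a.Two → a.h = m → a.Kill := by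
  induction m using Nat.strong_induction_on with
  | _ m ihm =>
  intro a h1 h2 hn h3 hm
  obtain ⟨c, hc⟩ := H.cls a h1 h2
  obtain ⟨q, hq1, hq2⟩ : ∃ q, (Fintype.card c.K + 1) ^ 2 ≤ q ∧
      3 * Fintype.card c.K + (a.h + 2) + 1 ≤ q := ⟨_, le_max_left _ _, le_max_right _ _⟩
  have : NeZero q := ⟨by omega⟩
  have hg : Gen (G0 (q := q) c.lr) :=
    (H.genB (Ω := Om a.F) (ι := a.ι) (q := q)).2.2.1 c.lr c.np.1
  obtain ⟨x, N, a', br, -, hG, hV, hF, hN, hor⟩ := ext2 H a c hc h1 h2 h3 q hq1 _ hg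
  refine br.red ?_
  rcases hor with h | ⟨f1, f2, f3⟩ | ⟨f1, f2, f3, f4, f5⟩
  · exact ih a' br.comm br.b1 (by omega)
  · exact ihm a'.h (by omega) a' br.comm br.b1 (by omega) f2 rfl
  obtain ⟨e, g1, g2⟩ := H.a5 N c a.bb_ord1 hN hG hV hF f5 (a.h + 2) hq2
  obtain ⟨e', g3, g4⟩ := br.jt _ e g1
  have hJ : a'.Jr (a'.h + 2) := by
    rw [f4]
    exact ⟨e', g3, by rw [f2]; exact g2.trans g4⟩
  obtain ⟨-, -, n3, -, -, -, n7⟩ := H.inv.1 a' br.comm br.b1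
  have hV0 : 2 ≤ finrank a'.F a'.V0 := by
    have k1 := br.card
    have k2 : 1 * q ^ 2 ≤ (Fintype.card a.ι - 1) * q ^ 2 :=
      Nat.mul_le_mul_right _ (by have := a.two; omega)
    have k3 : q * (Fintype.card c.K + 1) ≤ q * q := Nat.mul_le_mul_left _ (by omega)
    rw [mul_add, mul_one] at k3
    have k4 : q ^ 2 = q * q := sq q
    omega
  by_contra hK
  obtain ⟨c', hc'⟩ := H.cls a' br.comm br.b1
  have i1 : ∀ a'' : An, a''.Comm → a''.B1 → a''.nu < a'.nu → a''.Kill :=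
    fun a'' u1 u2 u3 => ih a'' u1 u2 (by omega)
  have p2 := p2_of H a' c' hc' br.comm br.b1 hK i1
  have p3 := p3_of H a' c' hc' br.comm br.b1 f3 hK i1 fun a'' u1 u2 u3 u4 u5 =>
    ihm a''.h (by omega) a'' u1 u2 (by omega) u4 rfl
  obtain ⟨ψ, s1, s2, s3⟩ := H.solve a' br.comm br.b1 (H.r1 a' c' hc' p2 p3) hJ hV0
  exact hK (H.subK a' ψ s1 s2 s3)

lemma kill_all (n : ℕ) : ∀ a : An, a.Comm → a.B1 → a.nu = n → a.Kill := by
  induction n using Nat.strong_induction_on with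
  | _ n ihn =>
  intro a h1 h2 hn
  have ih : ∀ a' : An, a'.Comm → a'.B1 → a'.nu < n → a'.Kill :=
    fun a' u1 u2 u3 => ihn _ u3 a' u1 u2 rfl
  obtain ⟨c, hc⟩ := H.cls a h1 h2
  have : NeZero ((Fintype.card c.K + 1) ^ 2) := ⟨by positivity⟩
  have hg : Gen (G0 (q := (Fintype.card c.K + 1) ^ 2) c.lr) :=
    (H.genB (Ω := Om a.F) (ι := a.ι)).2.2.1 c.lr c.np.1
  obtain ⟨x, N, a', br, -, -, -, -, -, hor⟩ := ext1 H a c hc h1 h2 _ le_rfl _ hg
  refine br.red ?_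
  rcases hor with h | ⟨f1, -, f3⟩
  · exact ih a' br.comm br.b1 (by omega)
  · exact kill_two H n ih _ a' br.comm br.b1 (by omega) f3 rfl

end P2

theorem jobP2 (step : JobStep) (ncb : JobNCB) (genB : JobGenB) (genV : JobGenV) (cb : JobCB)
    (a12 : JobA12) (a3 : JobA3) (a4 : JobA4) (a5 : JobA5) (inv : JobInv) (cls : JobCls)
    (r1 : JobR1) (solve : JobSolve) (subK : JobSubK) : JobP2 := fun a h1 h2 =>
  P2.kill_all ⟨step, ncb, genB, genV, cb, a12, a3, a4, a5, inv, cls, r1, solve, subK⟩ _ a h1 h2 rfl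

end Crest.Agent.KU
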