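import Crest.Agent.KU.NCB

/-! Row 180, job PI: no standard identity. -/

set_option autoImplicit false
set_option linter.unusedSectionVars false

namespace Crest.Agent.KU
namespace PIAux

open Finset

theorem rep_inj {ι : Type} {i j : ι} (h : i ≠ j) : ∀ (r r' : ℕ) (u u' : List ι),
    List.replicate r i ++ j :: u = List.replicate r' i ++ j :: u' → r = r' ∧ u = u'
  | 0, 0, _, _, e => by simpa using e
  | 0, r' + 1, _, _, e => by
    simp only [List.replicate_zero, List.nil_append, List.replicate_succ, List.cons_append,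
      List.cons.injEq] at e
    exact absurd e.1.symm h
  | r + 1, 0, _, _, e => by
    simp only [List.replicate_zero, List.nil_append, List.replicate_succ, List.cons_append,
      List.cons.injEq] at e
    exact absurd e.1 h
  | r + 1, r' + 1, u, u', e => by
    simp only [List.replicate_succ, List.cons_append, List.cons.injEq, true_and] at e
    obtain ⟨h1, h2⟩ := rep_inj h r r' u u' e
    exact ⟨by rw [h1], h2⟩

/-- the word attached to a list of exponents -/
def wd {ι : Type} (i j : ι) (l : List ℕ) : List ι := l.flatMap fun r => List.replicate r i ++ [j]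

theorem wd_inj {ι : Type} {i j : ι} (h : i ≠ j) : ∀ l l' : List ℕ, wd i j l = wd i j l' → l = l'
  | [], [], _ => rfl
  | [], _ :: _, e => by simp [wd] at e
  | _ :: _, [], e => by simp [wd] at e
  | r :: l, r' :: l', e => by
    simp only [wd, List.flatMap_cons, List.append_assoc, List.singleton_append] at e
    obtain ⟨h1, h2⟩ := rep_inj h _ _ _ _ e
    rw [h1, wd_inj h l l' h2]

variable {A ι : Type} [Ring A]

theorem prod_eq (w : List ι) : ((w.map NC.X).prod : NC A ι) = NC.mon w 1 := by
  have := (jobNCB (A := A) (ι := ι)).2.2.2.2.2.1 w 1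
  rwa [map_one, one_mul] at this

theorem prod_ord (w : List ι) : ((w.map NC.X).prod : NC A ι) ∈ NC.ordGe A ι w.length := by
  rw [prod_eq]
  intro v hv
  have : v ≠ w := fun h => by simp [h] at hv
  simp [NC.mon, this]

/-- `f` has leading monomial `w` -/
def Ld (w : List ι) (f : NC A ι) : Prop := f - (w.map NC.X).prod ∈ NC.ordGe A ι (w.length + 1)

theorem Ld.one : Ld ([] : List ι) (1 : NC A ι) := by simp [Ld]

theorem Ld.mul {w v : List ι} {f g : NC A ι} (hf : Ld w f) (hg : Ld v g) : Ld (w ++ v) (f * g) := by
  have hg0 : g ∈ NC.ordGe A ι v.length := by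
    have := add_mem (show g - (v.map NC.X).prod ∈ NC.ordGe A ι v.length from
      fun u hu => hg u (by omega)) (prod_ord v)
    rwa [sub_add_cancel] at this
  have e : f * g - ((w ++ v).map NC.X).prod = (f - (w.map NC.X).prod) * g +
      (w.map NC.X).prod * (g - (v.map NC.X).prod) := by
    rw [List.map_append, List.prod_append]; noncomm_ring
  unfold Ld
  rw [e, List.length_append]
  exact add_mem (by
    have := NC.mul_mem_ordGe hf hg0
    rwa [add_right_comm] at this) (by
    have := NC.mul_mem_ordGe (prod_ord w) hg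
    rwa [← add_assoc] at this)

theorem Ld.pow {i : ι} {f : NC A ι} (hf : Ld [i] f) (r : ℕ) : Ld (List.replicate r i) (f ^ r) := by
  induction r with
  | zero => simpa using Ld.one
  | succ r ih => rw [pow_succ', List.replicate_succ]; exact hf.mul ih

theorem Ld.wd {i j : ι} {f g : NC A ι} (hf : Ld [i] f) (hg : Ld [j] g) (l : List ℕ) :
    Ld (wd i j l) (l.map fun r => f ^ r * g).prod := by
  induction l with
  | nil => simpa [PIAux.wd] using Ld.one
  | cons r l ih =>
    rw [List.map_cons, List.prod_cons]
    exact ((hf.pow r).mul hg).mul ih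

theorem Ld.co [DecidableEq ι] {w v : List ι} {f : NC A ι} (hf : Ld w f)
    (h : v.length = w.length) : f.co v = if v = w then 1 else 0 := by
  have := hf v (by omega)
  rw [NC.co_sub, prod_eq, sub_eq_zero] at this
  rw [this]
  simp [NC.mon]

end PIAux

open PIAux Finset in
theorem jobPI : JobPI := by
  classical
  intro σ x y hD n
  by_contra hall
  push Not at hall
  let mo : List Bool → NC σ.D σ.ι := fun m => (m.map fun t => cond t y x).prod
  let f : MultilinearMap σ.F (fun _ : Fin n => NC σ.D σ.ι) (NC σ.D σ.ι) :=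
    ∑ g : Equiv.Perm (Fin n), (Equiv.Perm.sign g : ℤ) •
      (MultilinearMap.mkPiAlgebraFin σ.F n (NC σ.D σ.ι)).domDomCongr g
  have hf : ∀ z, f z = stdPoly n z := fun z => by
    simp [f, stdPoly, MultilinearMap.mkPiAlgebraFin_apply]
  have hspan : ∀ z ∈ Algebra.adjoin σ.F {x, y}, z ∈ Submodule.span σ.F (Set.range mo) := by
    intro z hz
    rw [← Subalgebra.mem_toSubmodule, Algebra.adjoin_eq_span] at hz
    refine Submodule.span_mono (fun u hu => ?_) hz
    induction hu using Submonoid.closure_induction with
    | mem u hu =>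
      rcases hu with rfl | rfl
      · exact ⟨[false], by simp [mo]⟩
      · exact ⟨[true], by simp [mo]⟩
    | one => exact ⟨[], by simp [mo]⟩
    | mul u v _ _ hu hv =>
      obtain ⟨a, rfl⟩ := hu; obtain ⟨b, rfl⟩ := hv
      exact ⟨a ++ b, by simp [mo]⟩
  have hz : ∀ z : Fin n → NC σ.D σ.ι, (∀ r, z r ∈ Algebra.adjoin σ.F {x, y}) →
      stdPoly n z = 0 := by
    intro z hz
    choose c hc using fun r => Finsupp.mem_span_range_iff_exists_finsupp.1 (hspan _ (hz r))
    have e : z = fun r => ∑ m ∈ (c r).support, c r m • mo m := funext fun r => (hc r).symm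
    rw [← hf, e, MultilinearMap.map_sum_finset]
    refine sum_eq_zero fun m _ => ?_
    rw [MultilinearMap.map_smul_univ, hf, hall m, smul_zero]
  obtain ⟨i, j, hij⟩ := Fintype.exists_pair_of_one_lt_card (α := σ.ι) σ.two
  obtain ⟨P, hP, hP'⟩ := hD (NC.X i)
  obtain ⟨Q, hQ, hQ'⟩ := hD (NC.X j)
  have lP : Ld [i] P := by
    have := neg_mem hP'
    simpa [Ld] using this
  have lQ : Ld [j] Q := by
    have := neg_mem hQ'
    simpa [Ld] using this
  have h0 := congrArg (fun s : NC σ.D σ.ι => s.co (wd i j (List.ofFn fun r : Fin n => (r : ℕ))))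
    (hz (fun r => P ^ (r : ℕ) * Q) fun r => mul_mem (pow_mem hP _) hQ)
  have hco : ∀ g : Equiv.Perm (Fin n),
      (List.ofFn fun r => P ^ (g r : ℕ) * Q).prod.co (wd i j (List.ofFn fun r : Fin n => (r : ℕ))) =
        if g = 1 then 1 else 0 := fun g => by
    have h1 := lP.wd lQ (List.ofFn fun r : Fin n => (g r : ℕ))
    rw [List.map_ofFn] at h1
    have hp : (List.ofFn fun r : Fin n => (g r : ℕ)).Perm (List.ofFn fun r : Fin n => (r : ℕ)) :=
      Equiv.Perm.ofFn_comp_perm g fun r : Fin n => (r : ℕ)
    have h2 := h1.co (v := wd i j (List.ofFn fun r : Fin n => (r : ℕ)))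
      (hp.flatMap_right _).length_eq.symm
    refine h2.trans (if_congr ⟨fun h => ?_, fun h => by simp [h]⟩ rfl rfl)
    have h3 := List.ofFn_injective (wd_inj hij _ _ h)
    ext r
    exact (congrFun h3 r).symm
  simp only [stdPoly, NC.co_sum, NC.co_zero] at h0
  rw [sum_eq_single 1] at h0
  · have := hco 1
    simp only [Equiv.Perm.sign_one, Units.val_one, one_smul] at h0
    rw [h0] at this
    simp at this
  · intro g _ hg
    rw [show ∀ (k : ℤ) (s : NC σ.D σ.ι) w, (k • s).co w = k • s.co w from
      fun k s w => map_zsmul (NC.coHom w) k s, hco, if_neg hg, smul_zero]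
  · simp

end Crest.Agent.KU
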