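import Crest.Agent.KU.SubK

/-! Row 180, job R1: the shape of the residual of a substitution. -/

set_option autoImplicit false
set_option linter.unusedSectionVars false

namespace Crest.Agent.KU

open Finset Polynomial

namespace R1X

open SubX

lemma sum_per {M : Type} [AddCommGroup M] (G : ℕ → M) (d : ℕ) (h : ∀ i, G (i + d) = G i) (m : ℕ) :
    ∑ i ∈ range d, G (i + m) = ∑ i ∈ range d, G i := by
  induction m with
  | zero => rfl
  | succ m ih =>
    have h1 := sum_range_succ (fun i => G (i + m)) d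
    have h2 := sum_range_succ' (fun i => G (i + m)) d
    rw [h1, ih, add_comm d m, h, zero_add] at h2
    rw [add_right_cancel h2]
    exact sum_congr rfl fun i _ => by congr 1; ring

variable {Ω κ : Type} [Field Ω]

lemma cyc_mul (f g : NC Ω κ) (w : List κ) :
    ∑ i ∈ range w.length, (f * g).co (w.rotate i) =
      ∑ i ∈ range w.length, (g * f).co (w.rotate i) := by
  simp only [NC.co_mul, List.length_rotate]
  rw [sum_comm, sum_comm (s := range w.length), ← sum_range_reflect]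
  refine sum_congr rfl fun m hm => ?_
  rw [mem_range] at hm
  rw [← sum_per (fun i => f.co ((w.rotate i).take (w.length + 1 - 1 - m)) *
    g.co ((w.rotate i).drop (w.length + 1 - 1 - m))) w.length
    (fun i => by rw [← List.rotate_rotate, ← List.length_rotate w i, List.rotate_length]) m]
  refine sum_congr rfl fun i _ => ?_
  have hl : ((w.rotate i).drop m).length = w.length + 1 - 1 - m := by simp
  rw [← List.rotate_rotate, List.rotate_eq_drop_append_take (l := w.rotate i) (n := m)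
    (by simp; omega), List.take_left' hl, List.drop_left' hl, mul_comm]

lemma cyc_comm {z : NC Ω κ} (hz : z ∈ commSpan (NC Ω κ)) (w : List κ) :
    ∑ i ∈ range w.length, z.co (w.rotate i) = 0 := by
  induction hz using AddSubgroup.closure_induction with
  | mem z hz =>
    obtain ⟨f, g, rfl⟩ := hz
    simp only [NC.co_sub, sum_sub_distrib, cyc_mul f g, sub_self]
  | zero => simp
  | add x y _ _ hx hy => simp only [NC.co_add, sum_add_distrib, hx, hy, add_zero]
  | neg x _ hx => simp only [NC.co_neg, sum_neg_distrib, hx, neg_zero]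

lemma map_commSpan {R S : Type} [Ring R] [Ring S] (Φ : R →+* S) {z : R} (hz : z ∈ commSpan R) :
    Φ z ∈ commSpan S := by
  induction hz using AddSubgroup.closure_induction with
  | mem z hz =>
    obtain ⟨f, g, rfl⟩ := hz
    exact AddSubgroup.subset_closure ⟨Φ f, Φ g, by simp⟩
  | zero => rw [map_zero]; exact zero_mem _
  | add x y _ _ hx hy => rw [map_add]; exact add_mem hx hy
  | neg x _ hx => rw [map_neg]; exact neg_mem hx

lemma aeval_lead {d : ℕ} (hd : 1 ≤ d) {f : NC Ω κ} (hf : f ∈ NC.ordGe Ω κ d) {φ : Polynomial Ω}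
    (h0 : φ.coeff 0 = 0) : aeval f φ - φ.coeff 1 • f ∈ NC.ordGe Ω κ (d + 1) := by
  have : X ^ 2 ∣ φ - C (φ.coeff 1) * X := by
    rw [X_pow_dvd_iff]
    intro d hd
    interval_cases d <;> simp [h0, coeff_X]
  obtain ⟨ψ, hψ⟩ := this
  have e : aeval f φ - φ.coeff 1 • f = aeval f (φ - C (φ.coeff 1) * X) := by
    simp [Algebra.smul_def]
  rw [e, hψ, map_mul, map_pow, aeval_X, sq]
  exact NC.ordGe_anti (by omega)
    (NC.mul_mem_ordGe (NC.mul_mem_ordGe hf hf) (NC.mem_ordGe_zero _))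

lemma exists_alg (a : An) (ψ : a.ι → NC a.F (Fin 2)) (hψ : ∀ i, ψ i ∈ NC.ordGe a.F (Fin 2) 1) :
    ∃ Ψ : NC (Om a.F) a.ι →ₐ[Om a.F] NC (Om a.F) (Fin 2),
      (∀ d, ∀ f ∈ NC.ordGe _ _ d, Ψ f ∈ NC.ordGe _ _ d) ∧
      ∀ k w, (Ψ (cmp a.bb k)).co w = a.jL ((subPhi a.D ψ a.B).co w) k := by
  let ρ : a.F →+* Om a.F := (om0 a.F).comp (algebraMap a.F (AlgebraicClosure a.F))
  have h : Adm (trivFilt _) (RingHom.id _) (fun i => NC.map ρ (ψ i)) fun _ => 1 :=
    adm (fun i => map_mem _ (hψ i)) fun _ _ _ => mul_comm _ _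
  obtain ⟨h1, -, h3⟩ := sub_api h
  refine ⟨{ sub (fun i => NC.map ρ (ψ i)) with
    commutes' := fun c => by rw [SubX.algebraMap_eq, SubX.algebraMap_eq]; exact h1 _ }, h3,
    fun k w => ?_⟩
  have e : (fun j => NC.map ((om0 a.F).comp k.toRingHom) (NC.map (algebraMap a.F a.D) (ψ j))) =
      fun j => NC.map ρ (ψ j) := by
    funext j; ext w; simp [ρ]
  have := sub_nat ((om0 a.F).comp k.toRingHom) (adm_alg (A := a.D) hψ) (e ▸ h) a.B
  rw [e] at this
  exact (congrArg (fun f => f.co w) this).symm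

end R1X

open R1X SubX in
theorem jobR1 : JobR1 := by
  intro a c hc h2 h3 ψ hψ d hr
  obtain ⟨Ψ, hΨ, hco⟩ := exists_alg a ψ hψ
  rcases Nat.eq_zero_or_pos d with rfl | hd
  · intro w hw
    rw [show (subPhi a.D ψ a.B).co w = 0 from
      (sub_api (adm_alg (A := a.D) hψ)).2.2 1 _ a.ord1 w (by omega)]
    exact ⟨zero_mem _, by simp⟩
  have hk : ∀ k, Ψ (cmp a.bb k) ∈ NC.ordGe _ _ d := fun k w hw => by
    rw [hco, hr w hw, map_zero]; rfl
  have hY : ∀ w : List (Fin 2), w.length = d → (subPhi a.D ψ a.B).co w ∈ a.Y := fun w hw => by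
    refine hc.memY _ fun k => ?_
    obtain ⟨u, φ, hu, h0, h1, h⟩ := h2 k d
    have e1 := hΨ _ _ h
    have e2 : Ψ u - 1 ∈ NC.ordGe _ _ 1 := by
      rw [← map_one Ψ, ← map_sub]
      exact hΨ _ _ (NC.mem_ordGe_one.2 (by simp [hu]))
    have e3 := aeval_lead hd (hk (c.rep (c.cls k))) h0
    rw [map_sub, map_mul, map_mul, ← aeval_algHom_apply] at e1
    rw [h1] at e3
    have e4 : aeval (Ψ (cmp a.bb (c.rep (c.cls k)))) φ ∈ NC.ordGe _ _ d := by
      have := add_mem (NC.ordGe_anti (Nat.le_succ d) e3)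
        (show c.cf k • Ψ (cmp a.bb (c.rep (c.cls k))) ∈ NC.ordGe _ _ d from
          fun v hv => by rw [NC.co_smul, hk _ v hv, smul_zero])
      rwa [sub_add_cancel] at this
    have e5 := add_mem (add_mem (sub_mem e1 (NC.mul_mem_ordGe (hk k) e2))
      (add_comm 1 d ▸ NC.mul_mem_ordGe e2 e4)) e3 w (by omega)
    rw [← hco, ← hco, ← smul_eq_mul, ← NC.co_smul, ← sub_eq_zero, ← NC.co_sub, ← e5]
    congr 1
    noncomm_ring
  intro w hw
  refine ⟨hY w hw, hc.memU _ (sum_mem fun i _ => hY _ (by simp [hw])) fun γ hγ => ?_⟩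
  obtain ⟨H, z, hH, hz, h⟩ := h3 γ hγ d
  have e1 := hΨ _ _ h
  rw [map_sub, map_sum] at e1
  simp only [← aeval_algHom_apply] at e1
  have e2 := sub_mem e1 (sum_mem fun κ (_ : κ ∈ univ) => aeval_lead hd (hk (c.rep κ)) (hH κ).1)
  have e3 := cyc_comm (map_commSpan Ψ.toRingHom hz) w
  rw [hw] at e3
  rw [← e3]
  simp only [map_sum, Finset.sum_apply, mul_sum]
  rw [sum_comm]
  refine sum_congr rfl fun i _ => ?_
  have := e2 (w.rotate i) (by simp [hw])
  simp only [NC.co_sub, NC.co_sum, sum_sub_distrib, NC.co_smul, hco, (hH _).2, smul_eq_mul] at this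
  change _ = (Ψ z).co _
  linear_combination this

end Crest.Agent.KU
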