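import Crest.Agent.KU.NCB

/-! Job SS: `ad a` is semisimple; normal forms. -/

set_option autoImplicit false

namespace Crest.Agent.KU

open Finset Module NC

lemma NC.fix {A ι : Type} [Ring A] (T : NC A ι → NC A ι)
    (hT : ∀ d f g, f - g ∈ ordGe A ι d → T f - T g ∈ ordGe A ι (d + 1)) : ∃ f, T f = f := by
  have h : ∀ n, T^[n + 1] 0 - T^[n] 0 ∈ ordGe A ι n := fun n => by
    induction n with
    | zero => exact mem_ordGe_zero _
    | succ n ih => simpa only [Function.iterate_succ_apply'] using hT n _ _ ih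
  obtain ⟨v, hv⟩ := jobNCB.2.2.2.2.1 (fun n => T^[n] 0) h
  refine ⟨v, sub_eq_zero.1 (jobNCB.2.2.2.1 _ fun d => ordGe_anti d.le_succ ?_)⟩
  simpa [Function.iterate_succ_apply'] using sub_mem (hT d _ _ (hv d)) (hv (d + 1))

/-- apply an additive map to the non-constant coefficients -/
def NC.cm {A ι F : Type} [Ring A] [Field F] [Module F A] (f : A →ₗ[F] A) (g : NC A ι) : NC A ι :=
  ⟨fun w => match w with
    | [] => 0
    | i :: w => f (g.co (i :: w))⟩

theorem jobSS : JobSS := by
  intro F R _ _ _ _ _ _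
  have H : ∀ a : R, ∃ π ς : R →ₗ[F] R, (∀ y, y = π y + (ς y * a - a * ς y)) ∧
      (∀ y, Commute (π y) a) ∧ (∀ ω, π (ω * a - a * ω) = 0) ∧ ∀ y, Commute y a → π y = y := by
    intro a
    let T : R →ₗ[F] R := LinearMap.mulRight F a - LinearMap.mulLeft F a
    have hk : ∀ y, y ∈ LinearMap.ker T ↔ Commute y a := fun y => by
      simp [T, sub_eq_zero, Commute, SemiconjBy]
    have hd : Disjoint (LinearMap.ker T) (LinearMap.range T) := Submodule.disjoint_def.2 (by
      rintro _ h ⟨ω, rfl⟩
      by_contra h0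
      obtain ⟨u, hu⟩ := IsDiv.unit _ h0
      have h1 : Commute (↑u⁻¹ : R) a := (hu ▸ (hk _).1 h : Commute (u : R) a).units_inv_left
      have h2 : (↑u⁻¹ * ω) * a - a * (↑u⁻¹ * ω) = 1 := by
        rw [← mul_assoc a, ← h1.eq, mul_assoc, mul_assoc, ← mul_sub, ← u.inv_mul, hu]; rfl
      have := congrArg (fun z => LinearMap.trace F R (Algebra.lmul F R z)) h2
      simp only [map_sub, map_mul, map_one, LinearMap.trace_one] at this
      rw [LinearMap.trace_mul_comm, sub_self] at this
      exact finrank_pos.ne' (Nat.cast_eq_zero.1 this.symm))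
    have hc : IsCompl (LinearMap.ker T) (LinearMap.range T) := ⟨hd, codisjoint_iff.2
      (Submodule.eq_top_of_disjoint _ _ (by rw [add_comm, T.finrank_range_add_finrank_ker]) hd)⟩
    obtain ⟨g, hg⟩ := T.rangeRestrict.exists_rightInverse_of_surjective T.range_rangeRestrict
    refine ⟨Submodule.projection _ _ hc, g ∘ₗ Submodule.projectionOnto _ _ hc.symm, fun y => ?_,
      fun y => (hk _).1 (Submodule.projection_apply_mem hc y),
      fun ω => (Submodule.projection_apply_eq_zero_iff hc).2 ⟨ω, rfl⟩,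
      fun y hy => Submodule.projection_apply_left hc ⟨y, (hk y).2 hy⟩⟩
    have := congrArg Subtype.val (LinearMap.congr_fun hg (Submodule.projectionOnto _ _ hc.symm y))
    exact (Submodule.projection_add_projection_eq_self hc y).symm.trans
      (congrArg (_ + ·) this.symm)
  refine ⟨H, fun {ι} a => ?_⟩
  obtain ⟨π, ς, h1, h2, -, -⟩ := H (a.co [])
  have c1 : ∀ (f : R →ₗ[F] R) (g : NC R ι), cm f g ∈ ordGe R ι 1 := fun f g => mem_ordGe_one.2 rfl
  have c2 : ∀ (f : R →ₗ[F] R) d (g g' : NC R ι), g - g' ∈ ordGe R ι d →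
      cm f g - cm f g' ∈ ordGe R ι d := fun f d g g' h w hw => by
    cases w with
    | nil => exact sub_self _
    | cons i w => exact (map_sub f _ _).symm.trans (by rw [← co_sub, h _ hw, map_zero])
  have ha : a - C (a.co []) ∈ ordGe R ι 1 := mem_ordGe_one.2 (by simp)
  obtain ⟨K, hK⟩ := NC.fix (fun K => (a - C (a.co [])) * (1 + cm ς K) - cm ς K * cm π K)
    fun d f g h => by
      convert sub_mem (sub_mem (add_comm 1 d ▸ mul_mem_ordGe ha (c2 ς d f g h))
        (mul_mem_ordGe (c2 ς d f g h) (c1 π f))) (add_comm 1 d ▸ mul_mem_ordGe (c1 ς g) (c2 π d f g h))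
        using 1
      noncomm_ring
  refine ⟨1 + cm ς K, cm π K, by simp [cm], c1 _ _, fun v => ?_, ?_⟩
  · cases v with
    | nil => exact Commute.zero_left _
    | cons i w => exact h2 _
  · have : K = cm π K + (cm ς K * C (a.co []) - C (a.co []) * cm ς K) := by
      ext w
      cases w with
      | nil => rw [← hK]; simp [cm]
      | cons i w => simpa [cm] using h1 _
    rw [← sub_eq_zero, ← sub_eq_zero.2 (hK.trans this)]
    noncomm_ring

end Crest.Agent.KU
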