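import Mathlib

/-! Row 180 (Kurosh problem for division rings): skew Laurent series `Sk A σ = A((s;σ))`,
`s a = σ(a) s`, and complete filtrations. -/

set_option autoImplicit false

namespace Crest.Agent.KU

open Finset

/-- division rings as a mixin (avoids instance diamonds); use `IsDiv.divisionRing` locally -/
class IsDiv (A : Type) [Ring A] : Prop where
  nontriv : Nontrivial A
  unit : ∀ a : A, a ≠ 0 → IsUnit a

instance (priority := 100) IsDiv.toNontrivial {A : Type} [Ring A] [h : IsDiv A] : Nontrivial A :=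
  h.nontriv

instance (priority := 100) IsDiv.toNoZeroDivisors {A : Type} [Ring A] [h : IsDiv A] :
    NoZeroDivisors A :=
  ⟨fun {a b} hab => by
    by_cases ha : a = 0
    · exact Or.inl ha
    · exact Or.inr ((h.unit a ha).mul_right_eq_zero.1 hab)⟩

instance (priority := 100) IsDiv.toIsDomain {A : Type} [Ring A] [IsDiv A] : IsDomain A :=
  NoZeroDivisors.to_isDomain A

instance (priority := 100) IsDiv.ofDivisionRing {A : Type} [DivisionRing A] : IsDiv A :=
  ⟨inferInstance, fun _ h => IsUnit.mk0 _ h⟩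

/-- the division ring structure (use with `letI`) -/
noncomputable abbrev IsDiv.divisionRing (A : Type) [Ring A] [h : IsDiv A] : DivisionRing A :=
  DivisionRing.ofIsUnitOrEqZero fun a => (em (a = 0)).symm.imp_left (h.unit a)

/-- the field structure of a commutative `IsDiv` ring (use with `letI`) -/
noncomputable abbrev IsDiv.field (A : Type) [Ring A] [h : IsDiv A] (hc : ∀ x y : A, x * y = y * x) :
    Field A :=
  letI : CommRing A := { (inferInstance : Ring A) with mul_comm := hc }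
  Field.ofIsUnitOrEqZero fun a => (em (a = 0)).symm.imp_left (h.unit a)

/-- A complete separated multiplicative `ℤ`-filtration by additive subgroups. -/
structure Filt (R : Type) [Ring R] where
  I : ℤ → AddSubgroup R
  anti : ∀ {m n : ℤ}, m ≤ n → I n ≤ I m
  mul_mem : ∀ {m n : ℤ} {x y : R}, x ∈ I m → y ∈ I n → x * y ∈ I (m + n)
  one_mem : (1 : R) ∈ I 0
  sep : ∀ x : R, (∀ n, x ∈ I n) → x = 0
  complete : ∀ (x : ℕ → R) (N : ℤ), (∀ i : ℕ, x i ∈ I (N + i)) →
    ∃ y : R, ∀ n : ℕ, y - ∑ i ∈ range n, x i ∈ I (N + n)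

namespace Filt

variable {R : Type} [Ring R] (J : Filt R)

lemma pow_mem {x : R} {m : ℤ} (hx : x ∈ J.I m) (n : ℕ) : x ^ n ∈ J.I (n * m) := by
  induction n with
  | zero => simpa using J.one_mem
  | succ n ih =>
    rw [pow_succ]
    have := J.mul_mem ih hx
    convert this using 2; push_cast; ring

lemma eq_of_forall {x y : R} (N : ℤ) (h : ∀ n : ℕ, x - y ∈ J.I (N + n)) : x = y := by
  rw [← sub_eq_zero]
  refine J.sep _ fun n => J.anti (m := n) (n := N + (n - N).toNat) (by omega) (h _)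

/-- geometric series -/
lemma exists_inv {x : R} (hx : x ∈ J.I 1) :
    ∃ y : R, y * (1 - x) = 1 ∧ (1 - x) * y = 1 ∧ y - 1 ∈ J.I 1 := by
  obtain ⟨y, hy⟩ := J.complete (fun i => x ^ i) 0 fun i => by simpa using J.pow_mem hx i
  have h1 : (1 - x) ∈ J.I 0 := sub_mem J.one_mem (J.anti (by omega) hx)
  refine ⟨y, J.eq_of_forall 0 fun n => ?_, J.eq_of_forall 0 fun n => ?_, by simpa using hy 1⟩
  · have e : y * (1 - x) - 1 = (y - ∑ i ∈ range n, x ^ i) * (1 - x) - x ^ n := by
      rw [sub_mul, geom_sum_mul_neg]; abel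
    rw [e]
    refine sub_mem (by simpa using J.mul_mem (hy n) h1) (by simpa using J.pow_mem hx n)
  · have e : (1 - x) * y - 1 = (1 - x) * (y - ∑ i ∈ range n, x ^ i) - x ^ n := by
      rw [mul_sub, mul_neg_geom_sum]; abel
    rw [e]
    refine sub_mem (by simpa using J.mul_mem h1 (hy n)) (by simpa using J.pow_mem hx n)

end Filt

/-- Skew Laurent series `∑ aₙ sⁿ` (support bounded below).  The number `q` is a phantom parameter
that selects the algebra structure over `k((T))`, `T ↦ s ^ q` (see `Sq.lean`). -/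
@[ext] structure Sk (A : Type) [Ring A] (σ : RingAut A) (q : ℕ) where
  co : ℤ → A
  bdd : ∃ N : ℤ, ∀ n < N, co n = 0

namespace Sk

variable {A : Type} [Ring A] {σ : RingAut A} {q : ℕ}

instance : Zero (Sk A σ q) := ⟨⟨0, 0, fun _ _ => rfl⟩⟩
instance : Add (Sk A σ q) := ⟨fun f g => ⟨f.co + g.co, by
  obtain ⟨a, ha⟩ := f.bdd; obtain ⟨b, hb⟩ := g.bdd
  exact ⟨min a b, fun n hn => by
    simp [ha n (lt_of_lt_of_le hn (min_le_left _ _)), hb n (lt_of_lt_of_le hn (min_le_right _ _))]⟩⟩⟩
instance : Neg (Sk A σ q) := ⟨fun f => ⟨-f.co, by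
  obtain ⟨a, ha⟩ := f.bdd; exact ⟨a, fun n hn => by simp [ha n hn]⟩⟩⟩
instance : Sub (Sk A σ q) := ⟨fun f g => ⟨f.co - g.co, by
  obtain ⟨a, ha⟩ := f.bdd; obtain ⟨b, hb⟩ := g.bdd
  exact ⟨min a b, fun n hn => by
    simp [ha n (lt_of_lt_of_le hn (min_le_left _ _)), hb n (lt_of_lt_of_le hn (min_le_right _ _))]⟩⟩⟩
instance : SMul ℕ (Sk A σ q) := ⟨fun k f => ⟨k • f.co, by
  obtain ⟨a, ha⟩ := f.bdd; exact ⟨a, fun n hn => by simp [ha n hn]⟩⟩⟩
instance : SMul ℤ (Sk A σ q) := ⟨fun k f => ⟨k • f.co, by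
  obtain ⟨a, ha⟩ := f.bdd; exact ⟨a, fun n hn => by simp [ha n hn]⟩⟩⟩

instance : AddCommGroup (Sk A σ q) :=
  Function.Injective.addCommGroup Sk.co (fun _ _ h => Sk.ext h) rfl (fun _ _ => rfl)
    (fun _ => rfl) (fun _ _ => rfl) (fun _ _ => rfl) (fun _ _ => rfl)

@[simp] lemma co_zero (n : ℤ) : (0 : Sk A σ q).co n = 0 := rfl
@[simp] lemma co_add (f g : Sk A σ q) (n : ℤ) : (f + g).co n = f.co n + g.co n := rfl
@[simp] lemma co_neg (f : Sk A σ q) (n : ℤ) : (-f).co n = -f.co n := rfl
@[simp] lemma co_sub (f g : Sk A σ q) (n : ℤ) : (f - g).co n = f.co n - g.co n := rfl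

/-- the coefficient as an additive map -/
def coHom (n : ℤ) : Sk A σ q →+ A where
  toFun f := f.co n
  map_zero' := rfl
  map_add' _ _ := rfl

@[simp] lemma co_sum {ι : Type*} (s : Finset ι) (f : ι → Sk A σ q) (n : ℤ) :
    (∑ i ∈ s, f i).co n = ∑ i ∈ s, (f i).co n := map_sum (coHom n) f s

/-- the monomial `a sᵐ` -/
def mono (σ : RingAut A) (q : ℕ) (m : ℤ) (a : A) : Sk A σ q :=
  ⟨fun n => if n = m then a else 0, m, fun n hn => by simp [hn.ne]⟩

@[simp] lemma co_mono (m : ℤ) (a : A) (n : ℤ) :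
    (mono σ q m a).co n = if n = m then a else 0 := rfl

instance : One (Sk A σ q) := ⟨mono σ q 0 1⟩

noncomputable instance : Mul (Sk A σ q) := ⟨fun f g =>
  ⟨fun n => ∑ᶠ i : ℤ, f.co i * (σ ^ i) (g.co (n - i)), by
    obtain ⟨a, ha⟩ := f.bdd; obtain ⟨b, hb⟩ := g.bdd
    refine ⟨a + b, fun n hn => finsum_eq_zero_of_forall_eq_zero fun i => ?_⟩
    by_cases hi : i < a
    · simp [ha i hi]
    · simp [hb (n - i) (by omega)]⟩⟩

lemma co_mul' (f g : Sk A σ q) (n : ℤ) :
    (f * g).co n = ∑ᶠ i : ℤ, f.co i * (σ ^ i) (g.co (n - i)) := rfl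

/-- product formula over any finite set containing the relevant window -/
lemma co_mul_of {f g : Sk A σ q} {a b : ℤ} (ha : ∀ n < a, f.co n = 0) (hb : ∀ n < b, g.co n = 0)
    (n : ℤ) (s : Finset ℤ) (hs : ∀ i, a ≤ i → i ≤ n - b → i ∈ s) :
    (f * g).co n = ∑ i ∈ s, f.co i * (σ ^ i) (g.co (n - i)) := by
  rw [co_mul']
  refine finsum_eq_sum_of_support_subset _ fun i hi => ?_
  rw [Function.mem_support] at hi
  refine hs i ?_ ?_
  · by_contra h; exact hi (by simp [ha i (by omega)])
  · by_contra h; exact hi (by simp [hb (n - i) (by omega)])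

lemma co_mul {f g : Sk A σ q} {a b : ℤ} (ha : ∀ n < a, f.co n = 0) (hb : ∀ n < b, g.co n = 0)
    (n : ℤ) : (f * g).co n = ∑ i ∈ Icc a (n - b), f.co i * (σ ^ i) (g.co (n - i)) :=
  co_mul_of ha hb n _ fun _ h1 h2 => mem_Icc.2 ⟨h1, h2⟩

lemma mul_bdd {f g : Sk A σ q} {a b : ℤ} (ha : ∀ n < a, f.co n = 0) (hb : ∀ n < b, g.co n = 0) :
    ∀ n < a + b, (f * g).co n = 0 := fun n hn => by
  rw [co_mul ha hb, Icc_eq_empty (by omega), sum_empty]

lemma zpow_apply_zpow (i j : ℤ) (x : A) : (σ ^ i) ((σ ^ j) x) = (σ ^ (i + j)) x := by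
  rw [zpow_add]; rfl

lemma mono_mul_co (m : ℤ) (a : A) (g : Sk A σ q) (n : ℤ) :
    (mono σ q m a * g).co n = a * (σ ^ m) (g.co (n - m)) := by
  rw [co_mul', finsum_eq_single _ m]
  · simp
  · intro i hi; simp [hi]

lemma mul_mono_co (f : Sk A σ q) (m : ℤ) (a : A) (n : ℤ) :
    (f * mono σ q m a).co n = f.co (n - m) * (σ ^ (n - m)) a := by
  rw [co_mul', finsum_eq_single _ (n - m)]
  · simp
  · intro i hi
    have : n - i ≠ m := by omega
    simp [this]

noncomputable instance : Ring (Sk A σ q) :=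
  { (inferInstance : AddCommGroup (Sk A σ q)), (inferInstance : One (Sk A σ q)),
    (inferInstance : Mul (Sk A σ q)) with
    left_distrib := fun f g h => by
      obtain ⟨a, ha⟩ := f.bdd; obtain ⟨b, hb⟩ := g.bdd; obtain ⟨c, hc⟩ := h.bdd
      have hb' : ∀ n < min b c, g.co n = 0 := fun n hn => hb n (by omega)
      have hc' : ∀ n < min b c, h.co n = 0 := fun n hn => hc n (by omega)
      have hbc : ∀ n < min b c, (g + h).co n = 0 := fun n hn => by simp [hb' n hn, hc' n hn]
      ext n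
      rw [co_add, co_mul ha hbc, co_mul ha hb', co_mul ha hc', ← sum_add_distrib]
      simp [mul_add]
    right_distrib := fun f g h => by
      obtain ⟨a, ha⟩ := f.bdd; obtain ⟨b, hb⟩ := g.bdd; obtain ⟨c, hc⟩ := h.bdd
      have ha' : ∀ n < min a b, f.co n = 0 := fun n hn => ha n (by omega)
      have hb' : ∀ n < min a b, g.co n = 0 := fun n hn => hb n (by omega)
      have hab : ∀ n < min a b, (f + g).co n = 0 := fun n hn => by simp [ha' n hn, hb' n hn]
      ext n
      rw [co_add, co_mul hab hc, co_mul ha' hc, co_mul hb' hc, ← sum_add_distrib]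
      simp [add_mul]
    zero_mul := fun f => by ext n; rw [co_mul']; simp
    mul_zero := fun f => by ext n; rw [co_mul']; simp
    mul_assoc := fun f g h => by
      obtain ⟨a, ha⟩ := f.bdd; obtain ⟨b, hb⟩ := g.bdd; obtain ⟨c, hc⟩ := h.bdd
      ext n
      rw [co_mul (mul_bdd ha hb) hc, co_mul ha (mul_bdd hb hc)]
      have e1 : ∀ j ∈ Icc (a + b) (n - c), (f * g).co j * (σ ^ j) (h.co (n - j)) =
          ∑ i ∈ Icc a (n - (b + c)), f.co i * (σ ^ i) (g.co (j - i)) * (σ ^ j) (h.co (n - j)) := by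
        intro j hj
        rw [mem_Icc] at hj
        rw [co_mul_of ha hb j (Icc a (n - (b + c))) (fun i h1 h2 => mem_Icc.2 ⟨h1, by omega⟩),
          sum_mul]
      rw [sum_congr rfl e1, sum_comm]
      refine sum_congr rfl fun i hi => ?_
      rw [mem_Icc] at hi
      rw [co_mul_of hb hc (n - i) ((Icc (a + b) (n - c)).map (Equiv.subRight i).toEmbedding)
        (fun k h1 h2 => by
          simp only [mem_map, mem_Icc, Equiv.coe_toEmbedding, Equiv.subRight_apply]
          exact ⟨k + i, ⟨by omega, by omega⟩, by ring⟩), sum_map, map_sum, mul_sum]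
      refine sum_congr rfl fun j _ => ?_
      simp only [Equiv.coe_toEmbedding, Equiv.subRight_apply, map_mul, zpow_apply_zpow, mul_assoc]
      congr 3
      · congr 1; ring
      · congr 1; ring
    one_mul := fun f => by
      ext n; change (mono σ q 0 1 * f).co n = _; rw [mono_mul_co]; simp
    mul_one := fun f => by
      ext n; change (f * mono σ q 0 1).co n = _; rw [mul_mono_co]; simp
    zsmul := fun k f => k • f
    nsmul := fun k f => k • f }

lemma one_def : (1 : Sk A σ q) = mono σ q 0 1 := rfl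
@[simp] lemma co_one (n : ℤ) : (1 : Sk A σ q).co n = if n = 0 then 1 else 0 := rfl

lemma mono_mul_mono (m n : ℤ) (a b : A) :
    mono σ q m a * mono σ q n b = mono σ q (m + n) (a * (σ ^ m) b) := by
  ext k; rw [mono_mul_co]
  by_cases h : k = m + n
  · subst h; simp
  · have : k - m ≠ n := by omega
    simp [h, this]

/-- series of order `≥ n` -/
def ord (σ : RingAut A) (q : ℕ) (n : ℤ) : AddSubgroup (Sk A σ q) where
  carrier := {f | ∀ m < n, f.co m = 0}
  zero_mem' := fun _ _ => rfl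
  add_mem' := fun {f g} hf hg m hm => by simp [hf m hm, hg m hm]
  neg_mem' := fun {f} hf m hm => by simp [hf m hm]

lemma mem_ord {n : ℤ} {f : Sk A σ q} : f ∈ ord σ q n ↔ ∀ m < n, f.co m = 0 := Iff.rfl

lemma mul_mem_ord {m n : ℤ} {f g : Sk A σ q} (hf : f ∈ ord σ q m) (hg : g ∈ ord σ q n) :
    f * g ∈ ord σ q (m + n) := mul_bdd hf hg

/-- leading coefficient of a product -/
lemma co_mul_lead {m n : ℤ} {f g : Sk A σ q} (hf : f ∈ ord σ q m) (hg : g ∈ ord σ q n) :
    (f * g).co (m + n) = f.co m * (σ ^ m) (g.co n) := by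
  rw [co_mul hf hg]; simp

lemma exists_ord (f : Sk A σ q) : ∃ n, f ∈ ord σ q n := f.bdd

lemma mono_mem_ord (m : ℤ) (a : A) : mono σ q m a ∈ ord σ q m := fun n hn => by simp [hn.ne]

/-- the `s`-adic filtration -/
def filt (σ : RingAut A) (q : ℕ) : Filt (Sk A σ q) where
  I := ord σ q
  anti := fun h _ hf m hm => hf m (lt_of_lt_of_le hm h)
  mul_mem := mul_mem_ord
  one_mem := mono_mem_ord 0 1
  sep := fun x hx => by ext n; exact hx (n + 1) n (by omega)
  complete := fun x N hx => by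
    refine ⟨⟨fun m => ∑ i ∈ range (m - N + 1).toNat, (x i).co m, N, fun n hn => ?_⟩,
      fun n m hm => ?_⟩
    · rw [show (n - N + 1).toNat = 0 by omega]; simp
    · rw [co_sub, co_sum, sub_eq_zero]
      change ∑ i ∈ range (m - N + 1).toNat, (x i).co m = _
      refine sum_subset (fun i hi => ?_) fun i _ hi => hx i m ?_
      · rw [mem_range] at hi ⊢; omega
      · rw [mem_range] at hi; omega

/-- constants -/
def cst (σ : RingAut A) (q : ℕ) : A →+* Sk A σ q where
  toFun := mono σ q 0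
  map_one' := rfl
  map_mul' a b := by rw [mono_mul_mono]; simp
  map_zero' := by ext n; simp
  map_add' a b := by ext n; simp only [co_mono, co_add]; split_ifs <;> simp

@[simp] lemma co_cst (a : A) (n : ℤ) : (cst σ q a).co n = if n = 0 then a else 0 := rfl

lemma map_zpow_comm {B : Type} [Ring B] {τ : RingAut B} (φ : A →+* B)
    (h : ∀ a, φ (σ a) = τ (φ a)) (i : ℤ) (a : A) : φ ((σ ^ i) a) = (τ ^ i) (φ a) := by
  have h' : ∀ a, φ (σ⁻¹ a) = τ⁻¹ (φ a) := fun a => by
    apply τ.injective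
    rw [← h]
    change φ (σ (σ.symm a)) = τ (τ.symm (φ a))
    simp
  induction i using Int.induction_on generalizing a with
  | zero => simp
  | succ i ih => rw [zpow_add_one, zpow_add_one]; change φ ((σ ^ (i : ℤ)) (σ a)) = (τ ^ (i : ℤ)) (τ (φ a)); rw [ih, h]
  | pred i ih => rw [zpow_sub_one, zpow_sub_one]; change φ ((σ ^ (-i : ℤ)) (σ⁻¹ a)) = (τ ^ (-i : ℤ)) (τ⁻¹ (φ a)); rw [ih, h']

/-- functoriality in an equivariant coefficient homomorphism -/
noncomputable def map {B : Type} [Ring B] {τ : RingAut B} {q' : ℕ} (φ : A →+* B)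
    (h : ∀ a, φ (σ a) = τ (φ a)) : Sk A σ q →+* Sk B τ q' where
  toFun f := ⟨fun n => φ (f.co n), by
    obtain ⟨a, ha⟩ := f.bdd; exact ⟨a, fun n hn => by simp [ha n hn]⟩⟩
  map_one' := by ext n; simp only [co_one]; split_ifs <;> simp
  map_zero' := by ext n; simp
  map_add' f g := by ext n; simp
  map_mul' f g := by
    obtain ⟨a, ha⟩ := f.bdd; obtain ⟨b, hb⟩ := g.bdd
    ext n
    rw [co_mul (a := a) (b := b) (fun n hn => by simp [ha n hn]) (fun n hn => by simp [hb n hn])]
    change φ ((f * g).co n) = _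
    rw [co_mul ha hb, map_sum]
    simp [map_zpow_comm φ h]

@[simp] lemma co_map {B : Type} [Ring B] {τ : RingAut B} {q' : ℕ} (φ : A →+* B)
    (h : ∀ a, φ (σ a) = τ (φ a)) (f : Sk A σ q) (n : ℤ) :
    (map φ h f : Sk B τ q').co n = φ (f.co n) := rfl

/-- a series whose leading coefficient is a unit is a unit, with inverse of opposite order -/
lemma exists_inv {f : Sk A σ q} {m : ℤ} (hf : f ∈ ord σ q m) (hu : IsUnit (f.co m)) :
    ∃ g ∈ ord σ q (-m), g * f = 1 ∧ f * g = 1 := by
  obtain ⟨u, hu⟩ := hu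
  set p : Sk A σ q := mono σ q (-m) ((σ ^ (-m)) (↑u⁻¹ : A)) with hp
  have hpo : p ∈ ord σ q (-m) := mono_mem_ord _ _
  have hx : 1 - p * f ∈ (filt σ q).I 1 := by
    intro n hn
    rcases eq_or_lt_of_le (show n ≤ 0 by omega) with rfl | h
    · have := co_mul_lead hpo hf
      rw [neg_add_cancel] at this
      rw [co_sub, this, ← hu]; simp [hp, ← map_mul]
    · have := mul_mem_ord hpo hf n (by omega)
      simp [this, h.ne]
  obtain ⟨y, h1, h2, h3⟩ := (filt σ q).exists_inv hx
  rw [sub_sub_cancel] at h1 h2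
  have hy : y ∈ ord σ q 0 := by
    have := add_mem ((filt σ q).anti (show (0 : ℤ) ≤ 1 by omega) h3) (filt σ q).one_mem
    rw [sub_add_cancel] at this
    exact this
  have hpinv : mono σ q m (u : A) * p = 1 := by
    rw [hp, mono_mul_mono, zpow_apply_zpow]; simp [one_def]
  refine ⟨y * p, by simpa using mul_mem_ord hy hpo, by rw [mul_assoc, h1], ?_⟩
  have hpinv' : p * mono σ q m (u : A) = 1 := by
    rw [hp, mono_mul_mono, ← map_mul]; simp [one_def]
  calc f * (y * p) = mono σ q m (u : A) * (p * f * y) * p := by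
        rw [← mul_assoc, ← mul_assoc, ← mul_assoc, hpinv, one_mul, mul_assoc]
    _ = 1 := by rw [h2, mul_one, hpinv]

/-- a nonzero series has a leading term -/
lemma exists_lead {f : Sk A σ q} (hf : f ≠ 0) : ∃ m, f ∈ ord σ q m ∧ f.co m ≠ 0 := by
  obtain ⟨N, hN⟩ := f.bdd
  have hex : ∃ k : ℕ, f.co (N + k) ≠ 0 := by
    by_contra h
    push Not at h
    refine hf (Sk.ext (funext fun n => ?_))
    by_cases hn : n < N
    · exact hN n hn
    · have := h (n - N).toNat
      rwa [show N + ((n - N).toNat : ℤ) = n by omega] at this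
  classical
  refine ⟨N + Nat.find hex, fun n hn => ?_, Nat.find_spec hex⟩
  by_cases hn' : n < N
  · exact hN n hn'
  · have := Nat.find_min hex (m := (n - N).toNat) (by omega)
    rw [show N + ((n - N).toNat : ℤ) = n by omega] at this
    exact not_not.1 this

instance [Nontrivial A] : Nontrivial (Sk A σ q) :=
  ⟨⟨0, 1, fun h => by simpa using congrArg (fun f : Sk A σ q => f.co 0) h⟩⟩

instance [IsDiv A] : IsDiv (Sk A σ q) where
  nontriv := inferInstance
  unit f hf := by
    obtain ⟨m, h1, h2⟩ := exists_lead hf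
    obtain ⟨g, -, h3, h4⟩ := exists_inv h1 (IsDiv.unit _ h2)
    exact ⟨⟨f, g, h4, h3⟩, rfl⟩

noncomputable instance {k : Type} [CommRing k] : CommRing (Sk k 1 q) :=
  { (inferInstance : Ring (Sk k 1 q)) with
    mul_comm := fun f g => by
      ext n
      rw [co_mul', co_mul', ← finsum_comp_equiv (Equiv.subLeft n)]
      refine finsum_congr fun i => ?_
      simp [mul_comm] }

noncomputable instance {k : Type} [Field k] : Field (Sk k 1 q) :=
  Field.ofIsUnitOrEqZero fun f => (em (f = 0)).symm.imp_left (IsDiv.unit f)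

instance {k : Type} [Ring k] [CharZero k] {σ : RingAut k} : CharZero (Sk k σ q) :=
  ⟨fun m n h => by
    rw [← map_natCast (cst σ q), ← map_natCast (cst σ q)] at h
    have := congrArg (fun f : Sk k σ q => f.co 0) h
    simp only [co_cst, if_true] at this
    exact Nat.cast_injective this⟩

end Sk

end Crest.Agent.KU
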