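import Crest.Agent.KU.Jobs

/-! Job Solve: killing a series by a substitution into two variables. -/

set_option autoImplicit false
set_option linter.unusedSectionVars false

namespace Crest.Agent.KU

open Finset Module Polynomial

namespace Solve

section general

variable {A ι κ : Type} [Ring A]

lemma ord_mono {m n : ℕ} (h : m ≤ n) {f : NC A ι} (hf : f ∈ NC.ordGe A ι n) :
    f ∈ NC.ordGe A ι m := fun w hw => hf w (by omega)

lemma ord_zero (f : NC A ι) : f ∈ NC.ordGe A ι 0 := fun w hw => absurd hw (by omega)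

lemma ord_mul {m n k : ℕ} {f g : NC A ι} (hf : f ∈ NC.ordGe A ι m) (hg : g ∈ NC.ordGe A ι n)
    (h : k ≤ m + n) : f * g ∈ NC.ordGe A ι k := ord_mono h (NC.mul_mem_ordGe hf hg)

lemma co_lead {m n : ℕ} {f g : NC A ι} (hf : f ∈ NC.ordGe A ι m) (hg : g ∈ NC.ordGe A ι n)
    (u v : List ι) (hu : u.length = m) (hv : v.length = n) :
    (f * g).co (u ++ v) = f.co u * g.co v := by
  rw [NC.co_mul, sum_eq_single m]
  · rw [← hu]; simp
  · intro i hi him
    rw [mem_range, List.length_append] at hi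
    by_cases h : i < m
    · rw [hf _ (by simp; omega), zero_mul]
    · rw [hg _ (by simp; omega), mul_zero]
  · intro h
    exact absurd (mem_range.2 (by rw [List.length_append]; omega)) h

lemma X_mul_cons [DecidableEq ι] (i j : ι) (g : NC A ι) (w : List ι) :
    (NC.X i * g).co (j :: w) = if j = i then g.co w else 0 := by
  have h0 : (NC.X i : NC A ι).co [] = 0 := by simp [NC.X, NC.mon]
  rw [NC.mul_cons, h0, zero_mul, zero_add]
  have : NC.der j (NC.X i : NC A ι) = if j = i then 1 else 0 := by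
    ext v
    cases v with
    | nil => split_ifs with h <;> simp [NC.X, NC.mon, h]
    | cons a v => split_ifs with h <;> simp [NC.X, NC.mon]
  rw [this]
  split_ifs <;> simp

lemma expand [Fintype ι] (f : NC A ι) : f = NC.C (f.co []) + ∑ i, NC.X i * NC.der i f := by
  classical
  ext w
  cases w with
  | nil => simp [NC.X, NC.mon]
  | cons j w => simp [X_mul_cons]

/-- `Φ` substitutes `y` -/
structure IsSub (y : ι → NC A κ) (Φ : NC A ι →+* NC A κ) : Prop where
  const : ∀ a, Φ (NC.C a) = NC.C a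
  var : ∀ i, Φ (NC.X i) = y i
  ord : ∀ i, y i ∈ NC.ordGe A κ 1

variable [Fintype ι] {y y' : ι → NC A κ} {Φ Φ' : NC A ι →+* NC A κ}

lemma IsSub.expand (h : IsSub y Φ) (g : NC A ι) :
    Φ g = NC.C (g.co []) + ∑ i, y i * Φ (NC.der i g) := by
  conv_lhs => rw [Solve.expand g]
  simp [map_sum, h.const, h.var]

lemma IsSub.sub_C (h : IsSub y Φ) (g : NC A ι) : Φ g - NC.C (g.co []) ∈ NC.ordGe A κ 1 := by
  rw [h.expand g, add_sub_cancel_left]
  exact sum_mem fun i _ => ord_mul (h.ord i) (ord_zero _) le_rfl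

lemma IsSub.diff (h : IsSub y Φ) (h' : IsSub y' Φ') {e : ℕ}
    (he : ∀ i, y' i - y i ∈ NC.ordGe A κ e) (g : NC A ι) : Φ' g - Φ g ∈ NC.ordGe A κ e := by
  suffices H : ∀ n, n ≤ e → ∀ g, Φ' g - Φ g ∈ NC.ordGe A κ n from H e le_rfl g
  intro n
  induction n with
  | zero => intro _ g; exact ord_zero _
  | succ n ih =>
    intro hn g
    have e1 : Φ' g - Φ g = ∑ i, ((y' i - y i) * Φ' (NC.der i g) +
        y i * (Φ' (NC.der i g) - Φ (NC.der i g))) := by
      rw [h.expand g, h'.expand g, add_sub_add_left_eq_sub, ← sum_sub_distrib]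
      exact sum_congr rfl fun i _ => by noncomm_ring
    rw [e1]
    exact sum_mem fun i _ => add_mem (ord_mul (he i) (ord_zero _) (by omega))
      (ord_mul (h.ord i) (ih (by omega) _) (by omega))

lemma IsSub.expand2 (h : IsSub y Φ) (f : NC A ι) :
    Φ f = NC.C (f.co []) + ∑ i, y i * NC.C (f.co [i]) +
      ∑ i, ∑ j, y i * y j * Φ (NC.der j (NC.der i f)) := by
  rw [h.expand f, add_assoc, ← sum_add_distrib]
  congr 1
  refine sum_congr rfl fun i _ => ?_
  rw [h.expand (NC.der i f), mul_add, mul_sum]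
  simp [mul_assoc]

lemma IsSub.base (h : IsSub y Φ) (f : NC A ι) :
    Φ f - (NC.C (f.co []) + ∑ i, y i * NC.C (f.co [i]) +
      ∑ i, ∑ j, y i * y j * NC.C (f.co [i, j])) ∈ NC.ordGe A κ 3 := by
  rw [h.expand2 f, add_sub_add_left_eq_sub, ← sum_sub_distrib]
  refine sum_mem fun i _ => ?_
  rw [← sum_sub_distrib]
  refine sum_mem fun j _ => ?_
  rw [← mul_sub]
  exact ord_mul (NC.mul_mem_ordGe (h.ord i) (h.ord j)) (h.sub_C (NC.der j (NC.der i f))) le_rfl

lemma IsSub.pert (h : IsSub y Φ) (h' : IsSub y' Φ') {e : ℕ} (h2 : 2 ≤ e) (ε : ι → NC A κ)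
    (hy : ∀ i, y' i = y i + ε i) (he : ∀ i, ε i ∈ NC.ordGe A κ e) (f : NC A ι) :
    Φ' f - Φ f - (∑ i, ε i * NC.C (f.co [i]) +
      ∑ i, ∑ j, (ε i * y j + y i * ε j) * NC.C (f.co [i, j])) ∈ NC.ordGe A κ (e + 2) := by
  have e1 : Φ' f - Φ f - (∑ i, ε i * NC.C (f.co [i]) +
      ∑ i, ∑ j, (ε i * y j + y i * ε j) * NC.C (f.co [i, j])) =
      ∑ i, ∑ j, ((ε i * y j + y i * ε j) * (Φ' (NC.der j (NC.der i f)) - NC.C (f.co [i, j])) +
        ε i * ε j * Φ' (NC.der j (NC.der i f)) +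
        y i * y j * (Φ' (NC.der j (NC.der i f)) - Φ (NC.der j (NC.der i f)))) := by
    rw [h.expand2 f, h'.expand2 f]
    simp only [hy, add_mul, mul_add, mul_sub, sum_add_distrib, sum_sub_distrib]
    abel
  rw [e1]
  refine sum_mem fun i _ => sum_mem fun j _ => add_mem (add_mem ?_ ?_) ?_
  · exact ord_mul (m := e + 1) (add_mem (NC.mul_mem_ordGe (he i) (h.ord j))
      (ord_mul (h.ord i) (he j) (by omega))) (h'.sub_C (NC.der j (NC.der i f))) le_rfl
  · exact ord_mul (NC.mul_mem_ordGe (he i) (he j)) (ord_zero _) (by omega)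
  · exact ord_mul (NC.mul_mem_ordGe (h.ord i) (h.ord j))
      (h.diff h' (fun i => by rw [hy, add_sub_cancel_left]; exact he i) _) (by omega)

/-- the homogeneous series of degree `e` with coefficients `δ` -/
def hom (e : ℕ) (δ : List κ → A) : NC A κ := ⟨fun w => if w.length = e then δ w else 0⟩

lemma hom_ord (e : ℕ) (δ : List κ → A) : hom e δ ∈ NC.ordGe A κ e := fun w hw => by
  simp [hom, hw.ne]

lemma hom_co {e : ℕ} (δ : List κ → A) {w : List κ} (hw : w.length = e) :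
    (hom e δ).co w = δ w := by simp [hom, hw]

lemma hom_co_ne {e : ℕ} (δ : List κ → A) {w : List κ} (hw : w.length ≠ e) :
    (hom e δ).co w = 0 := by simp [hom, hw]

end general

lemma tele {F M : Type} [Field F] [AddCommGroup M] [Module F M] (g : ℕ → M) (d : ℕ) :
    ∑ k ∈ range d, (k : F) • g (k + 1) - ∑ k ∈ range d, (k : F) • g k =
      (d : F) • g d - ∑ k ∈ range d, g (k + 1) := by
  induction d with
  | zero => simp
  | succ d ih =>
    rw [sum_range_succ, sum_range_succ, sum_range_succ, add_sub_add_comm, ih]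
    push_cast
    rw [add_smul, one_smul]
    abel

variable (a : An)

/-- the linear part as a linear map -/
noncomputable abbrev L1 : (a.ι → a.F) →ₗ[a.F] a.D :=
  Fintype.linearCombination a.F fun i => a.B.co [i]

/-- the quadratic part as a bilinear map -/
noncomputable def L2 : (a.ι → a.F) →ₗ[a.F] (a.ι → a.F) →ₗ[a.F] a.D :=
  LinearMap.mk₂ a.F a.B2
    (fun _ _ _ => by simp [An.B2, add_mul, add_smul, sum_add_distrib])
    (fun _ _ _ => by simp [An.B2, smul_sum, mul_assoc, mul_smul])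
    (fun _ _ _ => by simp [An.B2, mul_add, add_smul, sum_add_distrib])
    (fun c v w => by
      simp only [An.B2, smul_sum, Pi.smul_apply, smul_eq_mul, smul_smul]
      exact sum_congr rfl fun i _ => sum_congr rfl fun j _ => by ring_nf)

lemma L2_apply (v w : a.ι → a.F) : L2 a v w = a.B2 v w := rfl

lemma mem_U {u : a.D} : u ∈ a.U ↔ ∃ v, L1 a v = u := by
  rw [An.U, Submodule.mem_span_range_iff_exists_fun]
  simp [Fintype.linearCombination_apply]

/-- the series with coefficients in `D` -/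
noncomputable abbrev up (f : NC a.F (Fin 2)) : NC a.D (Fin 2) := NC.map (algebraMap a.F a.D) f

lemma up_ord {e : ℕ} {f : NC a.F (Fin 2)} (hf : f ∈ NC.ordGe a.F (Fin 2) e) :
    up a f ∈ NC.ordGe a.D (Fin 2) e := fun w hw => by simp [hf w hw]

lemma isSub (hE : JobEv) {ψ : a.ι → NC a.F (Fin 2)} (hψ : ∀ i, ψ i ∈ NC.ordGe a.F (Fin 2) 1) :
    IsSub (fun i => up a (ψ i)) (subPhi a.D ψ) := by
  have := ((hE (ι' := Fin 2) (trivFilt a.D) (RingHom.id a.D)).1 (fun i => up a (ψ i))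
    (fun _ => 1) ⟨fun _ => by simp [trivFilt], fun x i w => (Algebra.commutes _ x).symm,
      fun i w => ?_⟩).1
  · exact ⟨this.const, this.var, fun i => up_ord a (hψ i)⟩
  · cases w with
    | nil => simp [trivFilt, hψ i [] (by simp)]
    | cons j w =>
      have : (1 : ℤ) - ((j :: w).map fun _ => (1 : ℤ)).sum ≤ 0 := by simp
      simp only [trivFilt, this, if_true, AddSubgroup.mem_top]

lemma lin_co (ε : a.ι → NC a.F (Fin 2)) (w : List (Fin 2)) :
    (∑ i, up a (ε i) * NC.C (a.B.co [i])).co w = L1 a fun i => (ε i).co w := by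
  simp [Fintype.linearCombination_apply, Algebra.smul_def]

lemma quad_co {m n : ℕ} (f g : a.ι → NC a.F (Fin 2)) (hf : ∀ i, f i ∈ NC.ordGe a.F (Fin 2) m)
    (hg : ∀ i, g i ∈ NC.ordGe a.F (Fin 2) n) (u v : List (Fin 2)) (hu : u.length = m)
    (hv : v.length = n) :
    (∑ i, ∑ j, up a (f i) * up a (g j) * NC.C (a.B.co [i, j])).co (u ++ v) =
      L2 a (fun i => (f i).co u) fun i => (g i).co v := by
  simp only [NC.co_sum, NC.mul_C_co, L2_apply, An.B2]
  refine sum_congr rfl fun i _ => sum_congr rfl fun j _ => ?_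
  rw [co_lead (up_ord a (hf i)) (up_ord a (hg j)) u v hu hv]
  simp [Algebra.smul_def]

/-- the linear substitution -/
def linψ (e : Fin 2 → a.ι → a.F) : a.ι → NC a.F (Fin 2) := fun i => NC.lin fun t => e t i

lemma linψ_ord (e : Fin 2 → a.ι → a.F) (i : a.ι) : linψ a e i ∈ NC.ordGe a.F (Fin 2) 1 :=
  fun w hw => by
    cases w with
    | nil => simp [linψ]
    | cons _ _ => simp at hw

lemma lin_res (hE : JobEv) (e : Fin 2 → a.ι → a.F) (he : ∀ t, e t ∈ a.V0) :
    subPhi a.D (linψ a e) a.B ∈ NC.ordGe a.D (Fin 2) 2 ∧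
      ∀ s t, (subPhi a.D (linψ a e) a.B).co [s, t] = L2 a (e s) (e t) := by
  have hb := (isSub a hE (linψ_ord a e)).base a.B
  have h0 : a.B.co [] = 0 := a.ord1 [] (by simp)
  have hq : ∑ i, ∑ j, up a (linψ a e i) * up a (linψ a e j) * NC.C (a.B.co [i, j]) ∈
      NC.ordGe a.D (Fin 2) 2 := sum_mem fun i _ => sum_mem fun j _ =>
    ord_mul (NC.mul_mem_ordGe (up_ord a (linψ_ord a e i)) (up_ord a (linψ_ord a e j)))
      (ord_zero _) le_rfl
  constructor
  · intro w hw
    have := hb w (by omega)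
    rw [NC.co_sub, sub_eq_zero, NC.co_add, NC.co_add, lin_co, hq w hw, h0] at this
    rw [this]
    match w, hw with
    | [], _ => simp [linψ, ← Pi.zero_def]
    | [t], _ =>
      have h1 : L1 a (e t) = 0 := he t
      simpa [linψ] using h1
  · intro s t
    have := hb [s, t] (by simp)
    rw [NC.co_sub, sub_eq_zero, NC.co_add, NC.co_add, lin_co, h0] at this
    have h2 := quad_co a _ _ (linψ_ord a e) (linψ_ord a e) [s] [t] rfl rfl
    rw [List.singleton_append] at h2
    rw [this, h2]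
    simp [linψ, ← Pi.zero_def]

lemma quad_facts (hE : JobEv) (hR : a.R1) {v v' : a.ι → a.F} (hv : v ∈ a.V0) (hv' : v' ∈ a.V0) :
    L2 a v v' ∈ a.Y ∧ L2 a v v' + L2 a v' v ∈ a.U := by
  obtain ⟨h1, h2⟩ := lin_res a hE ![v, v'] (fun t => by fin_cases t <;> assumption)
  obtain ⟨h3, h4⟩ := hR _ (linψ_ord a _) 2 h1 [0, 1] rfl
  rw [h2] at h3
  have e : ∑ i ∈ range 2, (subPhi a.D (linψ a ![v, v']) a.B).co (List.rotate [0, 1] i) =
      L2 a v v' + L2 a v' v := by
    rw [sum_range_succ, sum_range_one]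
    change (subPhi a.D (linψ a ![v, v']) a.B).co [0, 1] +
      (subPhi a.D (linψ a ![v, v']) a.B).co [1, 0] = _
    rw [h2, h2]; rfl
  rw [e] at h4
  exact ⟨h3, h4⟩

/-- the perturbation formula for the residual -/
lemma res_pert (hE : JobEv) {ψ ε : a.ι → NC a.F (Fin 2)} (hψ : ∀ i, ψ i ∈ NC.ordGe a.F (Fin 2) 1)
    {e : ℕ} (h2 : 2 ≤ e) (he : ∀ i, ε i ∈ NC.ordGe a.F (Fin 2) e) (w : List (Fin 2))
    (hw : w.length < e + 2) :
    (subPhi a.D (ψ + ε) a.B).co w = (subPhi a.D ψ a.B).co w + (L1 a fun i => (ε i).co w) +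
      ((∑ i, ∑ j, up a (ε i) * up a (ψ j) * NC.C (a.B.co [i, j])).co w +
        (∑ i, ∑ j, up a (ψ i) * up a (ε j) * NC.C (a.B.co [i, j])).co w) := by
  have := (isSub a hE hψ).pert (isSub a hE (ψ := ψ + ε) fun i =>
    add_mem (hψ i) (ord_mono (by omega) (he i))) h2 (fun i => up a (ε i))
    (fun i => by simp [up]) (fun i => up_ord a (he i)) a.B w hw
  rw [NC.co_sub, NC.co_sub, NC.co_add, lin_co, sub_sub, sub_eq_zero] at this
  rw [this, add_assoc, ← NC.co_add (∑ i, _), ← sum_add_distrib]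
  simp only [add_mul, sum_add_distrib]

lemma quad_low {ψ ε : a.ι → NC a.F (Fin 2)} (hψ : ∀ i, ψ i ∈ NC.ordGe a.F (Fin 2) 1)
    {e : ℕ} (he : ∀ i, ε i ∈ NC.ordGe a.F (Fin 2) e) (w : List (Fin 2)) (hw : w.length < e + 1) :
    (∑ i, ∑ j, up a (ε i) * up a (ψ j) * NC.C (a.B.co [i, j])).co w +
        (∑ i, ∑ j, up a (ψ i) * up a (ε j) * NC.C (a.B.co [i, j])).co w = 0 := by
  have h1 : ∑ i, ∑ j, up a (ε i) * up a (ψ j) * NC.C (a.B.co [i, j]) ∈
      NC.ordGe a.D (Fin 2) (e + 1) := sum_mem fun i _ => sum_mem fun j _ =>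
    ord_mul (NC.mul_mem_ordGe (up_ord a (he i)) (up_ord a (hψ j))) (ord_zero _) le_rfl
  have h2 : ∑ i, ∑ j, up a (ψ i) * up a (ε j) * NC.C (a.B.co [i, j]) ∈
      NC.ordGe a.D (Fin 2) (e + 1) := sum_mem fun i _ => sum_mem fun j _ =>
    ord_mul (NC.mul_mem_ordGe (up_ord a (hψ i)) (up_ord a (he j))) (ord_zero _) (by omega)
  rw [h1 w hw, h2 w hw, add_zero]

/-- correction in degree `d` -/
lemma step2 (hE : JobEv) {ψ : a.ι → NC a.F (Fin 2)} (hψ : ∀ i, ψ i ∈ NC.ordGe a.F (Fin 2) 1)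
    {d : ℕ} (hd : 2 ≤ d) (h1 : subPhi a.D ψ a.B ∈ NC.ordGe a.D (Fin 2) d)
    (h2 : ∀ w : List (Fin 2), w.length = d → (subPhi a.D ψ a.B).co w ∈ a.U) :
    ∃ ε : a.ι → NC a.F (Fin 2), (∀ i, ε i ∈ NC.ordGe a.F (Fin 2) d) ∧
      subPhi a.D (ψ + ε) a.B ∈ NC.ordGe a.D (Fin 2) (d + 1) := by
  have : ∀ w : List (Fin 2), ∃ v, w.length = d → L1 a v = -(subPhi a.D ψ a.B).co w := fun w => by
    by_cases hw : w.length = d
    · obtain ⟨v, hv⟩ := (mem_U a).1 (neg_mem (h2 w hw))
      exact ⟨v, fun _ => hv⟩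
    · exact ⟨0, fun h => absurd h hw⟩
  choose v hv using this
  have he : ∀ i, hom d (fun w => v w i) ∈ NC.ordGe a.F (Fin 2) d := fun i => hom_ord _ _
  refine ⟨fun i => hom d fun w => v w i, he, fun w hw => ?_⟩
  rw [res_pert a hE hψ hd he w (by omega), quad_low a hψ he w hw, add_zero]
  by_cases h : w.length = d
  · simp only [hom_co _ h]
    rw [hv w h, add_neg_cancel]
  · simp only [hom_co_ne _ h]
    rw [h1 w (by omega), zero_add, ← Pi.zero_def, map_zero]

/-- correction in degree `d - 1` -/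
lemma step1 (hE : JobEv) (hR : a.R1) {e : Fin 2 → a.ι → a.F} (he : ∀ t, e t ∈ a.V0)
    (hs : ∀ t : Fin 2 → a.D, (∀ s, t s ∈ a.Y) → ∃ δ ∈ a.V0, ∀ s, L2 a (e s) δ - t s ∈ a.U)
    {ψ : a.ι → NC a.F (Fin 2)} (hψ : ∀ i, ψ i ∈ NC.ordGe a.F (Fin 2) 1)
    (hl : ∀ t i, (ψ i).co [t] = e t i) {n : ℕ} (hn : 2 ≤ n)
    (h1 : subPhi a.D ψ a.B ∈ NC.ordGe a.D (Fin 2) (n + 1)) :
    ∃ ε : a.ι → NC a.F (Fin 2), (∀ i, ε i ∈ NC.ordGe a.F (Fin 2) n) ∧
      subPhi a.D (ψ + ε) a.B ∈ NC.ordGe a.D (Fin 2) (n + 1) ∧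
      ∀ w : List (Fin 2), w.length = n + 1 → (subPhi a.D (ψ + ε) a.B).co w ∈ a.U := by
  set r := subPhi a.D ψ a.B with hr
  have hRr := hR ψ hψ (n + 1) h1
  set c : a.F := -((n + 1 : ℕ) : a.F)⁻¹ with hc
  set ρ : List (Fin 2) → a.D := fun w =>
    c • ∑ k ∈ range (n + 1), (k : a.F) • r.co (w.rotate (k + 1)) with hρ
  have hρY : ∀ w : List (Fin 2), w.length = n + 1 → ρ w ∈ a.Y := fun w hw =>
    Submodule.smul_mem _ _ (Submodule.sum_mem _ fun k _ => Submodule.smul_mem _ _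
      (hRr _ (by simpa using hw)).1)
  have hρU : ∀ w : List (Fin 2), w.length = n + 1 → r.co w + ρ w - ρ (w.rotate n) ∈ a.U := by
    intro w hw
    have e1 : ∀ k, (w.rotate n).rotate (k + 1) = w.rotate k := fun k => by
      rw [List.rotate_rotate, show n + (k + 1) = k + w.length by omega, ← List.rotate_rotate,
        show w.length = (w.rotate k).length by simp, List.rotate_length]
    have e2 : w.rotate (n + 1) = w := by rw [← hw, List.rotate_length]
    have e3 := tele (F := a.F) (fun k => r.co (w.rotate k)) (n + 1)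
    have e4 : ∑ k ∈ range (n + 1), r.co (w.rotate (k + 1)) =
        ∑ k ∈ range (n + 1), r.co (w.rotate k) := by
      rw [sum_range_succ, sum_range_succ' (fun k => r.co (w.rotate k)), e2, List.rotate_zero]
    have hne : ((n + 1 : ℕ) : a.F) ≠ 0 := Nat.cast_ne_zero.2 (by omega)
    have e5 : r.co w + ρ w - ρ (w.rotate n) = -c • ∑ k ∈ range (n + 1), r.co (w.rotate k) := by
      simp only [hρ, e1]
      rw [add_sub_assoc, ← smul_sub, e3, e4, e2, smul_sub, smul_smul, hc, neg_mul,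
        inv_mul_cancel₀ hne]
      simp
    rw [e5]
    exact Submodule.smul_mem _ _ (hRr w hw).2
  have : ∀ w : List (Fin 2), ∃ δ ∈ a.V0, w.length = n → ∀ s, L2 a (e s) δ - ρ (s :: w) ∈ a.U := by
    intro w
    by_cases hw : w.length = n
    · obtain ⟨δ, h, h'⟩ := hs (fun s => ρ (s :: w)) fun s => hρY _ (by simp [hw])
      exact ⟨δ, h, fun _ => h'⟩
    · exact ⟨0, zero_mem _, fun h => absurd h hw⟩
  choose δ hδ hδ' using this
  have hε : ∀ i, hom n (fun w => δ w i) ∈ NC.ordGe a.F (Fin 2) n := fun i => hom_ord _ _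
  refine ⟨fun i => hom n fun w => δ w i, hε, fun w hw => ?_, fun w hw => ?_⟩
  · rw [res_pert a hE hψ hn hε w (by omega), quad_low a hψ hε w hw, add_zero, h1 w hw, zero_add]
    by_cases h : w.length = n
    · simp only [hom_co _ h]
      exact hδ w
    · simp only [hom_co_ne _ h]
      rw [← Pi.zero_def, map_zero]
  · rw [res_pert a hE hψ hn hε w (by omega)]
    have hne : w ≠ [] := by rintro rfl; simp at hw
    obtain ⟨s, w', hw'⟩ := List.exists_cons_of_ne_nil hne
    obtain ⟨w'', t, hw''⟩ : ∃ w'' t, w = w'' ++ [t] :=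
      ⟨w.dropLast, w.getLast hne, (List.dropLast_append_getLast hne).symm⟩
    have l1 : w'.length = n := by rw [hw'] at hw; simpa using hw
    have l2 : w''.length = n := by rw [hw''] at hw; simpa using hw
    have q1 := quad_co a _ _ hε hψ w'' [t] l2 rfl
    have q2 := quad_co a _ _ hψ hε [s] w' rfl l1
    rw [← hw''] at q1
    rw [List.singleton_append, ← hw'] at q2
    rw [q1, q2]
    simp only [hom_co _ l1, hom_co _ l2, hom_co_ne _ (show w.length ≠ n by omega), hl]
    rw [← Pi.zero_def, map_zero, add_zero]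
    have e1 : w.rotate n = t :: w'' := by
      rw [hw'', ← l2, List.rotate_append_length_eq]; rfl
    have u1 := hρU w hw
    have u2 := hδ' w' l1 s
    have u3 := hδ' w'' l2 t
    have u4 := (quad_facts a hE hR (hδ w'') (he t)).2
    rw [← hw'] at u2
    rw [e1] at u1
    have := sub_mem (add_mem (add_mem u1 u2) u4) u3
    convert this using 1
    change r.co w + (L2 a (δ w'') (e t) + L2 a (e s) (δ w')) = _
    abel

/-- the choice of the linear part -/
lemma choose_pair (hE : JobEv) (hI : JobInv) (hc : a.Comm) (hb : a.B1) (hR : a.R1)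
    (hJ : a.Jr (a.h + 2)) (h2 : 2 ≤ finrank a.F a.V0) :
    ∃ e : Fin 2 → a.ι → a.F, (∀ t, e t ∈ a.V0) ∧ LinearIndependent a.F e ∧
      L2 a (e 0) (e 1) ∈ a.U ∧
      ∀ t : Fin 2 → a.D, (∀ s, t s ∈ a.Y) → ∃ δ ∈ a.V0, ∀ s, L2 a (e s) δ - t s ∈ a.U := by
  obtain ⟨-, -, hU, -, hY, hUY, -⟩ := hI.1 a hc hb
  by_cases hUY' : a.Y ≤ a.U
  · obtain ⟨v, hv⟩ := exists_linearIndependent_of_le_finrank h2
    refine ⟨fun t => v t, fun t => (v t).2, hv.map' a.V0.subtype (Submodule.ker_subtype _),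
      hUY' (quad_facts a hE hR (v 0).2 (v 1).2).1, fun t ht => ⟨0, zero_mem _, fun s => ?_⟩⟩
    rw [map_zero, zero_sub]
    exact neg_mem (hUY' (ht s))
  obtain ⟨y₀, hy₀, hy₀'⟩ := SetLike.not_le_iff_exists.1 hUY'
  obtain ⟨e, he, hfin⟩ := hJ
  have hform : ∀ v ∈ a.JS e, ∃ δ ∈ a.V0, ∀ s, L2 a (e s) δ - v s ∈ a.U := by
    intro v hv
    induction hv using Submodule.span_induction with
    | mem v hv =>
      obtain ⟨δ, hδ, u, hu, h⟩ := hv
      refine ⟨δ, hδ, fun s => ?_⟩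
      rw [h, L2_apply, sub_add_cancel_left]
      exact neg_mem (hu s)
    | zero => exact ⟨0, zero_mem _, fun s => by simp⟩
    | add v w _ _ hv hw =>
      obtain ⟨δ, hδ, h⟩ := hv
      obtain ⟨δ', hδ', h'⟩ := hw
      refine ⟨δ + δ', add_mem hδ hδ', fun s => ?_⟩
      rw [map_add, Pi.add_apply, add_sub_add_comm]
      exact add_mem (h s) (h' s)
    | smul c v _ hv =>
      obtain ⟨δ, hδ, h⟩ := hv
      refine ⟨c • δ, Submodule.smul_mem _ _ hδ, fun s => ?_⟩
      rw [map_smul, Pi.smul_apply, ← smul_sub]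
      exact Submodule.smul_mem _ _ (h s)
  let G : (Fin (a.h + 2) → a.Y) →ₗ[a.F] (Fin (a.h + 2) → a.D) := a.Y.subtype.compLeft _
  have hle : a.JS e ≤ LinearMap.range G := by
    refine Submodule.span_le.2 ?_
    rintro v ⟨δ, hδ, u, hu, h⟩
    refine ⟨fun t => ⟨v t, ?_⟩, rfl⟩
    rw [h]
    exact add_mem (quad_facts a hE hR (he t) hδ).1 (hUY (hu t))
  have hrk : finrank a.F (LinearMap.range G) ≤ finrank a.F (a.JS e) := by
    refine (LinearMap.finrank_range_le G).trans (le_of_eq_of_le ?_ hfin)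
    rw [Module.finrank_pi_fintype]
    simp [hY]
  have heq := Submodule.eq_of_le_of_finrank_le hle hrk
  have hsurj : ∀ t : Fin (a.h + 2) → a.D, (∀ s, t s ∈ a.Y) →
      ∃ δ ∈ a.V0, ∀ s, L2 a (e s) δ - t s ∈ a.U := fun t ht =>
    hform t (heq ▸ ⟨fun s => ⟨t s, ht s⟩, rfl⟩)
  let K : (Fin (a.h + 1) → a.F) →ₗ[a.F] (a.ι → a.F) :=
    Fintype.linearCombination a.F fun s => e s.succ
  have hK : ∀ c, K c ∈ a.V0 := fun c => by
    simp only [K, Fintype.linearCombination_apply]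
    exact Submodule.sum_mem _ fun s _ => Submodule.smul_mem _ _ (he _)
  let H : ((Fin (a.h + 1) → a.F) × a.U) →ₗ[a.F] a.Y :=
    LinearMap.codRestrict a.Y ((L2 a (e 0) ∘ₗ K).coprod a.U.subtype) fun p =>
      add_mem (quad_facts a hE hR (he 0) (hK p.1)).1 (hUY p.2.2)
  have hker : LinearMap.ker H ≠ ⊥ := by
    refine LinearMap.ker_ne_bot_of_finrank_lt ?_
    rw [hY, Module.finrank_prod, Module.finrank_fin_fun]
    unfold An.h
    omega
  obtain ⟨⟨c, u⟩, hp, hp0⟩ := (Submodule.ne_bot_iff _).1 hker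
  have hp' : L2 a (e 0) (K c) + u = 0 := congrArg Subtype.val hp
  have hc0 : c ≠ 0 := by
    rintro rfl
    rw [map_zero, map_zero, zero_add] at hp'
    exact hp0 (Prod.ext rfl (Subtype.ext hp'))
  obtain ⟨s₀, hs₀⟩ := Function.ne_iff.1 hc0
  have hs₀' : c s₀ ≠ 0 := hs₀
  have hpair : ∀ t : Fin 2 → a.D, (∀ s, t s ∈ a.Y) →
      ∃ δ ∈ a.V0, ∀ s, L2 a (![e 0, K c] s) δ - t s ∈ a.U := by
    intro t ht
    obtain ⟨δ, hδ, h⟩ := hsurj (Fin.cons (t 0) (Pi.single s₀ ((c s₀)⁻¹ • t 1))) fun s => by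
      refine Fin.cases (ht 0) (fun s => ?_) s
      rw [Fin.cons_succ]
      by_cases hs : s = s₀
      · subst hs; simpa using Submodule.smul_mem _ _ (ht 1)
      · simp [hs]
    refine ⟨δ, hδ, fun s => ?_⟩
    fin_cases s
    · exact h 0
    · have e1 : L2 a (K c) δ - t 1 = ∑ s, c s • (L2 a (e s.succ) δ -
          (Pi.single s₀ ((c s₀)⁻¹ • t 1) : Fin (a.h + 1) → a.D) s) := by
        simp only [smul_sub, sum_sub_distrib, K, Fintype.linearCombination_apply, map_sum,
          map_smul, LinearMap.sum_apply, LinearMap.smul_apply]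
        rw [sum_eq_single s₀ (f := fun s => c s •
          (Pi.single s₀ ((c s₀)⁻¹ • t 1) : Fin (a.h + 1) → a.D) s)]
        · simp [smul_smul, hs₀']
        · intro s _ hs; simp [hs]
        · simp
      change L2 a (K c) δ - t 1 ∈ a.U
      rw [e1]
      exact Submodule.sum_mem _ fun s _ => Submodule.smul_mem _ _ (h s.succ)
  refine ⟨![e 0, K c], fun t => by fin_cases t; exacts [he 0, hK c], ?_, ?_, hpair⟩
  · rw [Fintype.linearIndependent_iff]
    intro g hg s
    by_contra hgs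
    obtain ⟨δ, -, h⟩ := hpair (Pi.single s y₀) fun s' => by
      by_cases hs : s' = s
      · subst hs; simpa using hy₀
      · simp [hs]
    have h3 : ∑ s', g s' • (L2 a (![e 0, K c] s') δ - (Pi.single s y₀ : Fin 2 → a.D) s') ∈ a.U :=
      Submodule.sum_mem _ fun s' _ => Submodule.smul_mem _ _ (h s')
    have h4 : ∑ s', g s' • L2 a (![e 0, K c] s') δ = 0 := by
      have := congrArg (fun v => L2 a v δ) hg
      simpa only [map_sum, map_smul, LinearMap.sum_apply, LinearMap.smul_apply, map_zero,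
        LinearMap.zero_apply] using this
    have h5 : ∑ s', g s' • (Pi.single s y₀ : Fin 2 → a.D) s' = g s • y₀ := by
      rw [sum_eq_single s]
      · simp
      · intro s' _ hs; simp [hs]
      · simp
    simp only [smul_sub, sum_sub_distrib, h4, h5, zero_sub, neg_mem_iff] at h3
    exact hy₀' ((Submodule.smul_mem_iff _ hgs).1 h3)
  · change L2 a (e 0) (K c) ∈ a.U
    rw [eq_neg_of_add_eq_zero_left hp']
    exact neg_mem u.2

end Solve

open Solve in
theorem jobSolve (hE : JobEv) (hN : JobNCB) (hI : JobInv) : JobSolve := by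
  intro a hc hb hR hJ h2
  obtain ⟨e, he, hli, h01, hs⟩ := choose_pair a hE hI hc hb hR hJ h2
  let P : ℕ → (a.ι → NC a.F (Fin 2)) → Prop := fun n ψ =>
    (∀ i, ψ i - linψ a e i ∈ NC.ordGe a.F (Fin 2) 2) ∧
      subPhi a.D ψ a.B ∈ NC.ordGe a.D (Fin 2) (n + 3)
  have hord : ∀ ψ : a.ι → NC a.F (Fin 2), (∀ i, ψ i - linψ a e i ∈ NC.ordGe a.F (Fin 2) 2) →
      (∀ i, ψ i ∈ NC.ordGe a.F (Fin 2) 1) ∧ ∀ t i, (ψ i).co [t] = e t i := fun ψ h => by
    refine ⟨fun i => ?_, fun t i => ?_⟩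
    · have := add_mem (ord_mono (by omega : 1 ≤ 2) (h i)) (linψ_ord a e i)
      rwa [sub_add_cancel] at this
    · have := h i [t] (by simp)
      rw [NC.co_sub, sub_eq_zero] at this
      rw [this]; rfl
  have h0 : ∃ ψ, P 0 ψ := by
    obtain ⟨h1, h3⟩ := lin_res a hE e he
    obtain ⟨ε, hε, h⟩ := step2 a hE (linψ_ord a e) le_rfl h1 fun w hw => by
      match w, hw with
      | [s, t], _ =>
        rw [h3]
        have hd : ∀ t, L2 a (e t) (e t) ∈ a.U := fun t => by
          have := (quad_facts a hE hR (he t) (he t)).2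
          rw [← two_smul a.F] at this
          exact (Submodule.smul_mem_iff _ two_ne_zero).1 this
        fin_cases s <;> fin_cases t
        · exact hd 0
        · exact h01
        · have := sub_mem (quad_facts a hE hR (he 0) (he 1)).2 h01
          rwa [add_sub_cancel_left] at this
        · exact hd 1
    exact ⟨_, fun i => by simpa using hε i, h⟩
  have hstep : ∀ n ψ, P n ψ → ∃ ψ', P (n + 1) ψ' ∧ ∀ i, ψ' i - ψ i ∈ NC.ordGe a.F (Fin 2) n := by
    rintro n ψ ⟨h1, h3⟩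
    obtain ⟨o1, o2⟩ := hord ψ h1
    obtain ⟨ε, hε, h4, h5⟩ := step1 a hE hR he hs o1 o2 (n := n + 2) (by omega) h3
    obtain ⟨ε', hε', h6⟩ := step2 a hE (ψ := ψ + ε)
      (fun i => add_mem (o1 i) (ord_mono (by omega) (hε i))) (by omega) h4 h5
    refine ⟨ψ + ε + ε', ⟨fun i => ?_, h6⟩, fun i => ?_⟩
    · have := add_mem (add_mem (h1 i) (ord_mono (by omega : 2 ≤ n + 2) (hε i)))
        (ord_mono (by omega : 2 ≤ n + 2 + 1) (hε' i))
      convert this using 1
      simp only [Pi.add_apply]; abel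
    · have := add_mem (ord_mono (by omega : n ≤ n + 2) (hε i))
        (ord_mono (by omega : n ≤ n + 2 + 1) (hε' i))
      convert this using 1
      simp only [Pi.add_apply]; abel
  choose! nx hnx using hstep
  obtain ⟨ψ₀, hψ₀⟩ := h0
  let u : ℕ → a.ι → NC a.F (Fin 2) := fun n => Nat.rec ψ₀ (fun n ψ => nx n ψ) n
  have hu : ∀ n, P n (u n) := fun n => by
    induction n with
    | zero => exact hψ₀
    | succ n ih => exact (hnx n _ ih).1
  have hlim := fun i => (hN (A := a.F) (ι := Fin 2)).2.2.2.2.1 (fun n => u n i)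
    fun n => (hnx n _ (hu n)).2 i
  choose ψ hψ using hlim
  have h1 : ∀ i, ψ i - linψ a e i ∈ NC.ordGe a.F (Fin 2) 2 := fun i => by
    have := add_mem (hψ i 2) ((hu 2).1 i)
    rwa [sub_add_sub_cancel] at this
  obtain ⟨o1, o2⟩ := hord ψ h1
  refine ⟨ψ, o1, by simpa only [o2] using hli, ?_⟩
  ext w
  have h3 := (isSub a hE (hord _ (hu (w.length + 1)).1).1).diff (isSub a hE o1)
    (e := w.length + 1) (fun i => by rw [← map_sub]; exact up_ord a (hψ i _)) a.B w (by omega)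
  rw [NC.co_sub, (hu (w.length + 1)).2 w (by omega), sub_zero] at h3
  exact h3

end Crest.Agent.KU
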