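import Crest.Agent.KU.Ech

/-! Row 180, job Spl: the splitting homomorphisms. -/

set_option autoImplicit false
set_option linter.unusedSectionVars false

namespace Crest.Agent.KU
namespace SplAux

open Finset Module

theorem li_transpose {K I J : Type} [Field K] [Fintype I] [Fintype J] (M : I → J → K)
    (hc : Fintype.card I = Fintype.card J) (h : LinearIndependent K M) :
    LinearIndependent K fun j i => M i j := by
  classical
  let e : I ≃ J := Fintype.equivOfCardEq hc
  let N : Matrix I I K := Matrix.of fun i i' => M i (e i')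
  have h1 : LinearIndependent K N.row :=
    h.map' (LinearEquiv.funCongrLeft K K e).toLinearMap (LinearEquiv.ker _)
  have h2 := Matrix.linearIndependent_cols_iff_isUnit.2
    (Matrix.linearIndependent_rows_iff_isUnit.1 h1)
  have h3 := h2.comp e.symm e.symm.injective
  convert h3 using 1
  funext j i
  simp [N, Matrix.col]

theorem li_tensor {K I I' J J' : Type} [Field K] [Fintype I] [Fintype I'] (V : I → J → K)
    (W : I' → J' → K) (hV : LinearIndependent K V) (hW : LinearIndependent K W) :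
    LinearIndependent K fun (t : I × I') (j : J) (j' : J') => V t.1 j * W t.2 j' := by
  refine Fintype.linearIndependent_iff.2 fun c hc t => ?_
  have h1 : ∀ j i', ∑ i, c (i, i') * V i j = 0 := fun j =>
    Fintype.linearIndependent_iff.1 hW (fun i' => ∑ i, c (i, i') * V i j) (by
      funext j'
      have := congrFun (congrFun hc j) j'
      simp only [Finset.sum_apply, Pi.smul_apply, smul_eq_mul, Pi.zero_apply,
        Fintype.sum_prod_type] at this ⊢
      rw [sum_comm] at this
      simpa [sum_mul, mul_assoc] using this)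
  exact Fintype.linearIndependent_iff.1 hV (fun i => c (i, t.2)) (by
    funext j; simpa using h1 j t.2) t.1

theorem li_vand {K : Type} [Field K] {q : ℕ} [NeZero q] (x : ZMod q → K)
    (hx : Function.Injective x) : LinearIndependent K fun (r : ZMod q) j => x j ^ r.val := by
  obtain ⟨n, rfl⟩ := Nat.exists_eq_succ_of_ne_zero (NeZero.ne q)
  refine Fintype.linearIndependent_iff.2 fun c hc r => ?_
  have := Matrix.eq_zero_of_forall_index_sum_mul_pow_eq_zero (R := K) (n := n + 1) (f := x)
    (v := c) hx fun j => by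
      have := congrFun hc j
      simp only [Finset.sum_apply, Pi.smul_apply, smul_eq_mul] at this
      exact this
  exact congrFun this r

section sk
variable {k A : Type} [Field k] [Ring A] [Algebra k A] {σ : RingAut A} {q : ℕ} [hP : Per k σ q]

theorem span_mono [NeZero q] {J : Type} [Fintype J] (b : Basis J k A) :
    ⊤ ≤ Submodule.span (La k)
      (Set.range fun p : ZMod q × J => Sk.mono σ q (p.1.val : ℕ) (b p.2)) := fun y _ => by
  rw [EchAux.decomp b y]
  exact Submodule.sum_mem _ fun p _ => Submodule.smul_mem _ _ (Submodule.subset_span ⟨p, rfl⟩)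

/-- the monomial basis -/
noncomputable def skBasis [NeZero q] {J : Type} [Fintype J] (b : Basis J k A) :
    Basis (ZMod q × J) (La k) (Sk A σ q) :=
  Basis.mk (EchAux.li_mono (fun _ => b) fun _ => b.linearIndependent) (span_mono b)

theorem skBasis_apply [NeZero q] {J : Type} [Fintype J] (b : Basis J k A) (p : ZMod q × J) :
    (skBasis b p : Sk A σ q) = Sk.mono σ q (p.1.val : ℕ) (b p.2) := Basis.mk_apply _ _ _

theorem map_smul' {k' B : Type} [Field k'] [Ring B] [Algebra k' B] {τ : RingAut B} [Per k' τ q]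
    (φ : A →+* B) (h : ∀ a, φ (σ a) = τ (φ a)) (ψ : k →+* k')
    (hψ : ∀ c, φ (algebraMap k A c) = algebraMap k' B (ψ c)) (c : La k) (y : Sk A σ q) :
    (Sk.map φ h (c • y) : Sk B τ q) =
      (Sk.map (σ := 1) (τ := 1) ψ (fun _ => rfl) c : La k') • (Sk.map φ h y : Sk B τ q) := by
  rw [Algebra.smul_def, Algebra.smul_def, map_mul]
  congr 1
  refine Sk.ext (funext fun n => ?_)
  rw [Sk.co_map, Sk.co_algebraMap, Sk.co_algebraMap]
  split_ifs
  · rw [hψ]; rfl
  · simp

end sk

theorem map_mono {A B : Type} [Ring A] [Ring B] {σ : RingAut A} {τ : RingAut B} {q q' : ℕ}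
    (φ : A →+* B) (h : ∀ a, φ (σ a) = τ (φ a)) (m : ℤ) (x : A) :
    (Sk.map φ h (Sk.mono σ q m x) : Sk B τ q') = Sk.mono τ q' m (φ x) := by
  refine Sk.ext (funext fun n => ?_)
  simp only [Sk.co_map, Sk.co_mono]
  split_ifs <;> simp

theorem eC_eq {Λ : Type} [Ring Λ] {q : ℕ} (c : Λ) : eC Λ q c = Sk.mono _ _ 0 fun _ => c :=
  map_mono (σ := 1) (τ := shift Λ q) (Pi.constRingHom (ZMod q) Λ) (fun _ => rfl) 0 c

theorem eC_comm {Λ : Type} [CommRing Λ] {q : ℕ} (c : Λ) (y : EE Λ q) : Commute (eC Λ q c) y := by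
  rw [eC_eq]
  refine Sk.ext (funext fun n => ?_)
  rw [Sk.mono_mul_co, Sk.mul_mono_co]
  funext j
  simp [shift_zpow_apply, mul_comm]

variable {F : Type} [Field F]

/-- the image of `s₁` -/
noncomputable def tt (F : Type) [Field F] : Om F :=
  algebraMap (La (AlgebraicClosure F)) (Om F) (Sk.mono 1 0 1 1)

theorem tt_ne : tt F ≠ 0 := by
  refine (map_ne_zero _).2 fun h => ?_
  simpa using congrArg (fun f : La (AlgebraicClosure F) => f.co 1) h

theorem mono_eq {K : Type} [Field K] (r : ℕ) (x : K) :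
    (Sk.mono 1 0 r x : La K) = Sk.mono 1 0 1 1 ^ r * Sk.cst 1 0 x := by
  have : (Sk.mono 1 0 1 1 : La K) ^ r = Sk.mono 1 0 r 1 := by
    induction r with
    | zero => simp [Sk.one_def]
    | succ r ih => rw [pow_succ, ih, Sk.mono_mul_mono]; simp
  rw [this]
  change _ = _ * Sk.mono 1 0 0 x
  rw [Sk.mono_mul_mono]; simp

theorem sc_mono (A : Type) [Ring A] [Algebra F A] (p : Par F) (j r : ℕ) (x : A) :
    (sc A p ^ j) (Sk.mono 1 p.q r x) = Sk.mono 1 p.q r ((p.ζ ^ j) ^ r • x) := by
  ext n
  rw [co_sc_pow, Sk.co_mono, Sk.co_mono]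
  split_ifs with h
  · rw [h, zpow_natCast, ← pow_mul, ← pow_mul, mul_comm]
  · simp

/-- the Vandermonde nodes -/
noncomputable def nd (p : Par F) (j : ZMod p.q) : Om F :=
  om0 F (algebraMap F (AlgebraicClosure F) (p.ζ ^ j.val)) * tt F

theorem nd_inj (p : Par F) : Function.Injective (nd p) := fun i j h => by
  have h1 := (algebraMap F (AlgebraicClosure F)).injective
    ((om0 F).injective (mul_right_cancel₀ tt_ne h))
  exact ZMod.val_injective _ (p.prim.pow_inj (ZMod.val_lt i) (ZMod.val_lt j) h1)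

theorem thL_mono {A : Type} [Ring A] [Algebra F A] (p : Par F) (e : A →ₐ[F] AlgebraicClosure F)
    (j : ZMod p.q) (r : ℕ) (x : A) :
    thL p.q e.toRingHom ((sc A p ^ j.val) (Sk.mono 1 p.q r x)) = nd p j ^ r * om0 F (e x) := by
  rw [sc_mono]
  change algebraMap (La (AlgebraicClosure F)) (Om F) (Sk.map _ _ _) = _
  rw [map_mono, mono_eq, map_mul, map_pow]
  change tt F ^ r * om0 F (e _) = _
  rw [map_smul, Algebra.smul_def, map_mul, map_pow, map_pow, nd]
  ring

theorem thL_qmap {A : Type} [Ring A] [Algebra F A] (p : Par F) (e : A →ₐ[F] AlgebraicClosure F)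
    (j : ℕ) (y : Lq F p.q) :
    thL p.q e.toRingHom ((sc A p ^ j)
      (Sk.map (σ := 1) (τ := 1) (Algebra.ofId F A).toRingHom (fun _ => rfl) y)) =
    thL p.q (algebraMap F (AlgebraicClosure F)) ((sc F p ^ j) y) := by
  change algebraMap (La (AlgebraicClosure F)) (Om F) (Sk.map _ _ _) =
    algebraMap (La (AlgebraicClosure F)) (Om F) (Sk.map _ _ _)
  congr 1
  refine Sk.ext (funext fun n => ?_)
  simp only [Sk.co_map, co_sc_pow]
  change e (_ • algebraMap F A _) = _
  rw [map_smul, e.commutes, smul_eq_mul, map_mul, Algebra.smul_def]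

theorem pow_fix {A : Type} [Ring A] [Algebra F A] (p : Par F) (j : ℕ) (c : La F) :
    (sc A p ^ j) (algebraMap (La F) (Lq A p.q) c) = algebraMap (La F) (Lq A p.q) c := by
  have := Sk.zpow_fix (perSc A p).fix j c
  rwa [zpow_natCast] at this

variable (a : An) (p : Par a.F)

theorem card_emb (hc : a.Comm) : Fintype.card a.Emb = finrank a.F a.D := by
  let := IsDiv.field a.D hc
  convert AlgHom.card a.F a.D (AlgebraicClosure a.F)

theorem li_basis (hc : a.Comm) {n : ℕ} (b : Basis (Fin n) a.F a.D) :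
    LinearIndependent (Om a.F) fun i (k : a.Emb) => om0 a.F (k (b i)) := by
  refine li_transpose (fun (k : a.Emb) i => om0 a.F (k (b i)))
    (by rw [card_emb a hc, finrank_eq_card_basis b]) ?_
  have h := (linearIndependent_monoidHom a.D (Om a.F)).comp
    (fun k : a.Emb => (((om0 a.F).comp k.toRingHom : a.D →+* Om a.F) : a.D →* Om a.F))
    fun k k' h => AlgHom.ext fun x => (om0 a.F).injective (DFunLike.congr_fun h x)
  refine Fintype.linearIndependent_iff.2 fun c hc' =>
    Fintype.linearIndependent_iff.1 h c (funext fun v => ?_)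
  have h1 : ∀ i, ∑ k : a.Emb, c k * om0 a.F (k (b i)) = 0 := fun i => by
    simpa using congrFun hc' i
  have h2 : ∀ k : a.Emb, om0 a.F (k v) = ∑ i, om0 a.F (algebraMap _ _ (b.repr v i)) *
      om0 a.F (k (b i)) := fun k => by
    conv_lhs => rw [← b.sum_repr v]
    simp [Algebra.smul_def]
  simp only [Finset.sum_apply, Pi.smul_apply, smul_eq_mul, Pi.zero_apply, Function.comp]
  change ∑ k : a.Emb, c k * om0 a.F (k v) = 0
  simp only [h2, mul_sum]
  rw [sum_comm]
  refine sum_eq_zero fun i _ => ?_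
  simp only [mul_left_comm (c _), ← mul_sum, h1, mul_zero]

theorem jSh_smul (c : La (La a.F)) (y : Sh a.D p) :
    a.jSh p (c • y) = a.phi1 p c • a.jSh p y := by
  refine map_smul' _ _ _ (fun c => ?_) c y
  funext j k
  change thL p.q k.toRingHom ((sc a.D p ^ j.val) _) = a.th p.q (algebraMap _ _ c)
  rw [pow_fix]
  change algebraMap (La (AlgebraicClosure a.F)) (Om a.F) (Sk.map _ _ _) =
    algebraMap (La (AlgebraicClosure a.F)) (Om a.F) (Sk.map _ _ _)
  congr 1
  refine Sk.ext (funext fun n => ?_)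
  simp only [Sk.co_map, Sk.co_algebraMap]
  split_ifs
  · exact k.commutes _
  · simp

theorem jQ_smul (c : La (La a.F)) (y : Sh a.F p) : a.jQ p (c • y) = a.phi1 p c • a.jQ p y := by
  refine map_smul' _ _ _ (fun c => ?_) c y
  funext j
  change a.th p.q ((sc a.F p ^ j.val) _) = a.th p.q (algebraMap _ _ c)
  rw [pow_fix]

theorem jSh_qMap (y : Sh a.F p) : a.jSh p (qMap a.D p y) =
    mapE p.q (algebraMap (Om a.F) (a.Emb → Om a.F)) (a.jQ p y) := by
  refine Sk.ext (funext fun n => ?_)
  funext j k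
  exact thL_qmap p k j.val (y.co n)

theorem jQ_XQ (ξ : a.ι → Lq a.F p.q) (i : a.ι) :
    a.jQ p (XQ p ξ i) = XE (xOf p (a.th p.q) ξ) i := map_mono _ _ _ _

theorem jSh_shC (d : a.D) : a.jSh p (shC a.D p d) = eC (a.Emb → Om a.F) p.q (a.jL d) := by
  rw [eC_eq]
  refine (map_mono _ _ _ _).trans ?_
  congr 1
  funext j k
  have := thL_mono p k j 0 d
  rw [pow_zero, one_mul] at this
  exact this

end SplAux

open SplAux Module in
theorem jobSpl (hBC : JobBC) (hNat : JobNat) (hB : JobMorB) : JobSpl := by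
  intro a p hc
  let b := Module.finBasis a.F a.D
  have hb := li_basis a hc b
  refine ⟨card_emb a hc, ?_, jSh_smul a p, jQ_smul a p, ?_, ?_, fun ξ => ?_⟩
  · refine (hBC ((om0 a.F).comp (algebraMap a.F (AlgebraicClosure a.F))) a.jL.toAddMonoidHom
      fun c v => ?_).1 b b.span_eq hb
    funext k
    change om0 a.F (k (c • v)) = om0 a.F (algebraMap _ _ c) * om0 a.F (k v)
    rw [map_smul, Algebra.smul_def, map_mul]
  · let B : Basis _ (La (La a.F)) (Sh a.D p) :=
      skBasis (skBasis b : Basis _ (La a.F) (Lq a.D p.q))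
    refine (hBC (a.phi1 p) (a.jSh p).toAddMonoidHom (jSh_smul a p)).1 B B.span_eq ?_
    have h1 := EchAux.li_mono (σ := shift (a.Emb → Om a.F) p.q) (q := p.q) (fun _ => _)
      fun _ => li_tensor _ _ (li_vand (nd p) (nd_inj p)) hb
    refine (funext fun t => ?_ : _ = fun t => (a.jSh p).toAddMonoidHom (B t)) ▸ h1
    change _ = a.jSh p (B t)
    rw [skBasis_apply, skBasis_apply]
    refine Eq.symm ((map_mono _ _ _ _).trans ?_)
    congr 1
    funext j k
    exact thL_mono p k j _ _
  · have h1 := EchAux.li_mono (σ := shift (Om a.F) p.q) (q := p.q) (fun _ => _)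
      fun _ => li_vand (nd p) (nd_inj p)
    have h2 := h1.span_eq_top_of_card_eq_finrank (by
      rw [EchAux.finrank_sk]; simp)
    rw [eq_top_iff, ← h2]
    refine Submodule.span_mono ?_
    rintro _ ⟨t, rfl⟩
    refine ⟨Sk.mono _ _ (t.1.val : ℕ) (Sk.mono 1 p.q (t.2.val : ℕ) 1), ?_⟩
    refine (map_mono _ _ _ _).trans ?_
    congr 1
    funext j
    have := thL_mono p (Algebra.ofId a.F (AlgebraicClosure a.F)) j t.2.val 1
    rw [map_one, map_one, mul_one] at this
    exact this
  · obtain ⟨hpt, hcomm, -, -⟩ := hB.2.2.2.2.2.2.2 p ξ a.D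
    have hX : (fun i => a.jSh p (XA p ξ a.D i)) = up a.Emb (XE (xOf p (a.th p.q) ξ)) :=
      funext fun i => by rw [XA, jSh_qMap, jQ_XQ]; rfl
    have hδ : ∀ δ : a.ι → Sh a.F p, (fun i => a.jSh p (qMap a.D p (δ i))) =
        up a.Emb fun i => a.jQ p (δ i) := fun δ => funext fun i => jSh_qMap a p _
    have hord : ∀ n, ∀ r ∈ (Sk.filt (sc a.D p) p.q).I n,
        a.jSh p r ∈ (Sk.filt (shift (a.Emb → Om a.F) p.q) p.q).I n := fun n r hr m hm => by
      change a.jCo p (r.co m) = 0
      rw [hr m hm, map_zero]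
    have hpt' : Pt (Sk.filt (shift (a.Emb → Om a.F) p.q) p.q) (eC (a.Emb → Om a.F) p.q)
        fun i => a.jSh p (XA p ξ a.D i) :=
      ⟨fun c => by
        rw [eC_eq]
        exact Sk.mono_mem_ord _ _,
      fun c i => eC_comm _ _, fun i => hord _ _ (hpt.mem i), fun r => Sk.exists_ord r⟩
    obtain ⟨h1, h2, h3⟩ := (hNat (Sk.filt (sc a.D p) p.q) _ (shC a.D p) _ a.jL (a.jSh p) hord
      (jSh_shC a p)).2 _ hpt hpt' a.B
    refine ⟨?_, fun δ => ?_, fun δ δ' => ?_⟩
    · rw [hX] at h1; exact h1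
    · have := h2 (fun i => qMap a.D p (δ i)) (fun c i => hcomm _ _) fun c i => eC_comm _ _
      rw [hX, hδ] at this; exact this
    · have := h3 (fun i => qMap a.D p (δ i)) (fun i => qMap a.D p (δ' i)) (fun c i => hcomm _ _)
        (fun c i => hcomm _ _) (fun c i => eC_comm _ _) fun c i => eC_comm _ _
      rw [hX, hδ, hδ] at this; exact this

end Crest.Agent.KU
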