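import Crest.Agent.KU.NC

/-! Row 180: `Sk A σ q` as an algebra over `La k = k((T))`, `T ↦ s ^ q`; the rings `Sh`, `EE`. -/

set_option autoImplicit false
set_option linter.unusedSectionVars false

namespace Crest.Agent.KU

open Finset

/-- the Laurent series field `k((T))` used as a base -/
abbrev La (k : Type) [CommRing k] : Type := Sk k 1 0

/-- `σ` is a `k`-automorphism of period `q > 0` -/
class Per (k : Type) [CommRing k] {A : Type} [Ring A] [Algebra k A] (σ : RingAut A) (q : ℕ) :
    Prop where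
  pos : 0 < q
  fix : ∀ c : k, σ (algebraMap k A c) = algebraMap k A c
  per : σ ^ q = 1

namespace Sk

variable {k A : Type} [CommRing k] [Ring A] [Algebra k A] {σ : RingAut A} {q : ℕ}

lemma zpow_fix (h : ∀ c : k, σ (algebraMap k A c) = algebraMap k A c) (i : ℤ) (c : k) :
    (σ ^ i) (algebraMap k A c) = algebraMap k A c := by
  simpa using (map_zpow_comm (σ := (1 : RingAut k)) (τ := σ) (algebraMap k A)
    (fun a => (h a).symm) i c).symm

lemma zpow_mul_per (h : σ ^ q = 1) (a : ℤ) : σ ^ ((q : ℤ) * a) = 1 := by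
  rw [zpow_mul, zpow_natCast, h, one_zpow]

/-- `T ↦ s ^ q` as a function -/
def embFun (σ : RingAut A) (q : ℕ) (f : La k) : Sk A σ q :=
  ⟨fun n => if (q : ℤ) ∣ n then algebraMap k A (f.co (n / q)) else 0, by
    obtain ⟨N, hN⟩ := f.bdd
    refine ⟨-(q * N.natAbs) - 1, fun n hn => ?_⟩
    split_ifs with h
    · obtain ⟨a, rfl⟩ := h
      rcases Nat.eq_zero_or_pos q with rfl | hq
      · simp at hn
      · rw [Int.mul_ediv_cancel_left _ (by omega), hN a (by
          have : (0 : ℤ) < q := by exact_mod_cast hq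
          by_contra hc
          have h1 : -(N.natAbs : ℤ) ≤ a := by omega
          nlinarith), map_zero]
    · rfl⟩

lemma finsum_mul_of_supp {M : Type} [AddCommMonoid M] (hq : 0 < q) (F : ℤ → M)
    (hF : ∀ i, ¬ (q : ℤ) ∣ i → F i = 0) : ∑ᶠ i, F i = ∑ᶠ a : ℤ, F (q * a) := by
  have hinj : Function.Injective fun a : ℤ => (q : ℤ) * a :=
    mul_right_injective₀ (by exact_mod_cast hq.ne')
  rw [← finsum_mem_range hinj, ← finsum_mem_univ]
  refine finsum_mem_inter_support_eq' _ _ _ fun i hi => ?_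
  simp only [Set.mem_univ, Set.mem_range, true_iff]
  by_contra hc
  exact hi (hF i fun ⟨a, ha⟩ => hc ⟨a, ha.symm⟩)

lemma embFun_mul_co [h : Per k σ q] (f : La k) (y : Sk A σ q) (n : ℤ) :
    (embFun σ q f * y).co n = ∑ᶠ a : ℤ, f.co a • y.co (n - q * a) := by
  have hq : (q : ℤ) ≠ 0 := by exact_mod_cast h.pos.ne'
  rw [co_mul', finsum_mul_of_supp h.pos _ fun i hi => by simp [embFun, hi]]
  refine finsum_congr fun a => ?_
  simp [embFun, zpow_mul_per h.per, Int.mul_ediv_cancel_left _ hq, Algebra.smul_def]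

lemma mul_embFun_co [h : Per k σ q] (f : La k) (y : Sk A σ q) (n : ℤ) :
    (y * embFun σ q f).co n = ∑ᶠ a : ℤ, f.co a • y.co (n - q * a) := by
  have hq : (q : ℤ) ≠ 0 := by exact_mod_cast h.pos.ne'
  rw [co_mul', ← finsum_comp_equiv (Equiv.subLeft n),
    finsum_mul_of_supp h.pos _ fun i hi => by simp [embFun, hi]]
  refine finsum_congr fun a => ?_
  simp [embFun, zpow_fix h.fix, Int.mul_ediv_cancel_left _ hq, Algebra.smul_def, Algebra.commutes]

/-- the central embedding `k((T)) → A((s;σ))`, `T ↦ s ^ q` -/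
noncomputable def emb (k : Type) [CommRing k] {A : Type} [Ring A] [Algebra k A] (σ : RingAut A)
    (q : ℕ) [h : Per k σ q] : La k →+* Sk A σ q where
  toFun := embFun σ q
  map_one' := by
    have hq : (q : ℤ) ≠ 0 := by exact_mod_cast h.pos.ne'
    ext n
    simp only [embFun, co_one]
    by_cases h0 : n = 0
    · simp [h0]
    · split_ifs with h1 h2
      · obtain ⟨a, rfl⟩ := h1
        rw [Int.mul_ediv_cancel_left _ hq] at h2
        simp [h2] at h0
      · simp
      · rfl
  map_zero' := by ext n; simp [embFun]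
  map_add' f g := by ext n; simp only [embFun, co_add]; split_ifs <;> simp
  map_mul' f g := by
    have hq : (q : ℤ) ≠ 0 := by exact_mod_cast h.pos.ne'
    ext n
    rw [embFun_mul_co]
    by_cases h1 : (q : ℤ) ∣ n
    · obtain ⟨b, rfl⟩ := h1
      obtain ⟨x, hx⟩ := f.bdd; obtain ⟨y, hy⟩ := g.bdd
      have e : ∀ a : ℤ, (embFun σ q g).co (q * b - q * a) = algebraMap k A (g.co (b - a)) :=
        fun a => by
          rw [← mul_sub]; simp [embFun, Int.mul_ediv_cancel_left _ hq]
      simp only [e]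
      rw [finsum_eq_sum_of_support_subset (s := Icc x (b - y)) _ fun i hi => by
        rw [Function.mem_support] at hi
        simp only [coe_Icc, Set.mem_Icc]
        constructor
        · by_contra hc; exact hi (by simp [hx i (by omega)])
        · by_contra hc; exact hi (by simp [hy (b - i) (by omega)])]
      simp [embFun, Int.mul_ediv_cancel_left _ hq, co_mul hx hy, Algebra.smul_def]
    · have e : ∀ a : ℤ, (embFun σ q g).co (n - q * a) = 0 := fun a => by
        have : ¬ (q : ℤ) ∣ n - q * a := fun hd => h1 (by simpa using dvd_add hd (dvd_mul_right _ a))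
        simp [embFun, this]
      simp only [e, smul_zero, finsum_zero]
      simp [embFun, h1]

noncomputable instance algebraLa [h : Per k σ q] : Algebra (La k) (Sk A σ q) :=
  (emb k σ q).toAlgebra' fun f y => by
    ext n
    exact (embFun_mul_co f y n).trans (mul_embFun_co f y n).symm

lemma algebraMap_eq [Per k σ q] : algebraMap (La k) (Sk A σ q) = emb k σ q := rfl

lemma co_algebraMap [Per k σ q] (f : La k) (n : ℤ) : (algebraMap (La k) (Sk A σ q) f).co n =
    if (q : ℤ) ∣ n then algebraMap k A (f.co (n / q)) else 0 := rfl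

lemma co_smul [Per k σ q] (f : La k) (y : Sk A σ q) (n : ℤ) :
    (f • y).co n = ∑ᶠ a : ℤ, f.co a • y.co (n - q * a) := embFun_mul_co f y n

end Sk

instance perOne (k A : Type) [CommRing k] [Ring A] [Algebra k A] (q : ℕ) [NeZero q] :
    Per k (1 : RingAut A) q := ⟨NeZero.pos q, fun _ => rfl, one_pow q⟩

/-- commutative Laurent series `A((s))`, an algebra over `k((s ^ q))` -/
abbrev Lq (A : Type) [Ring A] (q : ℕ) : Type := Sk A 1 q

/-- extension parameters: a primitive `q`-th root of unity -/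
structure Par (F : Type) [Field F] where
  q : ℕ
  [ne : NeZero q]
  ζ : F
  prim : IsPrimitiveRoot ζ q

attribute [instance] Par.ne

section sc

variable {F : Type} [Field F] (A : Type) [Ring A] [Algebra F A]

/-- `s₁ ↦ ζ s₁` as a ring homomorphism -/
noncomputable def scHom (q : ℕ) (ζ : F) (hζ : ζ ≠ 0) : Lq A q →+* Lq A q where
  toFun f := ⟨fun n => ζ ^ n • f.co n, by
    obtain ⟨a, ha⟩ := f.bdd; exact ⟨a, fun n hn => by simp [ha n hn]⟩⟩
  map_one' := by ext n; simp only [Sk.co_one]; split_ifs with h <;> simp [h]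
  map_zero' := by ext n; simp
  map_add' f g := by ext n; simp
  map_mul' f g := by
    obtain ⟨a, ha⟩ := f.bdd; obtain ⟨b, hb⟩ := g.bdd
    ext n
    rw [Sk.co_mul (a := a) (b := b) (fun n hn => by simp [ha n hn])
      (fun n hn => by simp [hb n hn])]
    change ζ ^ n • (f * g).co n = _
    rw [Sk.co_mul ha hb, Finset.smul_sum]
    refine sum_congr rfl fun i _ => ?_
    simp [smul_smul, ← zpow_add₀ hζ]

/-- the automorphism `s₁ ↦ ζ s₁` of `A((s₁))` -/
noncomputable def sc (p : Par F) : RingAut (Lq A p.q) :=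
  have hζ : p.ζ ≠ 0 := p.prim.ne_zero (NeZero.ne p.q)
  RingEquiv.ofRingHom (scHom A p.q p.ζ hζ) (scHom A p.q p.ζ⁻¹ (inv_ne_zero hζ))
    (by ext f n; simp [scHom, smul_smul, zpow_ne_zero n hζ])
    (by ext f n; simp [scHom, smul_smul, zpow_ne_zero n hζ])

@[simp] lemma co_sc (p : Par F) (f : Lq A p.q) (n : ℤ) : (sc A p f).co n = p.ζ ^ n • f.co n := rfl

lemma co_sc_pow (p : Par F) (m : ℕ) (f : Lq A p.q) (n : ℤ) :
    ((sc A p ^ m) f).co n = (p.ζ ^ n) ^ m • f.co n := by
  induction m generalizing f with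
  | zero => simp
  | succ m ih =>
    rw [pow_succ, pow_succ]
    change ((sc A p ^ m) (sc A p f)).co n = _
    rw [ih, co_sc, smul_smul]

instance perSc (p : Par F) : Per (La F) (sc A p) p.q where
  pos := NeZero.pos _
  fix c := by
    ext n
    rw [co_sc, Sk.co_algebraMap]
    split_ifs with h
    · obtain ⟨a, rfl⟩ := h
      rw [zpow_mul, zpow_natCast, p.prim.pow_eq_one, one_zpow, one_smul]
    · simp
  per := by
    ext f n
    rw [co_sc_pow, ← zpow_natCast, ← zpow_mul, mul_comm, zpow_mul, zpow_natCast,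
      p.prim.pow_eq_one, one_zpow, one_smul]
    rfl

/-- `A♯ = A((s₁))((s; s₁ ↦ ζ s₁))`, an algebra over `F' = La (La F)` -/
abbrev Sh (p : Par F) : Type := Sk (Lq A p.q) (sc A p) p.q

/-- constants `A → A♯` -/
noncomputable def shC (p : Par F) : A →+* Sh A p :=
  (Sk.cst (sc A p) p.q).comp (Sk.cst 1 p.q)

variable {A} in
/-- functoriality of `♯` -/
noncomputable def shMap {B : Type} [Ring B] [Algebra F B] (p : Par F) (i : A →ₐ[F] B) :
    Sh A p →+* Sh B p :=
  Sk.map (Sk.map (σ := 1) (τ := 1) i.toRingHom fun _ => rfl) fun f => by ext n; simp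

/-- `Q = F♯ → A♯` -/
noncomputable def qMap (p : Par F) : Sh F p →+* Sh A p := shMap p (Algebra.ofId F A)

end sc

/-- `F → F' = F((a))((T))` -/
noncomputable def toLa2 (F : Type) [Field F] : F →+* La (La F) := (Sk.cst 1 0).comp (Sk.cst 1 0)

section EE

variable (Λ : Type) [Ring Λ] (q : ℕ)

/-- the cyclic shift of `ZMod q → Λ` : `(shift g) j = g (j + 1)` -/
def shift : RingAut (ZMod q → Λ) where
  toFun g := fun j => g (j + 1)
  invFun g := fun j => g (j - 1)
  left_inv g := by ext j; simp
  right_inv g := by ext j; simp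
  map_mul' _ _ := rfl
  map_add' _ _ := rfl

@[simp] lemma shift_apply (g : ZMod q → Λ) (j : ZMod q) : shift Λ q g j = g (j + 1) := rfl

lemma shift_zpow_apply (i : ℤ) (g : ZMod q → Λ) (j : ZMod q) :
    (shift Λ q ^ i) g j = g (j + i) := by
  induction i using Int.induction_on generalizing g with
  | zero => simp
  | succ i ih =>
    rw [zpow_add_one]
    change (shift Λ q ^ (i : ℤ)) (shift Λ q g) j = _
    rw [ih, shift_apply]; push_cast; rw [add_assoc]
  | pred i ih =>
    rw [zpow_sub_one]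
    change (shift Λ q ^ (-i : ℤ)) (fun j => g (j - 1)) j = _
    rw [ih]; push_cast; rw [add_sub_assoc]

instance perShift (k : Type) [CommRing k] [Algebra k Λ] [NeZero q] : Per k (shift Λ q) q where
  pos := NeZero.pos q
  fix _ := rfl
  per := by
    ext g j
    rw [← zpow_natCast, shift_zpow_apply]; simp

/-- weighted cyclic shifts: `(ZMod q → Λ)((s; shift))` -/
abbrev EE : Type := Sk (ZMod q → Λ) (shift Λ q) q

/-- series with coefficients constant along `ZMod q` -/
noncomputable def cstE : Lq Λ q →+* EE Λ q :=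
  Sk.map (Pi.constRingHom (ZMod q) Λ) fun _ => rfl

variable {Λ} in
/-- functoriality of `EE` -/
noncomputable def mapE {Λ' : Type} [Ring Λ'] (φ : Λ →+* Λ') : EE Λ q →+* EE Λ' q :=
  Sk.map (φ.compLeft (ZMod q)) fun _ => rfl

variable {Λ} in
/-- functoriality of `Lq` -/
noncomputable def mapL {Λ' : Type} [Ring Λ'] (φ : Λ →+* Λ') : Lq Λ q →+* Lq Λ' q :=
  Sk.map φ fun _ => rfl

/-- constants `Λ → EE Λ q` -/
noncomputable def eC : Λ →+* EE Λ q := (cstE Λ q).comp (Sk.cst 1 q)

variable {Λ q} in
/-- coefficientwise average over `ZMod q` -/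
noncomputable def avg (Ω : Type) [Field Ω] [Algebra Ω Λ] [NeZero q] (y : EE Λ q) : Lq Λ q :=
  ⟨fun n => (q : Ω)⁻¹ • ∑ j : ZMod q, y.co n j, by
    obtain ⟨a, ha⟩ := y.bdd; exact ⟨a, fun n hn => by simp [ha n hn]⟩⟩

end EE

end Crest.Agent.KU
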