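import Crest.Agent.KU.Jobs

/-! Row 180: the packaged extension step. -/

set_option autoImplicit false
set_option linter.unusedSectionVars false

namespace Crest.Agent.KU

open Finset Module Polynomial

lemma An.bb_ord1 (a : An) : a.bb ∈ NC.ordGe _ _ 1 := fun w hw => by
  simp [An.bb, a.ord1 w hw]

lemma lv_smul {Ω ι : Type} [Field Ω] [Fintype ι] (c : Ω) (l y : ι → Ω) :
    lv (c • l) y = c * lv l y := by
  simp [lv, mul_sum, mul_assoc]

lemma zz_smul {Ω ι : Type} [Field Ω] [Fintype ι] {q : ℕ} (c : Ω) (l : ι → Ω)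
    (x : ZMod q → ι → Ω) (m : ℕ) (j : ZMod q) : zz (c • l) x m j = c ^ m * zz l x m j := by
  simp [zz, lv_smul, prod_mul_distrib]

theorem jobStep (hG : JobGenB) (hX : JobGenX) (hN : JobNF) (hB : JobBr) : JobStep := by
  intro a c q _ hc hb P hP
  obtain ⟨ζ, hζ⟩ := HasRoots.out (F := a.F) q (NeZero.pos q)
  let p : Par a.F := { q := q, ζ := ζ, prim := hζ }
  have h0 : Gen (G0 (q := q) c.lr) := (hG (Ω := Om a.F) (ι := a.ι) (q := q)).2.2.1 c.lr c.np.1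
  have h1 := (hG (Ω := Om a.F) (ι := a.ι) (q := q)).1 _ _ hP h0
  obtain ⟨ξ, hξ, hPx, hG0⟩ := hX p (a.th q) a.two _ h1
  set x := xOf p (a.th q) ξ with hx
  have hr : ∀ κ : c.K, ∃ z : Om a.F, z ^ q = zz (c.lr κ) x q 0 := fun κ =>
    IsAlgClosed.exists_pow_nat_eq _ (NeZero.pos q)
  choose z hz using hr
  have hl : ∀ k j, lv (lOf a.bb k) (x j) ≠ 0 := fun k j => by
    rw [c.eq k, lv_smul]
    exact mul_ne_zero (c.cf_ne k) (hG0 _ j)
  obtain ⟨h2, h3⟩ := hN a.bb x a.bb_ord1 hl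
  obtain ⟨N, hNz⟩ := h2 (fun k => c.cf k * z (c.cls k)) fun k => by
    rw [mul_pow, hz, c.eq k, zz_smul]; rfl
  obtain ⟨a', ha'⟩ := hB a p ξ N hc hξ (h3 N)
  refine ⟨x, N, a', hPx, hG0, h3 N, fun k => ?_, ha'⟩
  rw [hNz]
  simp [c.cls_rep, c.cf_rep]

end Crest.Agent.KU
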