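import Crest.Agent.KU.Nat

/-! Row 180, job SubK: substitutions into two variables are morphisms. -/

set_option autoImplicit false
set_option linter.unusedSectionVars false

namespace Crest.Agent.KU

open Finset

namespace SubX

variable {F A A' ι κ : Type} [Fintype ι]

/-- the substitution of `y` -/
noncomputable abbrev sub [Ring A] (y : ι → NC A κ) : NC A ι →+* NC A κ :=
  ev (trivFilt A) (RingHom.id A) y

lemma adm [Ring A] {y : ι → NC A κ} (h1 : ∀ i, y i ∈ NC.ordGe A κ 1)
    (h2 : ∀ a i w, Commute a ((y i).co w)) :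
    Adm (trivFilt A) (RingHom.id A) y fun _ => 1 := by
  refine ⟨fun _ => by simp [trivFilt], h2, fun i w => ?_⟩
  cases w with
  | nil => simp [trivFilt, h1 i [] (by simp)]
  | cons j w =>
    have : (1 : ℤ) - ((j :: w).map fun _ => (1 : ℤ)).sum ≤ 0 := by simp
    simp only [trivFilt, this, if_true, AddSubgroup.mem_top]

lemma sub_api [Ring A] {y : ι → NC A κ} (h : Adm (trivFilt A) (RingHom.id A) y fun _ => 1) :
    (∀ a, sub y (NC.C a) = NC.C a) ∧ (∀ i, sub y (NC.X i) = y i) ∧
      ∀ d, ∀ f ∈ NC.ordGe A ι d, sub y f ∈ NC.ordGe A κ d := by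
  obtain ⟨h1, h2⟩ := (jobEv (trivFilt A) (RingHom.id A)).1 y _ h
  exact ⟨h1.const, h1.var, fun d f hf => NC.mem_triv.1 (h2 d f hf)⟩

lemma sub_nat [Ring A] [Ring A'] (θ : A →+* A') {y : ι → NC A κ}
    (h : Adm (trivFilt A) (RingHom.id A) y fun _ => 1)
    (h' : Adm (trivFilt A') (RingHom.id A') (fun i => NC.map θ (y i)) fun _ => 1) (f : NC A ι) :
    NC.map θ (sub y f) = sub (fun i => NC.map θ (y i)) (NC.map θ f) :=
  (jobNat (trivFilt A) (trivFilt A') (RingHom.id A) (RingHom.id A') θ θ (fun n r hr => by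
    by_cases hn : n ≤ 0
    · simp [trivFilt, hn]
    · simp only [trivFilt, hn, if_false, AddSubgroup.mem_bot] at hr ⊢
      rw [hr, map_zero]) fun _ => rfl).1 y _ h h' f

lemma map_mem [Ring A] [Ring A'] (θ : A →+* A') {d : ℕ} {f : NC A κ} (h : f ∈ NC.ordGe A κ d) :
    NC.map θ f ∈ NC.ordGe A' κ d := fun w hw => by simp [h w hw]

lemma adm_alg [Field F] [Ring A] [Algebra F A] {ψ : ι → NC F κ} (h : ∀ i, ψ i ∈ NC.ordGe F κ 1) :
    Adm (trivFilt A) (RingHom.id A) (fun i => NC.map (algebraMap F A) (ψ i)) fun _ => 1 :=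
  adm (fun i => map_mem _ (h i)) fun a _ _ => (Algebra.commutes _ a).symm

lemma algebraMap_eq [CommRing F] [Ring A] [Algebra F A] (c : F) :
    algebraMap F (NC A κ) c = NC.C (algebraMap F A c) := by
  rw [Algebra.algebraMap_eq_smul_one, Algebra.algebraMap_eq_smul_one]
  ext v; cases v <;> simp

lemma exists_dual [Field F] [DecidableEq ι] [Fintype κ] [DecidableEq κ] {v : κ → ι → F}
    (h : LinearIndependent F v) :
    ∃ c : κ → ι → F, ∀ t t', ∑ i, c t i * v t' i = if t = t' then 1 else 0 := by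
  obtain ⟨g, hg⟩ := (Fintype.linearCombination F v).exists_leftInverse_of_injective
    (LinearMap.ker_eq_bot.2 (linearIndependent_iff_injective_fintypeLinearCombination.1 h))
  refine ⟨fun t i => g (Pi.single i 1) t, fun t t' => ?_⟩
  have h1 := congrFun (LinearMap.congr_fun hg (Pi.single t' 1)) t
  rw [LinearMap.comp_apply, Fintype.linearCombination_apply_single, one_smul,
    LinearMap.pi_apply_eq_sum_univ, Finset.sum_apply] at h1
  rw [← Pi.single_apply, ← LinearMap.id_apply (R := F) (Pi.single t' (1 : F) : κ → F), ← h1]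
  refine sum_congr rfl fun i _ => ?_
  rw [mul_comm, Pi.smul_apply, smul_eq_mul]
  have : (Pi.single i 1 : ι → F) = fun j => if i = j then 1 else 0 := by
    funext j; simp [Pi.single_apply, eq_comm]
  simp only [this]

lemma isMor [Field F] [Ring A] [Algebra F A] [DecidableEq ι] {ψ : ι → NC F (Fin 2)}
    (h : ∀ i, ψ i ∈ NC.ordGe F (Fin 2) 1)
    (hl : LinearIndependent F fun t : Fin 2 => fun i => (ψ i).co [t]) :
    IsMor (RingHom.id F) (subPhi A ψ) := by
  obtain ⟨h1, h2, h3⟩ := sub_api (adm_alg (A := A) h)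
  refine ⟨fun c => by rw [algebraMap_eq, algebraMap_eq]; exact h1 _, fun B hB f => ?_⟩
  obtain ⟨c, hc⟩ := exists_dual hl
  let g : NC A ι := NC.C (f.co []) +
    ∑ t, ∑ i, NC.C (f.co [t] * algebraMap F A (c t i)) * NC.X i
  obtain ⟨b, hb, hgb⟩ := hB g
  refine ⟨subPhi A ψ b, Algebra.subset_adjoin ⟨b, hb, rfl⟩, ?_⟩
  have e : f - subPhi A ψ b = (f - subPhi A ψ g) + subPhi A ψ (g - b) := by rw [map_sub]; abel
  rw [e]
  refine add_mem (fun w hw => ?_) (h3 2 _ hgb)
  have eg : subPhi A ψ g = NC.C (f.co []) + ∑ t, ∑ i,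
      NC.C (f.co [t] * algebraMap F A (c t i)) * NC.map (algebraMap F A) (ψ i) := by
    simp only [g, subPhi, map_add, map_sum, map_mul (ev _ _ _), h1, h2]
  rw [eg]
  match w, hw with
  | [], _ => simp [h _ [] (by simp)]
  | [t'], _ =>
    simp only [NC.co_sub, NC.co_add, NC.C_cons, NC.co_sum, NC.C_mul_co, NC.co_map, zero_add,
      mul_assoc, ← map_mul, ← mul_sum, ← map_sum, hc]
    simp [apply_ite (algebraMap F A)]
  | _ :: _ :: _, hw => simp at hw

end SubX

open SubX in
theorem jobSubK : JobSubK := by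
  intro a ψ h hl h0 D' _ _ _ _ i a₀ _
  refine ⟨⟨a.F, D', Fin 2, by simp⟩, RingHom.id _, subPhi D' ψ, isMor h hl, ?_⟩
  have e : (fun j => NC.map i.toRingHom (NC.map (algebraMap a.F a.D) (ψ j))) =
      fun j => NC.map (algebraMap a.F D') (ψ j) := by
    funext j; ext w; simp
  have := sub_nat i.toRingHom (adm_alg (A := a.D) h) (e ▸ adm_alg (A := D') h)
    (NC.C a₀ + a.B)
  rw [e, map_add (sub _), (sub_api (adm_alg (A := a.D) h)).1] at this
  change IsAlgebraic a.F (sub _ _)
  rw [← this, show sub _ a.B = 0 from h0, add_zero, NC.map_C]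
  let C' : D' →ₐ[a.F] NC D' (Fin 2) := { NC.C with commutes' := fun c => (algebraMap_eq c).symm }
  exact (IsAlgebraic.of_finite a.F (i a₀)).algHom C'

end Crest.Agent.KU
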